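import Mathlib

/-!
# P048: windows on one side of the middle

Labels on one side of the middle of the link tree are ordered by their distance from the middle.
For blocks with total at least `M - 3` some window of blocks closes to every length around `M`,
as soon as `M ≥ 2a + 3`.
-/

namespace Vale.Agent.P048

open Finset

/-- Shortest content of an inner block: a detour through its label. -/
def short (q : ℕ) : ℕ := min q 3

/-- Longest content of an inner block: its label inserted. -/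
def long (q : ℕ) : ℕ := if 2 ≤ q then q + 1 else q

/-- One when a block has at least two vertices. -/
def two (q : ℕ) : ℕ := if 2 ≤ q then 1 else 0

theorem short_le_long (q : ℕ) : short q ≤ q ∧ short q ≤ 3 ∧ long q = q + two q ∧
    short q + two q ≤ long q ∧ short q ≤ 1 + 2 * two q := by
  unfold short long two
  split_ifs <;> omega

theorem sum_Ioo_left {i j : ℕ} (h : i + 1 < j) (f : ℕ → ℕ) :
    ∑ x ∈ Ioo i j, f x = f (i + 1) + ∑ x ∈ Ioo (i + 1) j, f x := by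
  rw [← Finset.sum_insert (s := Ioo (i + 1) j) (a := i + 1) (by simp)]
  refine Finset.sum_congr ?_ fun _ _ => rfl
  ext x
  simp only [mem_insert, mem_Ioo]
  omega

theorem sum_Ioo_right {i j : ℕ} (h : i + 1 < j) (f : ℕ → ℕ) :
    ∑ x ∈ Ioo i j, f x = (∑ x ∈ Ioo i (j - 1), f x) + f (j - 1) := by
  rw [add_comm, ← Finset.sum_insert (s := Ioo i (j - 1)) (a := j - 1) (by simp)]
  refine Finset.sum_congr ?_ fun _ _ => rfl
  ext x
  simp only [mem_insert, mem_Ioo]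
  omega

theorem sums_bound (q : ℕ → ℕ) (S : Finset ℕ) :
    ∑ x ∈ S, short (q x) ≤ 3 * S.card ∧
      ∑ x ∈ S, short (q x) + ∑ x ∈ S, two (q x) ≤ ∑ x ∈ S, long (q x) ∧
      ∑ x ∈ S, short (q x) ≤ S.card + 2 * ∑ x ∈ S, two (q x) ∧
      ∑ x ∈ S, long (q x) = ∑ x ∈ S, q x + ∑ x ∈ S, two (q x) ∧
      ∑ x ∈ S, short (q x) ≤ ∑ x ∈ S, q x := by
  refine ⟨?_, ?_, ?_, ?_, sum_le_sum fun x _ => (short_le_long _).1⟩
  · rw [mul_comm, ← smul_eq_mul]
    exact sum_le_card_nsmul _ _ _ fun x _ => (short_le_long _).2.1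
  · rw [← sum_add_distrib]
    exact sum_le_sum fun x _ => (short_le_long _).2.2.2.1
  · refine (sum_le_sum fun x _ => (short_le_long (q x)).2.2.2.2).trans ?_
    rw [sum_add_distrib, mul_sum]
    simp
  · rw [← sum_add_distrib]
    exact sum_congr rfl fun x _ => (short_le_long _).2.2.1

theorem strict_steps {k : ℕ} {s : ℕ → ℕ} (hs : ∀ x, x + 1 < k → s x < s (x + 1)) :
    ∀ i j, i ≤ j → j < k → s i + (j - i) ≤ s j := by
  intro i j hij
  induction j, hij using Nat.le_induction with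
  | base => intro _; omega
  | succ j hj ih =>
    intro hk
    have := hs j hk
    have := ih (by omega)
    omega

/-- Only the left end can be improved: impossible. -/
theorem arith_left {M d d1 ri r1 C S N p1 q1 qj : ℕ}
    (hhigh : M < d + 5 + C) (hC : C = p1 + S) (hp : p1 ≤ q1) (hqj : 1 ≤ qj)
    (hlow : d1 + 3 + q1 + qj + (S + N) < M) (hm : ri ≤ r1) :
    ri + d1 < r1 + d := by omega

/-- The right end can be improved. -/
theorem arith_right {M a g d d2 ri r2 rj R n C S N p2 q2 qi t si s2 sj : ℕ}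
    (hM : 2 * a + 3 ≤ M) (hhigh : M < d + 5 + C) (hC : C = S + p2)
    (hp : p2 ≤ q2) (hp' : p2 ≤ 1 + 2 * t) (ht : t ≤ 1) (hqi : 1 ≤ qi)
    (hlow : d2 + 3 + qi + q2 + (S + N) < M) (hN : S + 1 ≤ n + 2 * N) (hC3 : C ≤ 3 * n)
    (hB : r2 + d ≤ rj + d2) (hd : d ≤ ri + rj) (hb : ri + R + 2 * g ≤ 2 * si + 2 * a)
    (htop : rj ≤ R) (hgap : rj + 2 * s2 ≤ r2 + 2 * sj) (hs2 : si + n ≤ s2) (hsj : sj < g) :
    False := by omega

/-- Both ends must be moved, and then the shape is very special. -/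
theorem arith_both {M a g d d3 ri r1 r2 rj R n C S N p1 q1 p2 q2 si s2 sj : ℕ}
    (hM : 2 * a + 3 ≤ M) (hhigh : M < d + 5 + C) (hC : C = p1 + (S + p2))
    (hp1 : p1 ≤ q1) (hp2 : p2 ≤ q2) (hp1' : p1 ≤ 3) (hp2' : p2 ≤ 3)
    (hlow : d3 + 3 + q1 + q2 + (S + N) < M) (hN : S + 2 ≤ n + 2 * N) (hC3 : C ≤ 3 * n)
    (hd3 : d + r1 + r2 ≤ d3 + ri + rj) (hd : d ≤ ri + rj) (hm : ri ≤ r1)
    (hb : ri + R + 2 * g ≤ 2 * si + 2 * a)
    (htop : rj ≤ R) (hgap : rj + 2 * s2 ≤ r2 + 2 * sj) (hs2 : si + n ≤ s2) (hsj : sj < g)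
    (hev : d % 2 = 0) (hpi : ri % 2 = R % 2) (hp1R : r1 % 2 = R % 2) (hpj : rj % 2 = R % 2) :
    d = ri + rj ∧ r1 = ri ∧ 2 * si + 2 * a ≤ ri + R + 2 * g + 1 := by omega

/-- The special shape forces a window through all blocks. -/
theorem arith_tight {M a g d d1 ri rj R n C S N p1 q1 qj si sj : ℕ}
    (hM : 2 * a + 3 ≤ M) (hhigh : M < d + 5 + C) (hC : C = p1 + S) (hp : p1 ≤ q1)
    (hp' : p1 ≤ 3) (hqj : 1 ≤ qj) (hlow : d1 + 3 + q1 + qj + (S + N) < M)
    (hN : S + 1 ≤ n + 2 * N) (hC3 : C ≤ 3 * n) (hd : d = ri + rj)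
    (hd1 : rj ≤ d1 + ri) (hri : ri ≤ 2)
    (hb : ri + R + 2 * g ≤ 2 * si + 2 * a)
    (htop : rj ≤ R) (hb0 : R + 2 * g ≤ 2 * a) (hsj : sj < g) (hss : si + n + 1 ≤ sj) :
    si ≤ 1 ∧ sj + 1 = g ∧ sj = si + n + 1 ∧ ri = 2 ∧ C ≤ n + 8 ∧ 2 * n + 3 ≤ C := by omega

/-- The final contradiction. -/
theorem arith_last {M n d1 d2 rj C qi qj q1 q2 V1 V2 S1 S2 N1 N2 p1 p2 : ℕ}
    (hhigh : M < 2 + rj + 5 + C) (hC1 : C = p1 + S1) (hC2 : C = S2 + p2)
    (hp1 : p1 ≤ q1) (hp1' : p1 ≤ 3) (hp2' : p2 ≤ 3)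
    (hl1 : d1 + 3 + q1 + qj + (V1 + N1) < M) (hl2 : d2 + 3 + qi + q2 + (V2 + N2) < M)
    (hS1 : S1 ≤ V1) (hN1 : S1 + 1 ≤ n + 2 * N1) (hN2 : S2 + 1 ≤ n + 2 * N2)
    (hV : M ≤ qi + qj + (q1 + V1) + 3) (hV' : q1 + V1 = V2 + q2)
    (hd1 : rj ≤ d1 + 2) (hC : 2 * n + 3 ≤ C)
    (hn : 2 ≤ n) : False := by omega

/-- A centre label before the tight window, and that window from it is not high. -/
theorem arith_centre_low {M n d1 r2 rj C q0 qj q1 q2 V0 V1 S1 N0 N1 p1 : ℕ}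
    (hhigh : M < 2 + rj + 5 + C) (hC1 : C = p1 + S1) (hp1 : p1 ≤ q1) (hp1' : p1 ≤ 3)
    (hl1 : d1 + 3 + q1 + qj + (V1 + N1) < M) (hS1 : S1 ≤ V1)
    (hN1 : S1 + 1 ≤ n + 2 * N1) (hl0 : r2 + 3 + q0 + q2 + (V0 + N0) < M)
    (hV : M ≤ q0 + (V0 + q2) + qj + 3) (hd1 : rj ≤ d1 + 2) (hr2 : 2 ≤ r2)
    (hC : 2 * n + 3 ≤ C) (hn : 2 ≤ n) : False := by omega

/-- A centre label before the tight window, and that window from it is high. -/
theorem arith_centre_high {M a g n d2 r2 rj R C C0 qi q2 pi S2 V2 N2 p2 : ℕ}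
    (hM : 2 * a + 3 ≤ M) (hg : n + 3 ≤ g) (hb : R + 2 * g ≤ 2 * a) (hr2 : r2 ≤ R)
    (hhigh0 : M < r2 + 5 + C0) (hC0 : C0 = pi + S2) (hpi : pi ≤ qi) (hpi' : pi ≤ 3)
    (hhigh : M < 2 + rj + 5 + C) (hC2 : C = S2 + p2) (hp2 : p2 ≤ q2)
    (hl2 : d2 + 3 + qi + q2 + (V2 + N2) < M) (hS2 : S2 ≤ V2)
    (hN2 : S2 + 1 ≤ n + 2 * N2) (hS3 : S2 + 3 ≤ 3 * n)
    (hd2 : r2 ≤ d2 + 2) (hgap : rj ≤ r2 + 2) : False := by omega

/-- The label before the tight window is the centre. -/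
theorem arith_centre {M a g n r0 rj R C : ℕ} (hM : 2 * a + 3 ≤ M)
    (hhigh : M < 2 + rj + 5 + C) (hrj : rj ≤ R) (hC : C ≤ 3 * n) (hC' : C ≤ n + 8)
    (hg : g = n + 3) (hb : r0 + R + 2 * g ≤ 2 * a) (hpar : r0 % 2 = 0) : r0 = 0 := by omega

/-- The tight window contradicts the low windows inside it. -/
theorem tight_false {a g R M k n i j C : ℕ} (rho : ℕ → ℕ) (d : ℕ → ℕ → ℕ) (s q : ℕ → ℕ)
    (hV : M ≤ ∑ x ∈ range k, q x + 3) (hM : 2 * a + 3 ≤ M) (hb : R + 2 * g ≤ 2 * a)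
    (hn : n = j - i - 1) (hn2 : 2 ≤ n) (hi : i ≤ 1) (hij : i + 1 < j - 1) (hj : j + 1 = k)
    (hh : M < 2 + rho (s j) + 5 + C) (hC : C = ∑ x ∈ Ioo i j, short (q x))
    (hC2 : 2 * n + 3 ≤ C) (hr2 : 2 ≤ rho (s (j - 1))) (htop : rho (s (j - 1)) ≤ R)
    (hgap : rho (s j) ≤ rho (s (j - 1)) + 2)
    (hd1 : rho (s j) ≤ d (s (i + 1)) (s j) + 2)
    (hd2 : rho (s (j - 1)) ≤ d (s i) (s (j - 1)) + 2)
    (hg : i = 1 → n + 3 ≤ g ∧ d (s 0) (s (j - 1)) = rho (s (j - 1)))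
    (l1 : d (s (i + 1)) (s j) + 3 + q (i + 1) + q j + ∑ x ∈ Ioo (i + 1) j, long (q x) < M)
    (l2 : d (s i) (s (j - 1)) + 3 + q i + q (j - 1) + ∑ x ∈ Ioo i (j - 1), long (q x) < M)
    (l0 : d (s 0) (s (j - 1)) + 5 + ∑ x ∈ Ioo 0 (j - 1), short (q x) ≤ M →
      d (s 0) (s (j - 1)) + 3 + q 0 + q (j - 1) + ∑ x ∈ Ioo 0 (j - 1), long (q x) < M) :
    False := by
  obtain ⟨-, -, hN1, hT1, hS1⟩ := sums_bound q (Ioo (i + 1) j)
  obtain ⟨hS23, -, hN2, hT2, hS2⟩ := sums_bound q (Ioo i (j - 1))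
  rw [Nat.card_Ioo] at hN1 hN2 hS23
  have hn' : i + 1 < j := by clear * - hij; omega
  have e1 := hC.trans (sum_Ioo_left hn' fun x => short (q x))
  have e2 := hC.trans (sum_Ioo_right hn' fun x => short (q x))
  obtain ⟨c1, c1', -, -, -⟩ := short_le_long (q (i + 1))
  obtain ⟨c2, c2', -, -, -⟩ := short_le_long (q (j - 1))
  have hl1 : d (s (i + 1)) (s j) + 3 + q (i + 1) + q j +
      (∑ x ∈ Ioo (i + 1) j, q x + ∑ x ∈ Ioo (i + 1) j, two (q x)) < M := hT1 ▸ l1
  have hl2 : d (s i) (s (j - 1)) + 3 + q i + q (j - 1) +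
      (∑ x ∈ Ioo i (j - 1), q x + ∑ x ∈ Ioo i (j - 1), two (q x)) < M := hT2 ▸ l2
  have hN1' : ∑ x ∈ Ioo (i + 1) j, short (q x) + 1 ≤
      n + 2 * ∑ x ∈ Ioo (i + 1) j, two (q x) := by clear * - hN1 hn hij; omega
  have hN2' : ∑ x ∈ Ioo i (j - 1), short (q x) + 1 ≤
      n + 2 * ∑ x ∈ Ioo i (j - 1), two (q x) := by clear * - hN2 hn hij; omega
  rcases Nat.le_one_iff_eq_zero_or_eq_one.1 hi with hi' | hi'
  · have e : range k = insert i (insert j (Ioo i j)) := by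
      ext x
      simp only [mem_range, mem_insert, mem_Ioo]
      clear * - hi' hj
      omega
    have n1 : i ∉ insert j (Ioo i j) := by simp; clear * - hn'; omega
    have n2 : j ∉ Ioo i j := by simp
    rw [e, sum_insert n1, sum_insert n2, sum_Ioo_left hn' q] at hV
    exact arith_last (n := n) (qi := q i) (qj := q j) hh e1 e2 c1 c1' c2' hl1 hl2 hS1
      hN1' hN2' (by clear * - hV; omega)
      ((sum_Ioo_left hn' q).symm.trans (sum_Ioo_right hn' q)) hd1 hC2 hn2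
  · obtain ⟨hg3, hd0⟩ := hg hi'
    subst hi'
    have e : range k = insert 0 (insert j (Ioo 0 j)) := by
      ext x
      simp only [mem_range, mem_insert, mem_Ioo]
      clear * - hj
      omega
    have n1 : (0 : ℕ) ∉ insert j (Ioo 0 j) := by simp; clear * - hn'; omega
    have n2 : j ∉ Ioo 0 j := by simp
    rw [e, sum_insert n1, sum_insert n2, sum_Ioo_right (i := 0) (by omega) q] at hV
    obtain ⟨-, -, -, hT0, -⟩ := sums_bound q (Ioo 0 (j - 1))
    have e0 := sum_Ioo_left (i := 0) (j := j - 1) (by omega) fun x => short (q x)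
    simp only [Nat.zero_add] at e0
    rw [hd0, hT0] at l0
    by_cases hh0 : rho (s (j - 1)) + 5 + ∑ x ∈ Ioo 0 (j - 1), short (q x) ≤ M
    · exact arith_centre_low (n := n) hh e1 c1 c1' hl1 hS1 hN1' (l0 hh0)
        (by clear * - hV; omega) hd1 hr2 hC2 hn2
    · obtain ⟨c3, c3', -, -, -⟩ := short_le_long (q 1)
      exact arith_centre_high (n := n) (g := g) hM hg3 hb htop (by clear * - hh0; omega) e0
        c3 c3' hh e2 c2 hl2 hS2 hN2' (by clear * - hS23 hn hij; omega) hd2 hgap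

/-- The window lemma on one side. -/
theorem exists_window (a g R M k : ℕ) (rho : ℕ → ℕ) (d : ℕ → ℕ → ℕ) (s q : ℕ → ℕ)
    (hM : 2 * a + 3 ≤ M) (hg : g ≤ a) (hk : 2 ≤ k)
    (hs : ∀ x, x + 1 < k → s x < s (x + 1)) (hsg : ∀ x < k, s x < g)
    (hq : ∀ x < k, 1 ≤ q x) (hV : M ≤ ∑ x ∈ range k, q x + 3)
    (hmono : ∀ x y, x ≤ y → y < g → rho x ≤ rho y)
    (hpar : ∀ x < g, rho x % 2 = R % 2)
    (htop : ∀ x < g, rho x ≤ R)
    (hbound : ∀ x < g, rho x + R ≤ 2 * x + 2 * (a - g))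
    (hgap : ∀ x y, x < y → y < g → rho y ≤ rho x + 2 * (y - x))
    (hdle : ∀ x y, x < g → y < g → d x y ≤ rho x + rho y)
    (hdge : ∀ x y, x < g → y < g → rho y ≤ d x y + rho x)
    (hdeven : ∀ x y, x < g → y < g → d x y % 2 = 0)
    (hdsymm : ∀ x y, x < g → y < g → d x y = d y x)
    (hfour : ∀ x y z, x < g → y < g → z < g →
      d x z + rho y ≤ max (d y z + rho x) (d x y + rho z))
    (hbranch : ∀ x y, x < y → y < g → rho x = rho y → d x y = 2 * rho x → 3 ≤ rho x →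
      rho x + R + 2 ≤ 2 * x + 2 * (a - g)) :
    ∃ i j, i < j ∧ j < k ∧
      d (s i) (s j) + 5 + ∑ x ∈ Ioo i j, short (q x) ≤ M ∧
      M ≤ d (s i) (s j) + 3 + q i + q j + ∑ x ∈ Ioo i j, long (q x) := by
  classical
  by_contra hno
  push Not at hno
  have hstep := strict_steps hs
  -- the whole sequence is high
  have hfull : M < d (s 0) (s (k - 1)) + 5 + ∑ x ∈ Ioo 0 (k - 1), short (q x) := by
    by_contra hle
    have h1 := hno 0 (k - 1) (by omega) (by omega) (by omega)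
    have e : range k = insert 0 (insert (k - 1) (Ioo 0 (k - 1))) := by
      ext x
      simp only [mem_range, mem_insert, mem_Ioo]
      omega
    have n1 : (0 : ℕ) ∉ insert (k - 1) (Ioo 0 (k - 1)) := by simp; omega
    have n2 : k - 1 ∉ Ioo 0 (k - 1) := by simp
    rw [e, sum_insert n1, sum_insert n2] at hV
    obtain ⟨-, -, -, h2, -⟩ := sums_bound q (Ioo 0 (k - 1))
    omega
  have hex : ∃ w, ∃ i j, i < j ∧ j < k ∧ j - i = w ∧
      M < d (s i) (s j) + 5 + ∑ x ∈ Ioo i j, short (q x) :=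
    ⟨k - 1, 0, k - 1, by omega, by omega, by omega, hfull⟩
  obtain ⟨i, j, hij, hjk, hw, hhigh⟩ := Nat.find_spec hex
  have hlow : ∀ i' j', i' < j' → j' < k → j' - i' < j - i →
      d (s i') (s j') + 3 + q i' + q j' + ∑ x ∈ Ioo i' j', long (q x) < M := by
    intro i' j' h1 h2 h3
    refine hno i' j' h1 h2 (not_lt.1 fun h4 => ?_)
    exact Nat.find_min hex (hw ▸ h3) ⟨i', j', h1, h2, rfl, h4⟩
  have si := hsg i (by omega)
  have sj := hsg j hjk
  have sij := hstep i j hij.le hjk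
  have dij := hdle _ _ si sj
  -- at least one inner block
  have hn : i + 1 < j := by
    by_contra hadj
    have : Ioo i j = ∅ := by
      ext x
      simp
      omega
    rw [this, sum_empty] at hhigh
    have := hbound _ si
    have := htop _ sj
    omega
  obtain ⟨hC3, -, -, -, -⟩ := sums_bound q (Ioo i j)
  rw [Nat.card_Ioo] at hC3
  obtain ⟨C, hC⟩ : ∃ C, C = ∑ x ∈ Ioo i j, short (q x) := ⟨_, rfl⟩
  rw [← hC] at hhigh hC3
  have si' := hsg (i + 1) (by omega)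
  have sj' := hsg (j - 1) (by omega)
  have sij' := hstep i (j - 1) (by omega) (by omega)
  have hs1 := hs i (by omega)
  have hs2 : s (j - 1) < s j := by
    have := hs (j - 1) (by omega)
    rwa [Nat.sub_add_cancel (by omega)] at this
  have m1 := hmono _ _ hs1.le si'
  have m2 := hmono _ _ hs2.le sj
  have b1 := hbound _ si
  have t2 := htop _ sj
  have g2 := hgap _ _ hs2 sj
  -- the window without the left block is no option
  have l1 := hlow (i + 1) j hn hjk (by omega)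
  obtain ⟨-, hE1, hN1, hT1, hS1⟩ := sums_bound q (Ioo (i + 1) j)
  rw [Nat.card_Ioo] at hN1
  have e1 : C = short (q (i + 1)) + ∑ x ∈ Ioo (i + 1) j, short (q x) := hC ▸ sum_Ioo_left hn _
  obtain ⟨c1, c1', -, -, -⟩ := short_le_long (q (i + 1))
  have qj := hq j hjk
  have qi := hq i (by omega)
  have hA : rho (s i) + d (s (i + 1)) (s j) < rho (s (i + 1)) + d (s i) (s j) :=
    arith_left (qj := q j) (q1 := q (i + 1)) hhigh e1 c1 qj
      (N := ∑ x ∈ Ioo (i + 1) j, two (q x)) (by omega) m1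
  -- the window without the right block
  have l2 := hlow i (j - 1) (by omega) (by omega) (by omega)
  obtain ⟨-, hE2, hN2, hT2, hS2⟩ := sums_bound q (Ioo i (j - 1))
  rw [Nat.card_Ioo] at hN2
  have e2 : C = (∑ x ∈ Ioo i (j - 1), short (q x)) + short (q (j - 1)) :=
    hC ▸ sum_Ioo_right hn _
  obtain ⟨c2, c2', -, -, c2''⟩ := short_le_long (q (j - 1))
  have u2 : two (q (j - 1)) ≤ 1 := by unfold two; split_ifs <;> omega
  have b1' : rho (s i) + R + 2 * g ≤ 2 * s i + 2 * a := by clear * - b1 hg; omega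
  have g2' : rho (s j) + 2 * s (j - 1) ≤ rho (s (j - 1)) + 2 * s j := by
    clear * - g2 hs2; omega
  obtain ⟨n, hnn⟩ : ∃ n, n = j - i - 1 := ⟨_, rfl⟩
  have sn : s i + n ≤ s (j - 1) := by clear * - sij' hnn; omega
  have hC3' : C ≤ 3 * n := hnn ▸ hC3
  by_cases hB : rho (s (j - 1)) + d (s i) (s j) ≤ rho (s j) + d (s i) (s (j - 1))
  · exact arith_right (n := n) (t := two (q (j - 1))) (qi := q i) hM hhigh e2 c2 c2'' u2 qi
      (N := ∑ x ∈ Ioo i (j - 1), two (q x))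
      (by clear * - l2 hE2; omega) (by clear * - hN2 hnn hn; omega) hC3' hB dij b1' t2 g2' sn sj
  -- both ends: the inner window
  have f1 := hfour _ _ _ si si' sj
  have f2 := hfour _ _ _ si sj' si'
  rw [hdsymm _ _ sj' si'] at f2
  have hn2 : i + 1 < j - 1 := by
    by_contra hle
    have e : j - 1 = i + 1 := by omega
    rw [e] at hB
    clear * - hA hB f1
    omega
  have hd3 : d (s i) (s j) + rho (s (i + 1)) + rho (s (j - 1)) ≤
      d (s (i + 1)) (s (j - 1)) + rho (s i) + rho (s j) := by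
    clear * - hA hB f1 f2
    omega
  have l3 := hlow (i + 1) (j - 1) hn2 (by omega) (by omega)
  obtain ⟨-, hE3, hN3, hT3, hS3⟩ := sums_bound q (Ioo (i + 1) (j - 1))
  rw [Nat.card_Ioo] at hN3
  have e3 : C = short (q (i + 1)) +
      ((∑ x ∈ Ioo (i + 1) (j - 1), short (q x)) + short (q (j - 1))) := by
    rw [e1, sum_Ioo_right (by omega) fun x => short (q x)]
  have p5 := hdeven _ _ si sj
  obtain ⟨hd, heta, hb0⟩ := arith_both (n := n) hM hhigh e3 c1 c2 c1' c2'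
    (N := ∑ x ∈ Ioo (i + 1) (j - 1), two (q x))
    (by clear * - l3 hE3; omega) (by clear * - hN3 hnn hn2; omega) hC3' hd3 dij m1 b1' t2 g2' sn sj
    p5 (hpar _ si) (hpar _ si') (hpar _ sj)
  have hdd : d (s i) (s (i + 1)) = 2 * rho (s i) := by
    have := hdle _ _ si si'
    clear * - f1 hA hd heta this
    omega
  have hsmall : rho (s i) ≤ 2 := by
    by_contra hbig
    have := hbranch _ _ hs1 si' heta.symm hdd (by omega)
    clear * - this hb0 hg
    omega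
  have d1 := hdge _ _ si' sj
  rw [heta] at d1
  have d2 := hdge _ _ si sj'
  have hn2' : 2 ≤ n := by clear * - hnn hn2; omega
  have hb0' : R + 2 * g ≤ 2 * a := by
    have := hbound 0 (by omega)
    clear * - this hg
    omega
  obtain ⟨si0, sj0, sij0, ri2, hC8, hC2⟩ := arith_tight (n := n) (qj := q j) (q1 := q (i + 1))
    hM hhigh e1 c1 c1' qj (N := ∑ x ∈ Ioo (i + 1) j, two (q x))
    (by clear * - l1 hE1; omega) (by clear * - hN1 hnn hn; omega) hC3' hd d1 hsmall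
    b1' t2 hb0' sj (by clear * - sij hnn hn; omega)
  have hjlast : j = k - 1 := by
    by_contra hne
    have := hstep j (k - 1) (by omega) (by omega)
    have := hsg (k - 1) (by omega)
    omega
  have hr2 : 2 ≤ rho (s (j - 1)) := ri2 ▸ hmono _ _ (hs1.le.trans (by
    have := hstep (i + 1) (j - 1) hn2.le (by clear * - hjk; omega)
    clear * - this
    omega)) sj'
  have hh : M < 2 + rho (s j) + 5 + C := by clear * - hhigh hd ri2; omega
  have hk0 : 0 < k := by clear * - hk; omega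
  refine tight_false (n := n) rho d s q hV hM hb0' hnn hn2' ?_ hn2
    (by clear * - hjlast hk; omega) hh hC hC2 hr2 (htop _ sj')
    (by clear * - g2' sij0 sn hs2; omega) (ri2 ▸ d1) (ri2 ▸ d2) ?_ l1 l2
    (hno 0 (j - 1) (by clear * - hn2; omega) (by clear * - hjk; omega))
  · have h0 := hstep 0 i (Nat.zero_le _) (by clear * - hij hjk; omega)
    clear * - h0 si0
    omega
  · intro hi1
    have h0 := hstep 0 i (Nat.zero_le _) (by clear * - hij hjk; omega)
    have hg3 : g = n + 3 := by clear * - sj0 sij0 h0 hi1 si0; omega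
    have hs0 : s 0 = 0 := by clear * - h0 si0 hi1; omega
    have h1 := hpar (s 0) (hsg 0 hk0)
    have h2 := hpar _ si
    have h3 := hbound (s 0) (hsg 0 hk0)
    have hrho0 : rho (s 0) = 0 := by
      refine arith_centre (n := n) (g := g) hM hh t2 hC3' hC8 hg3 ?_
        (by clear * - h1 h2 ri2; omega)
      clear * - h3 hs0 hg
      omega
    have a1 := hdge _ _ (hsg 0 hk0) sj'
    have a2 := hdle _ _ (hsg 0 hk0) sj'
    rw [hrho0] at a1 a2
    exact ⟨hg3.ge, by clear * - a1 a2; omega⟩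

end Vale.Agent.P048
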