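import Vale.Agent.P048.Lists
import Vale.Agent.P048.SideWindow

/-!
# P048: blocks of equal labels and the cycle through a window

A path sorted by its labels splits into blocks of equal labels.  A block of at least two
vertices can be replaced by a detour through its label of every length from three up to one
more than its size, keeping both ends, so a window closes to every length in its interval.
-/

namespace Vale.Agent.P048

open Finset

variable {V : Type*}

/-- Consecutive blocks of a path with the labels adjacent to their blocks. -/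
structure IsBlocks (G : SimpleGraph V) (k : ℕ) (j : ℕ → V) (B : ℕ → List V) : Prop where
  ne : ∀ x < k, B x ≠ []
  nodup : ∀ x < k, (B x).Nodup
  chain : ∀ x < k, (B x).IsChain G.Adj
  glue : ∀ x, x + 1 < k → ∀ u ∈ (B x).getLast?, ∀ w ∈ (B (x + 1)).head?, G.Adj u w
  adj : ∀ x < k, ∀ v ∈ B x, G.Adj (j x) v
  sep : ∀ x < k, ∀ y < k, j x ∉ B y
  disj : ∀ x < k, ∀ y < k, ∀ v ∈ B x, v ∈ B y → x = y
  inj : ∀ x < k, ∀ y < k, j x = j y → x = y

/-- A path sorted by labels splits into blocks. -/
theorem exists_blocks [DecidableEq V] {G : SimpleGraph V} (lab : V → V) (pos : V → ℕ) :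
    ∀ P : List V, P ≠ [] → P.Nodup → P.IsChain G.Adj →
      (∀ u ∈ P, ∀ v ∈ P, pos (lab u) = pos (lab v) → lab u = lab v) →
      P.Pairwise (fun u v => pos (lab u) ≤ pos (lab v)) →
      ∃ (k : ℕ) (j : ℕ → V) (B : ℕ → List V), 1 ≤ k ∧ (∀ x < k, B x ≠ []) ∧
        (∀ x < k, (B x).Nodup ∧ (B x).IsChain G.Adj) ∧
        (∀ x, x + 1 < k → ∀ u ∈ (B x).getLast?, ∀ w ∈ (B (x + 1)).head?, G.Adj u w) ∧
        (∀ x < k, ∀ v ∈ B x, v ∈ P ∧ lab v = j x) ∧
        (∀ x, x + 1 < k → pos (j x) < pos (j (x + 1))) ∧
        ∑ x ∈ range k, (B x).length = P.length ∧ (B 0).head? = P.head? := by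
  intro P
  induction P with
  | nil => intro h; exact absurd rfl h
  | cons v r ih =>
    intro _ hnd hch hinj hpw
    by_cases hr : r = []
    · subst hr
      exact ⟨1, fun _ => lab v, fun _ => [v], le_rfl, by simp, by simp,
        fun x hx => by omega, by simp, fun x hx => by omega, by simp, rfl⟩
    obtain ⟨hvr, hndr⟩ := List.nodup_cons.1 hnd
    obtain ⟨hadj, hchr⟩ := List.isChain_cons.1 hch
    obtain ⟨hle, hpwr⟩ := List.pairwise_cons.1 hpw
    obtain ⟨k, j, B, hk, hne, hnc, hglue, hmem, hpos, hsum, hhead⟩ := ih hr hndr hchr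
      (fun a ha b hb => hinj a (List.mem_cons_of_mem _ ha) b (List.mem_cons_of_mem _ hb)) hpwr
    obtain ⟨w, hw⟩ : ∃ w, r.head? = some w := ⟨_, List.head?_eq_some_head hr⟩
    have hwB : w ∈ B 0 := List.mem_of_mem_head? (hhead.trans hw)
    have hwr : w ∈ r := List.mem_of_mem_head? hw
    by_cases heq : lab v = j 0
    · refine ⟨k, j, fun x => if x = 0 then v :: B 0 else B x, hk, fun x hx => ?_, fun x hx => ?_,
        fun x hx => ?_, fun x hx u hu => ?_, hpos, ?_, by simp⟩
      · dsimp only
        split_ifs with h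
        · simp
        · exact hne x hx
      · dsimp only
        split_ifs with h
        · subst h
          refine ⟨List.nodup_cons.2 ⟨fun h => hvr (hmem 0 hx v h).1, (hnc 0 hx).1⟩,
            (hnc 0 hx).2.cons fun u hu => hadj u ?_⟩
          rwa [hhead] at hu
        · exact hnc x hx
      · simp only [Nat.succ_ne_zero, if_false]
        split_ifs with h
        · subst h
          intro u hu
          rw [List.getLast?_cons_of_ne_nil (hne 0 (by omega))] at hu
          exact hglue 0 hx u hu
        · exact hglue x hx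
      · dsimp only at hu
        split_ifs at hu with h
        · subst h
          rcases List.mem_cons.1 hu with rfl | hu
          · exact ⟨List.mem_cons_self .., heq⟩
          · exact ⟨List.mem_cons_of_mem _ (hmem 0 hx u hu).1, (hmem 0 hx u hu).2⟩
        · exact ⟨List.mem_cons_of_mem _ (hmem x hx u hu).1, (hmem x hx u hu).2⟩
      · obtain ⟨k', rfl⟩ : ∃ k', k = k' + 1 := ⟨k - 1, by omega⟩
        rw [Finset.sum_range_succ'] at hsum ⊢
        simp only [Nat.succ_ne_zero, if_false, if_true, List.length_cons]
        omega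
    · refine ⟨k + 1, fun x => if x = 0 then lab v else j (x - 1),
        fun x => if x = 0 then [v] else B (x - 1), by omega, fun x hx => ?_, fun x hx => ?_,
        fun x hx => ?_, fun x hx u hu => ?_, fun x hx => ?_, ?_, by simp⟩
      · dsimp only
        split_ifs with h
        · simp
        · exact hne _ (by omega)
      · dsimp only
        split_ifs with h
        · simp
        · exact hnc _ (by omega)
      · simp only [Nat.succ_ne_zero, if_false, Nat.add_sub_cancel]
        split_ifs with h
        · subst h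
          intro u hu z hz
          simp only [List.getLast?_singleton, Option.mem_def, Option.some.injEq] at hu
          subst hu
          exact hadj z (by rwa [hhead] at hz)
        · have := hglue (x - 1) (by omega)
          rwa [Nat.sub_add_cancel (by omega : 1 ≤ x)] at this
      · dsimp only at hu ⊢
        split_ifs at hu ⊢ with h
        · simp only [List.mem_singleton] at hu
          subst hu
          exact ⟨List.mem_cons_self .., rfl⟩
        · exact ⟨List.mem_cons_of_mem _ (hmem _ (by omega) u hu).1, (hmem _ (by omega) u hu).2⟩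
      · simp only [Nat.succ_ne_zero, if_false, Nat.add_sub_cancel]
        split_ifs with h
        · subst h
          have h1 := (hmem 0 (by omega) w hwB).2
          have h2 : pos (lab v) ≤ pos (j 0) := h1 ▸ hle w hwr
          refine lt_of_le_of_ne h2 fun e => heq ?_
          rw [← h1] at e ⊢
          exact hinj v (List.mem_cons_self ..) w (List.mem_cons_of_mem _ hwr) e
        · have := hpos (x - 1) (by omega)
          rwa [Nat.sub_add_cancel (by omega : 1 ≤ x)] at this
      · rw [Finset.sum_range_succ']
        simp [hsum]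

variable {G : SimpleGraph V}

/-- A block shortened or lengthened by a detour through its label. -/
theorem exists_detour {B : List V} {y : V} (hne : B ≠ []) (hnd : B.Nodup)
    (hch : B.IsChain G.Adj) (hadj : ∀ v ∈ B, G.Adj y v) (hy : y ∉ B) {c : ℕ}
    (h1 : short B.length ≤ c) (h2 : c ≤ long B.length) :
    ∃ Q : List V, Q.length = c ∧ Q.Nodup ∧ Q.IsChain G.Adj ∧ Q.head? = B.head? ∧
      Q.getLast? = B.getLast? ∧ ∀ v ∈ Q, v ∈ B ∨ v = y := by
  rcases eq_or_ne c B.length with h | h
  · exact ⟨B, h.symm, hnd, hch, rfl, rfl, fun v hv => Or.inl hv⟩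
  cases B with
  | nil => exact absurd rfl hne
  | cons x B' =>
    obtain ⟨hxB', hnd'⟩ := List.nodup_cons.1 hnd
    have hc3 : 3 ≤ c ∧ c ≤ B'.length + 2 ∧ 1 ≤ B'.length := by
      simp only [List.length_cons, short, long] at h1 h2 h
      split_ifs at h2 <;> omega
    obtain ⟨W, hW⟩ : ∃ W, W = B'.drop (B'.length - (c - 2)) := ⟨_, rfl⟩
    have hWB : ∀ v ∈ W, v ∈ B' := fun v hv => List.mem_of_mem_drop (hW ▸ hv)
    have hWlen : W.length = c - 2 := by rw [hW, List.length_drop]; omega
    have hWne : W ≠ [] := List.ne_nil_of_length_pos (by omega)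
    refine ⟨x :: y :: W, by simp; omega, ?_, ?_, rfl, ?_, ?_⟩
    · refine List.nodup_cons.2 ⟨?_, List.nodup_cons.2 ⟨?_, hW ▸ hnd'.sublist (List.drop_sublist _ _)⟩⟩
      · intro hv
        rcases List.mem_cons.1 hv with hv | hv
        · exact hy (hv ▸ List.mem_cons_self ..)
        · exact hxB' (hWB x hv)
      · exact fun hv => hy (List.mem_cons_of_mem _ (hWB y hv))
    · refine .cons_cons (hadj x (List.mem_cons_self ..)).symm
        ((hW ▸ (List.IsChain.drop (List.isChain_cons.1 hch).2 _) : W.IsChain G.Adj).cons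
          fun z hz => hadj z (List.mem_cons_of_mem _ (hWB z (List.mem_of_mem_head? hz))))
    · rw [List.getLast?_cons_of_ne_nil (by simp), List.getLast?_cons_of_ne_nil hWne,
        List.getLast?_cons_of_ne_nil (List.ne_nil_of_length_pos (by omega)), hW,
        List.getLast?_drop, if_neg (by omega)]
    · intro v hv
      simp only [List.mem_cons] at hv
      rcases hv with rfl | rfl | hv
      · exact Or.inl (List.mem_cons_self ..)
      · exact Or.inr rfl
      · exact Or.inl (List.mem_cons_of_mem _ (hWB v hv))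

variable {k : ℕ} {j : ℕ → V} {B : ℕ → List V}

/-- The part of a window before its last block, of every length in its interval. -/
theorem exists_middle (hB : IsBlocks G k j B) (i : ℕ) : ∀ t, i < t → t < k → ∀ T,
    1 + ∑ x ∈ Ioo i t, short (B x).length ≤ T →
    T ≤ (B i).length + ∑ x ∈ Ioo i t, long (B x).length →
    ∃ Q : List V, Q.length = T ∧ Q.Nodup ∧ Q.IsChain G.Adj ∧ (∀ z ∈ Q.head?, G.Adj (j i) z) ∧
      (∀ z ∈ Q.getLast?, ∀ w ∈ (B t).head?, G.Adj z w) ∧
      ∀ v ∈ Q, (∃ x, i ≤ x ∧ x < t ∧ v ∈ B x) ∨ ∃ x, i < x ∧ x < t ∧ v = j x := by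
  intro t
  induction t with
  | zero => intro h; omega
  | succ t ih =>
    intro hit htk T h1 h2
    rcases eq_or_lt_of_le (show i ≤ t by omega) with rfl | hlt
    · rw [show Ioo i (i + 1) = ∅ by ext x; simp] at h1 h2
      simp only [sum_empty, add_zero] at h1 h2
      have hik : i < k := by omega
      refine ⟨(B i).drop ((B i).length - T), by simp; omega,
        (hB.nodup i hik).sublist (List.drop_sublist _ _), (hB.chain i hik).drop _,
        fun z hz => hB.adj i hik z (List.mem_of_mem_drop (List.mem_of_mem_head? hz)),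
        fun z hz => hB.glue i htk z ?_,
        fun v hv => Or.inl ⟨i, le_rfl, by omega, List.mem_of_mem_drop hv⟩⟩
      rwa [List.getLast?_drop, if_neg (by omega)] at hz
    have hik : i < k := by omega
    have htk' : t < k := by omega
    rw [sum_Ioo_right (show i + 1 < t + 1 by omega), Nat.add_sub_cancel] at h1 h2
    obtain ⟨c, hc⟩ : ∃ c, c = max (short (B t).length)
        (T - ((B i).length + ∑ x ∈ Ioo i t, long (B x).length)) := ⟨_, rfl⟩
    obtain ⟨-, e1, -, -, -⟩ := sums_bound (fun x => (B x).length) (Ioo i t)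
    obtain ⟨-, -, e2, e2', -⟩ := short_le_long (B t).length
    have e3 : 1 ≤ (B i).length := List.length_pos_iff.2 (hB.ne i hik)
    obtain ⟨Q, hQl, hQn, hQc, hQh, hQt, hQm⟩ := ih hlt htk' (T - c) (by omega) (by omega)
    obtain ⟨D, hDl, hDn, hDc, hDh, hDt, hDm⟩ := exists_detour (hB.ne t htk') (hB.nodup t htk')
      (hB.chain t htk') (hB.adj t htk') (hB.sep t htk' t htk') (c := c) (by omega) (by omega)
    refine ⟨Q ++ D, by simp; omega, ?_, ?_, ?_, ?_, ?_⟩
    · refine List.nodup_append.2 ⟨hQn, hDn, fun u hu v hv huv => ?_⟩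
      subst huv
      rcases hQm u hu with ⟨x, hx1, hx2, hx⟩ | ⟨x, hx1, hx2, rfl⟩ <;> rcases hDm _ hv with h | h
      · have := hB.disj x (by omega) t htk' u hx h; omega
      · exact hB.sep t htk' x (by omega) (h ▸ hx)
      · exact hB.sep x (by omega) t htk' h
      · have := hB.inj x (by omega) t htk' h; omega
    · exact hQc.append hDc fun u hu w hw => hQt u hu w (hDh ▸ hw)
    · obtain ⟨u, hu⟩ : ∃ u, Q.head? = some u :=
        ⟨_, List.head?_eq_some_head (List.ne_nil_of_length_pos (by omega))⟩
      intro z hz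
      simp only [List.head?_append, hu, Option.some_or, Option.mem_def, Option.some.injEq] at hz
      subst hz
      exact hQh u hu
    · intro z hz
      obtain ⟨u, hu⟩ : ∃ u, D.getLast? = some u :=
        ⟨_, List.getLast?_eq_some_getLast (List.ne_nil_of_length_pos (by
          have := List.length_pos_iff.2 (hB.ne t htk')
          simp only [short] at hc
          omega))⟩
      simp only [List.getLast?_append, hu, Option.some_or, Option.mem_def, Option.some.injEq] at hz
      subst hz
      exact hB.glue t (by omega) u (hDt ▸ hu)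
    · intro v hv
      rcases List.mem_append.1 hv with hv | hv
      · rcases hQm v hv with ⟨x, h1, h2, h3⟩ | ⟨x, h1, h2, h3⟩
        · exact Or.inl ⟨x, h1, by omega, h3⟩
        · exact Or.inr ⟨x, h1, by omega, h3⟩
      · rcases hDm v hv with h | h
        · exact Or.inl ⟨t, by omega, by omega, h⟩
        · exact Or.inr ⟨t, hlt, by omega, h⟩

/-- A window closes to every length in its interval along a route outside the blocks. -/
theorem hasCyc_of_window (hB : IsBlocks G k j B) {i i' m : ℕ} (hii : i < i') (hk : i' < k)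
    {l : List V} {x₂ y₂ : V} (hln : l.Nodup) (hlc : l.IsChain G.Adj)
    (hlh : l.head? = some x₂) (hlt : l.getLast? = some y₂)
    (hx : G.Adj (j i') x₂) (hy : G.Adj y₂ (j i))
    (hlB : ∀ x < k, j x ∉ l ∧ ∀ v ∈ B x, v ∉ l)
    (hlo : 4 + l.length + ∑ x ∈ Ioo i i', short (B x).length ≤ m)
    (hhi : m ≤ 2 + l.length + (B i).length + (B i').length +
      ∑ x ∈ Ioo i i', long (B x).length) : HasCyc G m := by
  have hik : i < k := by omega
  have e1 : 1 ≤ (B i).length := List.length_pos_iff.2 (hB.ne i hik)
  obtain ⟨-, e2, -, -, -⟩ := sums_bound (fun x => (B x).length) (Ioo i i')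
  obtain ⟨v, hv⟩ : ∃ v, v = max 1
      (m - 2 - l.length - ((B i).length + ∑ x ∈ Ioo i i', long (B x).length)) := ⟨_, rfl⟩
  obtain ⟨Q, hQl, hQn, hQc, hQh, hQt, hQm⟩ :=
    exists_middle hB i i' hii hk (m - 2 - l.length - v) (by omega) (by omega)
  have e3 : 1 ≤ (B i').length := List.length_pos_iff.2 (hB.ne i' hk)
  obtain ⟨E, hE⟩ : ∃ E, E = (B i').take v := ⟨_, rfl⟩
  have hEl : E.length = v := by rw [hE, List.length_take]; omega
  have hEB : ∀ z ∈ E, z ∈ B i' := fun z hz => List.mem_of_mem_take (hE ▸ hz)
  have hEh : E.head? = (B i').head? := by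
    obtain ⟨u, B', hb⟩ := List.exists_cons_of_ne_nil (hB.ne i' hk)
    rw [hE, hb, show v = v - 1 + 1 by omega, List.take_succ_cons]
    rfl
  obtain ⟨q₀, hq₀⟩ : ∃ q₀, Q.head? = some q₀ :=
    ⟨_, List.head?_eq_some_head (List.ne_nil_of_length_pos (by omega))⟩
  obtain ⟨e₀, he₀⟩ : ∃ e₀, E.getLast? = some e₀ :=
    ⟨_, List.getLast?_eq_some_getLast (List.ne_nil_of_length_pos (by omega))⟩
  have hW : (j i :: ((Q ++ E) ++ [j i'])).IsChain G.Adj := by
    refine ((hQc.append (hE ▸ (hB.chain i' hk).take _) fun u hu w hw =>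
      hQt u hu w (hEh ▸ hw)).append (.singleton _) ?_).cons ?_
    · intro u hu w hw
      simp only [List.head?_cons, Option.mem_def, Option.some.injEq] at hw
      subst hw
      simp only [List.getLast?_append, he₀, Option.some_or, Option.mem_def,
        Option.some.injEq] at hu
      subst hu
      exact (hB.adj i' hk e₀ (hEB _ (List.mem_of_mem_getLast? he₀))).symm
    · intro u hu
      simp only [List.head?_append, hq₀, Option.some_or, Option.mem_def,
        Option.some.injEq] at hu
      subst hu
      exact hQh q₀ hq₀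
  have hmem : ∀ z ∈ Q ++ E, (∃ x < k, z ∈ B x) ∨ ∃ x < k, i < x ∧ x < i' ∧ z = j x := by
    intro z hz
    rcases List.mem_append.1 hz with hz | hz
    · rcases hQm z hz with ⟨x, -, h2, h3⟩ | ⟨x, h1, h2, h3⟩
      · exact Or.inl ⟨x, by omega, h3⟩
      · exact Or.inr ⟨x, by omega, h1, h2, h3⟩
    · exact Or.inl ⟨i', hk, hEB z hz⟩
  have hnot : ∀ y < k, (y = i ∨ y = i') → j y ∉ Q ++ E := by
    intro y hy hy' hz
    rcases hmem _ hz with ⟨x, hx, h⟩ | ⟨x, hx, h1, h2, h⟩
    · exact hB.sep y hy x hx h
    · have := hB.inj y hy x hx h; omega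
  have hnd : (j i :: ((Q ++ E) ++ [j i'])).Nodup := by
    refine List.nodup_cons.2 ⟨?_, List.nodup_append.2 ⟨List.nodup_append.2
      ⟨hQn, hE ▸ (hB.nodup i' hk).sublist (List.take_sublist _ _), ?_⟩, by simp, ?_⟩⟩
    · rw [List.mem_append, List.mem_singleton, not_or]
      exact ⟨hnot i hik (Or.inl rfl), fun h => by have := hB.inj i hik i' hk h; omega⟩
    · intro u hu w hw huw
      subst huw
      rcases hQm u hu with ⟨x, h1, h2, h3⟩ | ⟨x, h1, h2, rfl⟩
      · have := hB.disj x (by omega) i' hk u h3 (hEB u hw); omega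
      · exact hB.sep x (by omega) i' hk (hEB _ hw)
    · intro u hu w hw huw
      simp only [List.mem_singleton] at hw
      subst hw
      exact hnot i' hk (Or.inr rfl) (huw ▸ hu)
  have := hasCyc_join (G := G) _ l (j i) (j i') x₂ y₂ hnd hln hW hlc rfl
    (by simp [List.getLast?_cons]) hlh hlt
    (fun z hz => by
      rcases List.mem_cons.1 hz with rfl | hz
      · exact (hlB i hik).1
      rcases List.mem_append.1 hz with hz | hz
      · rcases hmem z hz with ⟨x, hx, h⟩ | ⟨x, hx, -, -, rfl⟩
        · exact (hlB x hx).2 z h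
        · exact (hlB x hx).1
      · rw [List.mem_singleton.1 hz]
        exact (hlB i' hk).1)
    hx hy (by simp; omega)
  simp only [List.length_cons, List.length_append, List.length_nil, hQl, hEl] at this
  rwa [show m - 2 - l.length - v + v + (0 + 1) + 1 + l.length = m by omega] at this

end Vale.Agent.P048
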