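import Vale.Agent.P048.Defs

/-!
# P048: tools on lists of vertices

Cycles glued from two paths, and shortening a path of labelled vertices by detours through
the labels, and long increasing paths.
-/

namespace Vale.Agent.P048

variable {V : Type*} {G : SimpleGraph V}

/-- A closed chain of at least three distinct vertices gives a cycle of that length. -/
theorem hasCyc_of_chain (l : List V) (h3 : 3 ≤ l.length) (hnd : l.Nodup)
    (hch : l.IsChain G.Adj)
    (hclose : ∀ a ∈ l.getLast?, ∀ b ∈ l.head?, G.Adj a b) :
    HasCyc G l.length := by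
  have hne : l ≠ [] := by intro h; simp [h] at h3
  set p := SimpleGraph.Walk.ofSupport l hne hch with hp
  have hsupp : p.support = l := by simp [p]
  have hlen : p.length + 1 = l.length := by rw [← p.length_support, hsupp]
  have hadj : G.Adj (l.getLast hne) (l.head hne) :=
    hclose _ (by simp [List.getLast?_eq_some_getLast hne]) _ (by simp [List.head?_eq_some_head hne])
  refine ⟨_, SimpleGraph.Walk.cons hadj p, ?_, by simp [hlen]⟩
  rw [SimpleGraph.Walk.isCycle_iff_isPath_tail_and_le_length]
  refine ⟨?_, by simp only [SimpleGraph.Walk.length_cons]; omega⟩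
  rw [SimpleGraph.Walk.isPath_def, SimpleGraph.Walk.support_tail_of_not_nil _ (by simp)]
  simp [hsupp, hnd]

/-- Two disjoint paths whose ends are joined crosswise give a cycle. -/
theorem hasCyc_join (l₁ l₂ : List V) (x₁ y₁ x₂ y₂ : V)
    (h1 : l₁.Nodup) (h2 : l₂.Nodup) (c1 : l₁.IsChain G.Adj) (c2 : l₂.IsChain G.Adj)
    (a1 : l₁.head? = some x₁) (b1 : l₁.getLast? = some y₁)
    (a2 : l₂.head? = some x₂) (b2 : l₂.getLast? = some y₂)
    (hdis : ∀ v ∈ l₁, v ∉ l₂) (h12 : G.Adj y₁ x₂) (h21 : G.Adj y₂ x₁)
    (h3 : 3 ≤ l₁.length + l₂.length) : HasCyc G (l₁.length + l₂.length) := by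
  have := hasCyc_of_chain (G := G) (l₁ ++ l₂) (by simpa using h3)
    (List.nodup_append.2 ⟨h1, h2, fun a ha b hb hab => hdis a ha (hab ▸ hb)⟩)
    (c1.append c2 (by simpa [b1, a2] using h12))
    (by simpa [List.head?_append, List.getLast?_append, a1, b2] using h21)
  simpa using this

/-- A chain of labelled vertices, in which equal labels are consecutive, can be shortened to
every length down to three times the number of labels, keeping both ends. -/
theorem exists_compress [DecidableEq V] (lab : V → V) (f : V → ℕ) :
    ∀ P : List V, P.Nodup → P.IsChain G.Adj → (∀ x ∈ P, G.Adj (lab x) x) →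
      P.Pairwise (fun a b => f a ≤ f b) → (∀ a ∈ P, ∀ b ∈ P, f a = f b ↔ lab a = lab b) →
      (∀ a ∈ P, ∀ b ∈ P, lab a ≠ b) →
      ∀ k, k ≤ P.length → (P.length ≤ k ∨ 3 * (P.toFinset.image lab).card ≤ k) →
      ∃ Q : List V, Q.length = k ∧ Q.Nodup ∧ Q.IsChain G.Adj ∧ Q.head? = P.head? ∧
        Q.getLast? = P.getLast? ∧ ∀ v ∈ Q, v ∈ P ∨ v ∈ P.toFinset.image lab := by
  intro P
  induction hlen : P.length using Nat.strong_induction_on generalizing P with
  | _ N ih =>
    subst hlen
    intro hnd hch hadj hmono hiff hsep k hk hcond
    by_cases hfull : P.length ≤ k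
    · exact ⟨P, by omega, hnd, hch, rfl, rfl, fun v hv => Or.inl hv⟩
    replace hcond := hcond.resolve_left hfull
    cases P with
    | nil => simp at hfull
    | cons x r =>
      set B := (x :: r).takeWhile (fun y => decide (lab y = lab x)) with hB
      set R := (x :: r).dropWhile (fun y => decide (lab y = lab x)) with hR
      have hBR : B ++ R = x :: r := List.takeWhile_append_dropWhile
      have hBx : B.head? = some x := by simp [B]
      have hBne : B ≠ [] := by intro h; simp [h] at hBx
      have hBlen : 0 < B.length := List.length_pos_iff.2 hBne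
      have hlenBR : B.length + R.length = (x :: r).length := by
        rw [← List.length_append, hBR]
      have hlabB : ∀ y ∈ B, lab y = lab x := fun y hy => by
        simpa using List.mem_takeWhile_imp hy
      have hmemB : ∀ y ∈ B, y ∈ x :: r := fun y hy => hBR ▸ List.mem_append_left _ hy
      have hmemR : ∀ y ∈ R, y ∈ x :: r := fun y hy => hBR ▸ List.mem_append_right _ hy
      have hpw := hBR ▸ hmono
      have hmonoR := (List.pairwise_append.1 hpw).2.1
      have hlabR : ∀ y ∈ R, lab y ≠ lab x := by
        intro y hy he
        obtain ⟨z, R', hz⟩ : ∃ z R', R = z :: R' := by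
          cases hc : R with
          | nil => simp [hc] at hy
          | cons z R' => exact ⟨z, R', rfl⟩
        have hzne : lab z ≠ lab x := by
          have := List.head_dropWhile_not (fun y => decide (lab y = lab x)) (l := x :: r)
            (by rw [← hR, hz]; simp)
          simpa [← hR, hz] using this
        have hzR : z ∈ R := by simp [hz]
        have h1 := (List.pairwise_append.1 hpw).2.2 x (List.mem_of_mem_head? hBx) z hzR
        have h2 : f z ≤ f y := by
          rw [hz] at hy hmonoR
          rcases List.mem_cons.1 hy with rfl | hy'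
          · exact le_rfl
          · exact (List.pairwise_cons.1 hmonoR).1 y hy'
        have h3 := (hiff y (hmemR y hy) x (List.mem_cons_self ..)).2 he
        exact hzne ((hiff z (hmemR z hzR) x (List.mem_cons_self ..)).1 (by omega))
      have himg : (R.toFinset.image lab).card + 1 ≤ ((x :: r).toFinset.image lab).card := by
        rw [← Finset.card_insert_of_notMem (a := lab x) (s := R.toFinset.image lab) (by
          simp only [Finset.mem_image, List.mem_toFinset, not_exists, not_and]
          exact hlabR)]
        refine Finset.card_le_card fun v hv => ?_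
        simp only [Finset.mem_insert, Finset.mem_image, List.mem_toFinset] at hv ⊢
        rcases hv with rfl | ⟨y, hy, rfl⟩
        · exact ⟨x, List.mem_cons_self .., rfl⟩
        · exact ⟨y, hmemR y hy, rfl⟩
      set q := (R.toFinset.image lab).card
      obtain ⟨c, hc⟩ : ∃ c, c = min B.length (k - min R.length (3 * q)) := ⟨_, rfl⟩
      have hkR : k - c ≤ R.length ∧ (R.length ≤ k - c ∨ 3 * q ≤ k - c) := by omega
      have hc3 : c = B.length ∨ 3 ≤ c := by omega
      have hndBR := hBR ▸ hnd
      have hchBR := hBR ▸ hch
      obtain ⟨ndB, ndR, hdisBR⟩ := List.nodup_append.1 hndBR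
      obtain ⟨chB, chR, hglue⟩ := List.isChain_append.1 hchBR
      obtain ⟨Q, hQl, hQn, hQc, hQh, hQt, hQm⟩ :=
        ih R.length (by omega) R rfl ndR chR (fun y hy => hadj y (hmemR y hy)) hmonoR
          (fun a ha b hb => hiff a (hmemR a ha) b (hmemR b hb))
          (fun a ha b hb => hsep a (hmemR a ha) b (hmemR b hb)) (k - c) hkR.1 hkR.2
      obtain ⟨QB, hBl, hBn, hBc, hBh, hBt, hBm⟩ : ∃ QB : List V, QB.length = c ∧ QB.Nodup ∧
          QB.IsChain G.Adj ∧ QB.head? = B.head? ∧ QB.getLast? = B.getLast? ∧
          ∀ v ∈ QB, v ∈ B ∨ v = lab x := by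
        rcases eq_or_ne c B.length with h | h
        · exact ⟨B, h.symm, ndB, chB, rfl, rfl, fun v hv => Or.inl hv⟩
        have h3 : 3 ≤ c := hc3.resolve_left h
        have hcB : c < B.length := by omega
        refine ⟨x :: lab x :: B.drop (B.length - (c - 2)), ?_, ?_, ?_, ?_, ?_, ?_⟩
        · simp; omega
        · have hsl : ∀ v ∈ B.drop (B.length - (c - 2)), v ∈ B := fun v hv => List.mem_of_mem_drop hv
          refine List.nodup_cons.2 ⟨?_, List.nodup_cons.2 ⟨?_, ndB.sublist (List.drop_sublist _ _)⟩⟩
          · intro hv
            rcases List.mem_cons.1 hv with hv | hv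
            · exact hsep x (List.mem_cons_self ..) x (List.mem_cons_self ..) hv.symm
            · cases hB' : B with
              | nil => exact hBne hB'
              | cons z B' =>
                rw [hB'] at hBx hv ndB
                simp only [List.head?_cons, Option.some.injEq] at hBx
                subst hBx
                rw [show (z :: B').length - (c - 2) = (z :: B').length - (c - 2) - 1 + 1 by
                  rw [← hB']; omega, List.drop_succ_cons] at hv
                exact (List.nodup_cons.1 ndB).1 (List.mem_of_mem_drop hv)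
          · exact fun hv => hsep x (List.mem_cons_self ..) _ (hmemB _ (hsl _ hv)) rfl
        · refine .cons_cons (hadj x (List.mem_cons_self ..)).symm
            ((chB.drop _).cons fun z hz => ?_)
          have hzB := List.mem_of_mem_drop (List.mem_of_mem_head? hz)
          rw [← hlabB z hzB]
          exact hadj z (hmemB z hzB)
        · simp [hBx]
        · have hd : B.drop (B.length - (c - 2)) ≠ [] := by simp; omega
          rw [List.getLast?_cons_of_ne_nil (by simp), List.getLast?_cons_of_ne_nil hd,
            List.getLast?_drop, if_neg (by omega)]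
        · intro v hv
          simp only [List.mem_cons] at hv
          rcases hv with rfl | rfl | hv
          · exact Or.inl (List.mem_of_mem_head? hBx)
          · exact Or.inr rfl
          · exact Or.inl (List.mem_of_mem_drop hv)
      refine ⟨QB ++ Q, by simp; omega, ?_, ?_, ?_, ?_, ?_⟩
      · refine List.nodup_append.2 ⟨hBn, hQn, ?_⟩
        intro u hu v hv huv
        subst huv
        rcases hBm u hu with hu' | rfl
        · rcases hQm u hv with hv' | hv'
          · exact hdisBR u hu' u hv' rfl
          · simp only [Finset.mem_image, List.mem_toFinset] at hv'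
            obtain ⟨y, hy, hyu⟩ := hv'
            exact hsep y (hmemR y hy) u (hmemB u hu') hyu
        · rcases hQm _ hv with hv' | hv'
          · exact hsep x (List.mem_cons_self ..) _ (hmemR _ hv') rfl
          · simp only [Finset.mem_image, List.mem_toFinset] at hv'
            obtain ⟨y, hy, hyu⟩ := hv'
            exact hlabR y hy hyu
      · refine hBc.append hQc ?_
        rw [hBt, hQh]
        exact hglue
      · simp [List.head?_append, hBh, hBx]
      · rw [← hBR, List.getLast?_append, List.getLast?_append, hBt, hQt]
      · intro v hv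
        rcases List.mem_append.1 hv with hv | hv
        · rcases hBm v hv with h | rfl
          · exact Or.inl (hmemB v h)
          · exact Or.inr (Finset.mem_image.2 ⟨x, by simp, rfl⟩)
        · rcases hQm v hv with h | h
          · exact Or.inl (hmemR v h)
          · simp only [Finset.mem_image, List.mem_toFinset] at h ⊢
            obtain ⟨y, hy, rfl⟩ := h
            exact Or.inr ⟨y, hmemR y hy, rfl⟩

open Finset in
/-- A graph without long increasing paths in a set has few vertices there. -/
theorem card_le_mul (f : V → ℕ) (Lv : Finset V) (c a : ℕ)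
    (hinj : ∀ x ∈ Lv, ∀ y ∈ Lv, f x = f y → x = y)
    (hpath : ∀ P : List V, (∀ x ∈ P, x ∈ Lv) → P.IsChain G.Adj →
      P.IsChain (fun a b => f a < f b) → P.length ≤ c)
    (hind : ∀ s ⊆ Lv, (∀ x ∈ s, ∀ y ∈ s, ¬ G.Adj x y) → s.card ≤ a) :
    Lv.card ≤ c * a := by
  classical
  let S : V → Finset ℕ := fun x => (Finset.range (c + 1)).filter fun r => ∃ P : List V,
    P.length = r ∧ (∀ z ∈ P, z ∈ Lv) ∧ P.IsChain G.Adj ∧ P.IsChain (fun a b => f a < f b) ∧
      P.head? = some x
  let col : V → ℕ := fun x => (S x).sup id
  have h1 : ∀ x ∈ Lv, 1 ≤ col x := by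
    intro x hx
    have h11 := hpath [x] (by simpa using hx) (.singleton x) (.singleton x)
    have : 1 ∈ S x := by
      simp only [S, mem_filter, mem_range]
      exact ⟨by simp at h11 ⊢; omega, [x], rfl, by simpa using hx, .singleton x, .singleton x, rfl⟩
    exact Finset.le_sup (f := id) this
  have h2 : ∀ x ∈ Lv, col x ≤ c := fun x _ => Finset.sup_le fun r hr => by
    simp only [S, mem_filter, mem_range] at hr
    show r ≤ c
    omega
  have h3 : ∀ x ∈ Lv, ∀ y ∈ Lv, G.Adj x y → f x < f y → col y < col x := by
    intro x hx y hy hxy hf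
    have hne : (S y).Nonempty := by
      by_contra h
      rw [Finset.not_nonempty_iff_eq_empty] at h
      have := h1 y hy
      simp [col, h] at this
    obtain ⟨r, hr, hre⟩ := Finset.exists_mem_eq_sup (S y) hne id
    simp only [S, mem_filter, mem_range] at hr
    obtain ⟨hrc, P, rfl, hPm, hPa, hPi, hPh⟩ := hr
    obtain ⟨z, P', rfl⟩ : ∃ z P', P = z :: P' := by
      cases P with
      | nil => simp at hPh
      | cons z P' => exact ⟨z, P', rfl⟩
    simp only [List.head?_cons, Option.some.injEq] at hPh
    subst hPh
    have hm : ∀ w ∈ x :: z :: P', w ∈ Lv := List.forall_mem_cons.2 ⟨hx, hPm⟩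
    have hc := hpath _ hm (.cons_cons hxy hPa) (.cons_cons hf hPi)
    simp only [List.length_cons] at hc hre
    have : P'.length + 2 ∈ S x := by
      simp only [S, mem_filter, mem_range]
      exact ⟨by omega, x :: z :: P', rfl, hm, .cons_cons hxy hPa, .cons_cons hf hPi, rfl⟩
    have h4 := Finset.le_sup (f := id) this
    change (S z).sup id < (S x).sup id
    simp only [id] at h4 hre ⊢
    omega
  have := Finset.card_le_mul_card_image_of_maps_to (f := col) (t := Finset.Icc 1 c)
    (fun x hx => Finset.mem_Icc.2 ⟨h1 x hx, h2 x hx⟩) a fun r _ => by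
      refine hind _ (Finset.filter_subset _ _) fun x hx y hy hxy => ?_
      simp only [mem_filter] at hx hy
      rcases lt_trichotomy (f x) (f y) with h | h | h
      · have := h3 x hx.1 y hy.1 hxy h; omega
      · exact hxy.ne (hinj x hx.1 y hy.1 h)
      · have := h3 y hy.1 x hx.1 hxy.symm h; omega
  rw [Nat.card_Icc, Nat.add_sub_cancel, mul_comm] at this
  exact this

end Vale.Agent.P048
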