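import Vale.Agent.P048.Defs
import Vale.Agent.P048.Lists

/-!
# P048: no large clique

In a graph without an `m`-cycle and with independence number at most `a`, where every set of at
most `m - 1` vertices is avoided by an independent `a`-set, every clique has fewer than `m - 2`
vertices: two outside vertices with three neighbours each in a clique of order `m - 2` extend it
to an `m`-cycle.
-/

namespace Vale.Agent.P048

variable {V : Type*} {G : SimpleGraph V}

/-- A path with both ends in a clique closes through the rest of the clique. -/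
theorem hasCyc_chain_clique [DecidableEq V] {K : Finset V} (hK : G.IsClique (K : Set V))
    (l : List V) (p e : V) (hn : l.Nodup) (hc : l.IsChain G.Adj) (hh : l.head? = some p)
    (ht : l.getLast? = some e) (hp : p ∈ K) (he : e ∈ K) (hpe : p ≠ e) {L : ℕ}
    (hL : l.length + (K \ l.toFinset).card = L) (h3 : 3 ≤ L) : HasCyc G L := by
  have hmem : ∀ x ∈ (K \ l.toFinset).toList, x ∈ K ∧ x ∉ l := fun x hx => by
    simpa using hx
  have hn' : (K \ l.toFinset).toList.Nodup := Finset.nodup_toList _
  have hc' : (K \ l.toFinset).toList.IsChain G.Adj := by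
    refine List.Pairwise.isChain (hn'.imp_of_mem fun {x y} hx hy hxy => ?_)
    exact hK (hmem x hx).1 (hmem y hy).1 hxy
  have hple : p ∈ l := List.mem_of_mem_head? (by simp [hh])
  have hel : e ∈ l := List.mem_of_mem_getLast? (by simp [ht])
  have := hasCyc_of_chain (G := G) (l ++ (K \ l.toFinset).toList)
    (by simp; omega)
    (List.nodup_append.2 ⟨hn, hn', fun x hx y hy hxy => (hmem y hy).2 (hxy ▸ hx)⟩)
    (hc.append hc' (fun x hx y hy => by
      obtain rfl : x = e := by simpa [ht] using hx.symm
      have hy' := hmem y (List.mem_of_mem_head? hy)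
      exact hK he hy'.1 (fun h => hy'.2 (h ▸ hel))))
    (fun x hx y hy => by
      obtain rfl : p = y := by simpa [List.head?_append, hh] using hy
      rw [List.getLast?_append, ht] at hx
      cases hr : (K \ l.toFinset).toList.getLast? with
      | none =>
        obtain rfl : e = x := by simpa [hr] using hx
        exact hK he hp hpe.symm
      | some z =>
        obtain rfl : z = x := by simpa [hr] using hx
        have hz := hmem z (List.mem_of_mem_getLast? (by simp [hr]))
        exact hK hz.1 hp (fun h => hz.2 (h ▸ hple)))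
  simpa [hL] using this

/-- Two outside vertices with two neighbours each in a clique, not the same two, raise its order
by two. -/
theorem hasCyc_clique_add_pairs [DecidableEq V] {K : Finset V} (hK : G.IsClique (K : Set V))
    {s t : V} (hs : s ∉ K) (ht : t ∉ K) (hst : s ≠ t) {A B : Finset V} (hAK : A ⊆ K) (hBK : B ⊆ K)
    (hA : ∀ x ∈ A, G.Adj s x) (hB : ∀ x ∈ B, G.Adj t x) (hB2 : 1 < B.card) {p q r : V}
    (hp : p ∈ A) (hq : q ∈ A) (hpq : p ≠ q) (hrB : r ∈ B) (hrp : r ≠ p) (hrq : r ≠ q)
    {L : ℕ} (hL : K.card + 2 = L) : HasCyc G L := by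
  obtain ⟨u, hu⟩ : ∃ u, u ∈ B \ {r} := by
    refine Finset.card_pos.1 ?_
    have := Finset.le_card_sdiff ({r} : Finset V) B
    simp at this
    omega
  simp only [Finset.mem_sdiff, Finset.mem_singleton] at hu
  obtain ⟨huB, hur⟩ := hu
  have hsK : ∀ x ∈ K, s ≠ x := fun x hx h => hs (h ▸ hx)
  have htK : ∀ x ∈ K, t ≠ x := fun x hx h => ht (h ▸ hx)
  have h4 : 2 < K.card := lt_of_lt_of_le (by simp [hpq, hrp.symm, hrq.symm])
    (Finset.card_le_card (show ({p, q, r} : Finset V) ⊆ K by
      simp [Finset.insert_subset_iff, hAK hp, hAK hq, hBK hrB]))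
  -- one common end: the path `p s q t r`
  have shared : ∀ p q, p ∈ A → q ∈ A → p ≠ q → r ≠ p → r ≠ q → q ∈ B → HasCyc G L := by
    intro p q hp hq hpq hrp hrq hqB
    refine hasCyc_chain_clique hK [p, s, q, t, r] p r ?_ ?_ rfl rfl (hAK hp) (hBK hrB) (Ne.symm hrp) ?_
      (by omega)
    · simp only [List.nodup_cons, List.mem_cons, List.not_mem_nil, or_false, not_or,
        not_false_iff, List.nodup_nil, and_true]
      exact ⟨⟨(hsK p (hAK hp)).symm, hpq, (htK p (hAK hp)).symm, (Ne.symm hrp)⟩,
        ⟨hsK q (hAK hq), hst, hsK r (hBK hrB)⟩, ⟨(htK q (hAK hq)).symm, (Ne.symm hrq)⟩,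
        htK r (hBK hrB)⟩
    · simp only [List.isChain_cons_cons, List.IsChain.singleton, and_true]
      exact ⟨(hA p hp).symm, hA q hq, (hB q hqB).symm, hB r hrB⟩
    · have e : K \ [p, s, q, t, r].toFinset = K \ {p, q, r} := by
        ext x
        simp only [Finset.mem_sdiff, List.mem_toFinset, List.mem_cons, List.not_mem_nil, or_false,
          Finset.mem_insert, Finset.mem_singleton]
        constructor
        · rintro ⟨hx, h⟩; exact ⟨hx, by tauto⟩
        · rintro ⟨hx, h⟩
          refine ⟨hx, ?_⟩
          rintro (h' | h' | h' | h' | h')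
          · exact h (Or.inl h')
          · exact hsK x hx h'.symm
          · exact h (Or.inr (Or.inl h'))
          · exact htK x hx h'.symm
          · exact h (Or.inr (Or.inr h'))
      have hsub : ({p, q, r} : Finset V) ⊆ K := by
        simp [Finset.insert_subset_iff, hAK hp, hAK hq, hBK hrB]
      have h3 : ({p, q, r} : Finset V).card = 3 := by
        simp [hpq, (Ne.symm hrp), (Ne.symm hrq)]
      rw [e, Finset.card_sdiff_of_subset hsub, h3]
      simp only [List.length_cons, List.length_nil]
      omega
  by_cases h1 : u = q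
  · exact shared p q hp hq hpq hrp hrq (h1 ▸ huB)
  by_cases h2 : u = p
  · exact shared q p hq hp hpq.symm hrq hrp (h2 ▸ huB)
  -- no common end: the path `p s q r t u`
  refine hasCyc_chain_clique hK [p, s, q, r, t, u] p u ?_ ?_ rfl rfl (hAK hp) (hBK huB)
    (Ne.symm h2) ?_ (by omega)
  · simp only [List.nodup_cons, List.mem_cons, List.not_mem_nil, or_false, not_or,
      not_false_iff, List.nodup_nil, and_true]
    exact ⟨⟨(hsK p (hAK hp)).symm, hpq, (Ne.symm hrp), (htK p (hAK hp)).symm, Ne.symm h2⟩,
      ⟨hsK q (hAK hq), hsK r (hBK hrB), hst, hsK u (hBK huB)⟩,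
      ⟨(Ne.symm hrq), (htK q (hAK hq)).symm, Ne.symm h1⟩,
      ⟨(htK r (hBK hrB)).symm, Ne.symm hur⟩, htK u (hBK huB)⟩
  · simp only [List.isChain_cons_cons, List.IsChain.singleton, and_true]
    exact ⟨(hA p hp).symm, hA q hq, hK (hAK hq) (hBK hrB) (Ne.symm hrq), (hB r hrB).symm, hB u huB⟩
  · have e : K \ [p, s, q, r, t, u].toFinset = K \ {p, q, r, u} := by
      ext x
      simp only [Finset.mem_sdiff, List.mem_toFinset, List.mem_cons, List.not_mem_nil, or_false,
        Finset.mem_insert, Finset.mem_singleton]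
      constructor
      · rintro ⟨hx, h⟩; exact ⟨hx, by tauto⟩
      · rintro ⟨hx, h⟩
        refine ⟨hx, ?_⟩
        rintro (h' | h' | h' | h' | h' | h')
        · exact h (Or.inl h')
        · exact hsK x hx h'.symm
        · exact h (Or.inr (Or.inl h'))
        · exact h (Or.inr (Or.inr (Or.inl h')))
        · exact htK x hx h'.symm
        · exact h (Or.inr (Or.inr (Or.inr h')))
    have hsub : ({p, q, r, u} : Finset V) ⊆ K := by
      simp [Finset.insert_subset_iff, hAK hp, hAK hq, hBK hrB, hBK huB]
    have h4' : ({p, q, r, u} : Finset V).card = 4 := by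
      simp [hpq, (Ne.symm hrp), (Ne.symm hrq), Ne.symm h1, Ne.symm h2, Ne.symm hur]
    rw [e, Finset.card_sdiff_of_subset hsub, h4']
    have := Finset.card_le_card hsub
    simp only [List.length_cons, List.length_nil]
    omega

/-- Two outside vertices, each with three neighbours in a clique, raise its order by two. -/
theorem hasCyc_clique_add_two [DecidableEq V] {K : Finset V} (hK : G.IsClique (K : Set V))
    {s t : V} (hs : s ∉ K) (ht : t ∉ K) (hst : s ≠ t) {A B : Finset V} (hAK : A ⊆ K) (hBK : B ⊆ K)
    (hA : ∀ x ∈ A, G.Adj s x) (hB : ∀ x ∈ B, G.Adj t x) (hA2 : 1 < A.card) (hB3 : 3 ≤ B.card)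
    {L : ℕ} (hL : K.card + 2 = L) : HasCyc G L := by
  obtain ⟨p, hp, q, hq, hpq⟩ := Finset.one_lt_card.1 hA2
  obtain ⟨r, hr⟩ : ∃ r, r ∈ B \ {p, q} := by
    refine Finset.card_pos.1 ?_
    have := Finset.le_card_sdiff ({p, q} : Finset V) B
    have := Finset.card_le_two (a := p) (b := q)
    omega
  simp only [Finset.mem_sdiff, Finset.mem_insert, Finset.mem_singleton, not_or] at hr
  exact hasCyc_clique_add_pairs hK hs ht hst hAK hBK hA hB (by omega) hp hq hpq hr.1 hr.2.1
    hr.2.2 hL

/-- An independent `a`-set outside a clique with more than `2 a` vertices has a member with three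
neighbours in it, when no independent set has more than `a` vertices. -/
theorem exists_three_nbrs [DecidableEq V] [DecidableRel G.Adj] {a : ℕ} (hindep : IndepLE G a)
    {K S : Finset V} (hind : ∀ x ∈ S, ∀ y ∈ S, ¬ G.Adj x y) (hdis : Disjoint S K)
    (hcard : S.card = a) (hK : 2 * a < K.card) :
    ∃ s ∈ S, ∃ A : Finset V, A ⊆ K ∧ (∀ x ∈ A, G.Adj s x) ∧ 3 ≤ A.card := by
  by_contra hcon
  push Not at hcon
  have hcover : K ⊆ S.biUnion fun s => K.filter fun x => G.Adj s x := by
    intro v hv
    by_contra hno
    simp only [Finset.mem_biUnion, Finset.mem_filter, not_exists, not_and] at hno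
    have hvS : v ∉ S := fun h => (Finset.disjoint_left.1 hdis h) hv
    have := hindep (insert v S) (fun x hx y hy => by
      rcases Finset.mem_insert.1 hx with hx' | hx <;> rcases Finset.mem_insert.1 hy with hy' | hy
      · rw [hx', hy']; exact G.irrefl
      · rw [hx']; exact fun h => hno y hy hv h.symm
      · rw [hy']; exact fun h => hno x hx hv h
      · exact hind x hx y hy)
    rw [Finset.card_insert_of_notMem hvS] at this
    omega
  have h1 := (Finset.card_le_card hcover).trans
    (Finset.card_biUnion_le_card_mul S _ 2 fun s hs => by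
      have := hcon s hs (K.filter fun x => G.Adj s x) (Finset.filter_subset _ _)
        (fun x hx => (Finset.mem_filter.1 hx).2)
      omega)
  omega

/-- Step 7: no clique on `m - 2` vertices. -/
theorem no_big_clique [Fintype V] (G : SimpleGraph V) (a m : ℕ) (ha : 1 ≤ a)
    (hm : 2 * a + 3 ≤ m) (hno : ¬ HasCyc G m) (hindep : IndepLE G a)
    (havoid : ∀ Z : Finset V, Z.card ≤ m - 1 →
      ∃ S : Finset V, (∀ x ∈ S, ∀ y ∈ S, ¬ G.Adj x y) ∧ Disjoint S Z ∧ S.card = a) :
    ∀ K : Finset V, G.IsClique (K : Set V) → K.card + 2 < m := by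
  classical
  intro K hK
  by_contra hbig
  obtain ⟨K', hK', hcard⟩ := Finset.exists_subset_card_eq (show m - 2 ≤ K.card by omega)
  have hK'c : G.IsClique (K' : Set V) := hK.subset (Finset.coe_subset.2 hK')
  obtain ⟨S, hS, hSd, hSc⟩ := havoid K' (by omega)
  obtain ⟨s, hs, A, hAK, hA, hA3⟩ := exists_three_nbrs hindep hS hSd hSc (by omega)
  have hsK : s ∉ K' := Finset.disjoint_left.1 hSd hs
  obtain ⟨T, hT, hTd, hTc⟩ := havoid (insert s K')
    (by rw [Finset.card_insert_of_notMem hsK]; omega)
  obtain ⟨t, ht, B, hBK, hB, hB3⟩ :=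
    exists_three_nbrs hindep hT (hTd.mono_right (Finset.subset_insert s K')) hTc
      (show 2 * a < K'.card by omega)
  have htn := Finset.disjoint_left.1 hTd ht
  simp only [Finset.mem_insert, not_or] at htn
  exact hno (hasCyc_clique_add_two hK'c hsK htn.2 (Ne.symm htn.1) hAK hBK hA hB (by omega) hB3
    (by omega))

end Vale.Agent.P048
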