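import Vale.Agent.P048.Defs

/-!
# P048: maximum independent sets

A maximum independent set dominates, and any other independent set is matched into it.
-/

set_option linter.unusedSectionVars false

namespace Vale.Agent.P048

variable {V : Type*} [Fintype V]

/-- An independent set of maximum size dominates. -/
theorem exists_adj_of_indep {G : SimpleGraph V} {a : ℕ} (hind : IndepLE G a) {S : Finset V}
    (hS : ∀ x ∈ S, ∀ y ∈ S, ¬ G.Adj x y) (hcard : S.card = a) {x : V} (hx : x ∉ S) :
    ∃ s ∈ S, G.Adj x s := by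
  classical
  by_contra h
  push Not at h
  have h2 := hind (insert x S) (by
    intro u hu v hv
    rcases Finset.mem_insert.1 hu with hu | hu <;> rcases Finset.mem_insert.1 hv with hv | hv
    · rw [hu, hv]; exact G.irrefl
    · rw [hu]; exact h v hv
    · rw [hv]; exact fun e => h u hu e.symm
    · exact hS u hu v hv)
  rw [Finset.card_insert_of_notMem hx] at h2
  omega

/-- Two maximum independent sets are matched along edges. -/
theorem exists_matching {G : SimpleGraph V} {a : ℕ} (hind : IndepLE G a) {S S' : Finset V}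
    (hS : ∀ x ∈ S, ∀ y ∈ S, ¬ G.Adj x y) (hScard : S.card = a)
    (hS' : ∀ x ∈ S', ∀ y ∈ S', ¬ G.Adj x y) (hdis : Disjoint S' S) :
    ∃ σ : V → V, Set.InjOn σ S' ∧ ∀ x ∈ S', σ x ∈ S ∧ G.Adj x (σ x) := by
  classical
  let t : {x // x ∈ S'} → Finset V := fun x => S.filter fun s => G.Adj x.1 s
  have hall : ∀ A : Finset {x // x ∈ S'}, A.card ≤ (A.biUnion t).card := by
    intro A
    by_contra hlt
    push Not at hlt
    set J := A.map (Function.Embedding.subtype _) with hJ
    set R := S \ A.biUnion t with hR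
    have hmem : ∀ v ∈ J, v ∈ S' ∧ ∀ s ∈ R, ¬ G.Adj v s := by
      intro v hv
      obtain ⟨x, hx, rfl⟩ := Finset.mem_map.1 hv
      refine ⟨x.2, fun s hs hadj => ?_⟩
      obtain ⟨h1, h2⟩ := Finset.mem_sdiff.1 hs
      exact h2 (Finset.mem_biUnion.2 ⟨x, hx, Finset.mem_filter.2 ⟨h1, hadj⟩⟩)
    have h2 := hind (J ∪ R) (by
      intro u hu v hv
      rcases Finset.mem_union.1 hu with hu | hu <;> rcases Finset.mem_union.1 hv with hv | hv
      · exact hS' u (hmem u hu).1 v (hmem v hv).1
      · exact (hmem u hu).2 v hv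
      · exact fun e => (hmem v hv).2 u hu e.symm
      · exact hS u (Finset.mem_sdiff.1 hu).1 v (Finset.mem_sdiff.1 hv).1)
    rw [Finset.card_union_of_disjoint (Finset.disjoint_left.2 fun v hv hv' =>
      Finset.disjoint_left.1 hdis (hmem v hv).1 (Finset.mem_sdiff.1 hv').1), hJ,
      Finset.card_map] at h2
    have h3 : S.card - (A.biUnion t).card ≤ (S \ A.biUnion t).card := Finset.le_card_sdiff _ _
    have h4 : (A.biUnion t).card ≤ S.card :=
      Finset.card_le_card (Finset.biUnion_subset.2 fun x _ => Finset.filter_subset _ _)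
    omega
  obtain ⟨f, hf, hft⟩ := (Finset.all_card_le_biUnion_card_iff_exists_injective t).1 hall
  refine ⟨fun x => if h : x ∈ S' then f ⟨x, h⟩ else x, fun x hx y hy he => ?_, fun x hx => ?_⟩
  · simp only [Finset.mem_coe] at hx hy
    simp only [dif_pos hx, dif_pos hy] at he
    exact Subtype.mk.inj (hf he)
  · simp only [dif_pos hx]
    exact Finset.mem_filter.1 (hft ⟨x, hx⟩)

end Vale.Agent.P048
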