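import Vale.Agent.P048.Clique
import Vale.Agent.P048.Step

/-!
# P048: no clique on `m - 2` vertices when `m = 2a + 2`
-/

namespace Vale.Agent.P048

variable {V : Type*}

/-- No clique on `m - 2` vertices, for `m = 2a + 2`. -/
theorem no_big_clique_even [Fintype V] (G : SimpleGraph V) (a m : ℕ) (ha : 2 ≤ a)
    (hm : m = 2 * a + 2) (hno : ¬ HasCyc G m) (hindep : IndepLE G a)
    (havoid : ∀ Z : Finset V, Z.card ≤ m - 1 →
      ∃ S : Finset V, (∀ x ∈ S, ∀ y ∈ S, ¬ G.Adj x y) ∧ Disjoint S Z ∧ S.card = a) :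
    ∀ K : Finset V, G.IsClique (K : Set V) → K.card + 2 < m := by
  classical
  intro K hK
  by_contra hbig
  obtain ⟨K', hK', hcard⟩ := Finset.exists_subset_card_eq (show m - 2 ≤ K.card by omega)
  have hK'c : G.IsClique (K' : Set V) := hK.subset (Finset.coe_subset.2 hK')
  have hcover : ∀ S : Finset V, (∀ x ∈ S, ∀ y ∈ S, ¬ G.Adj x y) → Disjoint S K' → S.card = a →
      K' ⊆ S.biUnion fun s => K'.filter fun x => G.Adj s x := by
    intro S hS hSd hSc v hv
    have hvS : v ∉ S := fun h => Finset.disjoint_left.1 hSd h hv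
    obtain ⟨s, hs, hadj⟩ := exists_adj_of_indep hindep hS hSc hvS
    exact Finset.mem_biUnion.2 ⟨s, hs, Finset.mem_filter.2 ⟨hv, hadj.symm⟩⟩
  obtain ⟨T, hT, hTd, hTc⟩ := havoid K' (by omega)
  obtain ⟨t, ht, hB2⟩ : ∃ t ∈ T, 1 < (K'.filter fun x => G.Adj t x).card := by
    by_contra hcon
    push Not at hcon
    have := (Finset.card_le_card (hcover T hT hTd hTc)).trans
      (Finset.card_biUnion_le_card_mul T _ 1 hcon)
    omega
  obtain ⟨p, hp, q, hq, hpq⟩ := Finset.one_lt_card.1 hB2
  have htK : t ∉ K' := Finset.disjoint_left.1 hTd ht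
  obtain ⟨S, hS, hSd, hSc⟩ := havoid (insert t K')
    (by rw [Finset.card_insert_of_notMem htK]; omega)
  have hSd' : Disjoint S K' := hSd.mono_right (Finset.subset_insert t K')
  obtain ⟨s, hs, hs2, r, hr, hrp, hrq⟩ :
      ∃ s ∈ S, 1 < (K'.filter fun x => G.Adj s x).card ∧
        ∃ r ∈ K'.filter (fun x => G.Adj s x), r ≠ p ∧ r ≠ q := by
    by_contra hcon
    push Not at hcon
    let f : V → Finset V := fun s => (K'.filter fun x => G.Adj s x) \ {p, q}
    have hf1 : ∀ s ∈ S, (f s).card ≤ 1 := by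
      intro s hs
      by_contra h
      obtain ⟨r, hr⟩ := Finset.card_pos.1 (show 0 < (f s).card by omega)
      simp only [f, Finset.mem_sdiff, Finset.mem_insert, Finset.mem_singleton, not_or] at hr
      have h1 : (f s).card ≤ (K'.filter fun x => G.Adj s x).card :=
        Finset.card_le_card Finset.sdiff_subset
      exact hr.2.2 (hcon s hs (by omega) r hr.1 hr.2.1)
    have hf0 : ∀ s ∈ S, (K'.filter fun x => G.Adj s x).card ≤ 1 ∨ f s = ∅ := by
      intro s hs
      rcases Nat.lt_or_ge 1 (K'.filter fun x => G.Adj s x).card with h | h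
      · refine Or.inr (Finset.eq_empty_of_forall_notMem fun r hr => ?_)
        simp only [f, Finset.mem_sdiff, Finset.mem_insert, Finset.mem_singleton, not_or] at hr
        exact hr.2.2 (hcon s hs h r hr.1 hr.2.1)
      · exact Or.inl h
    have hsub := hcover S hS hSd' hSc
    have hout : K' \ {p, q} ⊆ (S.filter fun s => f s ≠ ∅).biUnion f := by
      intro v hv
      obtain ⟨hvK, hvpq⟩ := Finset.mem_sdiff.1 hv
      obtain ⟨s, hs, hvs⟩ := Finset.mem_biUnion.1 (hsub hvK)
      have hvf : v ∈ f s := Finset.mem_sdiff.2 ⟨hvs, hvpq⟩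
      exact Finset.mem_biUnion.2
        ⟨s, Finset.mem_filter.2 ⟨hs, Finset.ne_empty_of_mem hvf⟩, hvf⟩
    have h1 := (Finset.card_le_card hout).trans (Finset.card_biUnion_le_card_mul _ _ 1
      fun s hs => hf1 s (Finset.mem_filter.1 hs).1)
    have h2 := Finset.le_card_sdiff ({p, q} : Finset V) K'
    have h3 := Finset.card_le_two (a := p) (b := q)
    have h4 : (S.filter fun s => f s ≠ ∅).card = S.card :=
      le_antisymm (Finset.card_filter_le _ _) (by omega)
    have hall := Finset.eq_of_subset_of_card_le (Finset.filter_subset _ S) h4.ge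
    have h5 := (Finset.card_le_card hsub).trans (Finset.card_biUnion_le_card_mul S _ 1
      fun s hs => (hf0 s hs).resolve_right fun he => by
        have h6 : s ∈ S.filter fun s => f s ≠ ∅ := by rw [hall]; exact hs
        exact (Finset.mem_filter.1 h6).2 he)
    omega
  have hsn := Finset.disjoint_left.1 hSd hs
  simp only [Finset.mem_insert, not_or] at hsn
  exact hno (hasCyc_clique_add_pairs hK'c htK hsn.2 (Ne.symm hsn.1) (Finset.filter_subset _ _)
    (Finset.filter_subset _ _) (fun x hx => (Finset.mem_filter.1 hx).2)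
    (fun x hx => (Finset.mem_filter.1 hx).2) hs2 hp hq hpq hr hrp hrq (by omega))

end Vale.Agent.P048
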