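import Mathlib

/-!
# P048: shared definitions for cycle-complete Ramsey bounds
-/

namespace Vale.Agent.P048

variable {V : Type*}

/-- `G` has a cycle with exactly `L` vertices. -/
def HasCyc (G : SimpleGraph V) (L : ℕ) : Prop :=
  ∃ (v : V) (p : G.Walk v v), p.IsCycle ∧ p.length = L

/-- A cycle listed by its vertices in cyclic order. -/
def IsCycList (G : SimpleGraph V) (l : List V) : Prop :=
  3 ≤ l.length ∧ l.Nodup ∧ List.IsChain G.Adj l ∧
    ∀ (h : l ≠ []), G.Adj (l.getLast h) (l.head h)

/-- Every set of pairwise non-adjacent vertices has at most `a` elements. -/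
def IndepLE (G : SimpleGraph V) (a : ℕ) : Prop :=
  ∀ s : Finset V, (∀ x ∈ s, ∀ y ∈ s, ¬ G.Adj x y) → s.card ≤ a

/-- The closed neighbourhood of a finite set of vertices. -/
noncomputable def closedNbhd [Fintype V] (G : SimpleGraph V) (J : Finset V) : Finset V := by
  classical exact Finset.univ.filter fun x => x ∈ J ∨ ∃ j ∈ J, G.Adj j x

lemma mem_closedNbhd [Fintype V] {G : SimpleGraph V} {J : Finset V} {x : V} :
    x ∈ closedNbhd G J ↔ x ∈ J ∨ ∃ j ∈ J, G.Adj j x := by
  classical simp [closedNbhd]

end Vale.Agent.P048
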