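import Vale.Agent.P048.Tree

/-!
# P048: a tree of links of length two and the ranks of labels

An independent dominating set `I` is grown by vertices at distance exactly two, so it lies in a
tree on at most `2|I| - 1` vertices in which its members have even distances.  Labels attached
to `I`, onto it, are ranked by the distance from the middle of the tree.
-/

namespace Vale.Agent.P048

variable {V : Type*} {G : SimpleGraph V}

/-- The parity of a vertex of the tree: members of `I` are even. -/
def side [DecidableEq V] (I : Finset V) (x : V) : ℕ := if x ∈ I then 0 else 1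

/-- Growing by links of length two gives an independent dominating set inside a small tree. -/
theorem exists_link_tree [Fintype V] [DecidableEq V] (G : SimpleGraph V) (v₀ : V) (a : ℕ)
    (hind : IndepLE G a)
    (hconn : ∀ A : Finset V, A.Nonempty → A ≠ Finset.univ → ∃ u ∈ A, ∃ v, v ∉ A ∧ G.Adj u v) :
    ∃ (X I : Finset V) (M : TreeMetric G X), I ⊆ X ∧ v₀ ∈ I ∧
      (∀ x ∈ I, ∀ y ∈ I, ¬ G.Adj x y) ∧ (∀ v ∉ I, ∃ s ∈ I, G.Adj v s) ∧
      X.card + 1 ≤ 2 * I.card ∧
      ∀ x ∈ X, ∀ y ∈ X, (M.d x y + side I x + side I y) % 2 = 0 := by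
  classical
  suffices H : ∀ k, ∃ (X I : Finset V) (M : TreeMetric G X), I ⊆ X ∧ v₀ ∈ I ∧
      (∀ x ∈ I, ∀ y ∈ I, ¬ G.Adj x y) ∧ (∀ x ∈ X, x ∈ I ∨ ∃ s ∈ I, G.Adj x s) ∧
      X.card + 1 ≤ 2 * I.card ∧
      (∀ x ∈ X, ∀ y ∈ X, (M.d x y + side I x + side I y) % 2 = 0) ∧
      (k ≤ I.card ∨ ∀ v ∉ I, ∃ s ∈ I, G.Adj v s) by
    obtain ⟨X, I, M, hIX, hv₀, hI, -, hX, hpar, hk⟩ := H (a + 1)
    refine ⟨X, I, M, hIX, hv₀, hI, ?_, hX, hpar⟩
    rcases hk with hk | hk
    · have := hind I hI
      omega
    · exact hk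
  intro k
  induction k with
  | zero =>
    refine ⟨{v₀}, {v₀}, TreeMetric.single G v₀, le_rfl, Finset.mem_singleton_self _, by simp,
      fun x hx => Or.inl hx, by simp, fun x hx y hy => ?_, Or.inl (Nat.zero_le _)⟩
    rw [Finset.mem_singleton] at hx hy
    simp [TreeMetric.single, side, hx, hy]
  | succ k ih =>
    obtain ⟨X, I, M, hIX, hv₀, hI, hcov, hX, hpar, hk⟩ := ih
    by_cases hdom : ∀ v ∉ I, ∃ s ∈ I, G.Adj v s
    · exact ⟨X, I, M, hIX, hv₀, hI, hcov, hX, hpar, Or.inr hdom⟩
    replace hk := hk.resolve_right hdom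
    push Not at hdom
    obtain ⟨w, hwI, hw⟩ := hdom
    set A := Finset.univ.filter fun v => v ∈ I ∨ ∃ s ∈ I, G.Adj v s with hA
    have hmemA : ∀ v, v ∈ A ↔ (v ∈ I ∨ ∃ s ∈ I, G.Adj v s) := fun v => by simp [A]
    obtain ⟨u, hu, v, hv, huv⟩ := hconn A ⟨v₀, (hmemA _).2 (Or.inl hv₀)⟩ (fun h => by
      rcases (hmemA w).1 (h ▸ Finset.mem_univ w) with h' | ⟨s, hs, h'⟩
      · exact hwI h'
      · exact hw s hs h')
    rw [hmemA] at hu hv
    simp only [not_or, not_exists, not_and] at hv
    have huI : u ∉ I := fun h => hv.2 u h huv.symm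
    obtain ⟨t₀, ht₀, hut⟩ := hu.resolve_left huI
    have hvX : v ∉ X := fun h => by
      rcases hcov v h with h' | ⟨s, hs, h'⟩
      · exact hv.1 h'
      · exact hv.2 s hs h'
    -- bring in `u`
    obtain ⟨X₁, M₁, hXX₁, hu₁, hcard₁, hcov₁, hpar₁, hv₁⟩ :
        ∃ (X₁ : Finset V) (M₁ : TreeMetric G X₁), X ⊆ X₁ ∧ u ∈ X₁ ∧ X₁.card ≤ X.card + 1 ∧
        (∀ x ∈ X₁, x ∈ I ∨ ∃ s ∈ I, G.Adj x s) ∧
        (∀ x ∈ X₁, ∀ y ∈ X₁, (M₁.d x y + side I x + side I y) % 2 = 0) ∧ v ∉ X₁ := by
      by_cases huX : u ∈ X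
      · exact ⟨X, M, le_rfl, huX, by omega, hcov, hpar, hvX⟩
      obtain ⟨M', h1, hM', hM'u⟩ := M.exists_insert huX (hIX ht₀) hut.symm
      have hru : side I u = 1 := if_neg huI
      refine ⟨insert u X, M', Finset.subset_insert _ _, Finset.mem_insert_self _ _,
        Finset.card_insert_le _ _, ?_, ?_, by simp [huv.ne', hvX]⟩
      · intro x hx
        rcases Finset.mem_insert.1 hx with rfl | hx
        · exact Or.inr ⟨t₀, ht₀, hut⟩
        · exact hcov x hx
      · have hside : side I t₀ = 0 := if_pos ht₀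
        have hu' : ∀ y ∈ X, (M'.d u y + side I u + side I y) % 2 = 0 := by
          intro y hy
          have := hM'u y hy
          have := hpar t₀ (hIX ht₀) y hy
          omega
        intro x hx y hy
        rcases Finset.mem_insert.1 hx with hx' | hx <;>
          rcases Finset.mem_insert.1 hy with hy' | hy
        · rw [hx', hy', M'.self u (Finset.mem_insert_self _ _)]; omega
        · rw [hx']; exact hu' y hy
        · rw [hy', M'.symm x (Finset.mem_insert_of_mem hx) u (Finset.mem_insert_self _ _)]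
          have := hu' x hx
          omega
        · rw [hM' x hx y hy]; exact hpar x hx y hy
    obtain ⟨M₂, h2, hM₂, hM₂v⟩ := M₁.exists_insert hv₁ hu₁ huv
    refine ⟨insert v X₁, insert v I, M₂,
      Finset.insert_subset_insert v (hIX.trans hXX₁), Finset.mem_insert_of_mem hv₀, ?_, ?_, ?_,
      ?_, Or.inl ?_⟩
    · intro x hx y hy
      rcases Finset.mem_insert.1 hx with hx' | hx <;> rcases Finset.mem_insert.1 hy with hy' | hy
      · rw [hx', hy']; exact G.irrefl
      · rw [hx']; exact hv.2 y hy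
      · rw [hy']; exact fun e => hv.2 x hx e.symm
      · exact hI x hx y hy
    · intro x hx
      rcases Finset.mem_insert.1 hx with rfl | hx
      · exact Or.inl (Finset.mem_insert_self _ _)
      · rcases hcov₁ x hx with h | ⟨s, hs, h⟩
        · exact Or.inl (Finset.mem_insert_of_mem h)
        · exact Or.inr ⟨s, Finset.mem_insert_of_mem hs, h⟩
    · rw [Finset.card_insert_of_notMem hv₁, Finset.card_insert_of_notMem hv.1]
      omega
    · have hsv : side (insert v I) v = 0 := if_pos (Finset.mem_insert_self _ _)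
      have hso : ∀ x ∈ X₁, side (insert v I) x = side I x := fun x hx => by
        simp [side, show x ≠ v from fun e => hv₁ (e ▸ hx)]
      have hsu : side I u = 1 := if_neg huI
      intro x hx y hy
      have hv' : ∀ y ∈ X₁, (M₂.d v y + 0 + side I y) % 2 = 0 := by
        intro y hy
        have := hM₂v y hy
        have := hpar₁ u hu₁ y hy
        omega
      rcases Finset.mem_insert.1 hx with hx' | hx <;> rcases Finset.mem_insert.1 hy with hy' | hy
      · rw [hx', hy', M₂.self v (Finset.mem_insert_self _ _), hsv]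
      · rw [hx', hsv, hso y hy]; exact hv' y hy
      · rw [hy', hsv, hso x hx,
          M₂.symm x (Finset.mem_insert_of_mem hx) v (Finset.mem_insert_self _ _)]
        have := hv' x hx
        omega
      · rw [hM₂ x hx y hy, hso x hx, hso y hy]; exact hpar₁ x hx y hy
    · rw [Finset.card_insert_of_notMem hv.1]
      omega

end Vale.Agent.P048
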