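import Vale.Agent.P048.Blocks
import Vale.Agent.P048.LinkTree

/-!
# P048: two blocks at the two ends of the tree

When two consecutive blocks carry labels of tree members at distance `m - 4`, every window through
both labels is one too long.  A vertex next to the border has a neighbour in the independent
dominating set, and one of the cycles through that neighbour has length exactly `m`, by parity.
-/

namespace Vale.Agent.P048

variable {V : Type*} {G : SimpleGraph V} {X I : Finset V}

/-- A path outside the tree closed by a route of the tree. -/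
theorem hasCyc_route (M : TreeMetric G X) {W : List V} {x y u w : V} {L : ℕ} (hn : W.Nodup)
    (hc : W.IsChain G.Adj) (hX : ∀ v ∈ W, v ∉ X) (hh : W.head? = some x)
    (ht : W.getLast? = some y) (hu : u ∈ X) (hw : w ∈ X) (hyu : G.Adj y u) (hwx : G.Adj w x)
    (hL : W.length + M.d u w + 1 = L) (h3 : 3 ≤ L) : HasCyc G L := by
  obtain ⟨l, hll, hln, hlc, hlh, hlt, hli⟩ := M.path u hu w hw
  have := hasCyc_join (G := G) W l x y u w hn hln hc hlc hh ht hlh hlt
    (fun v hv hvl => by
      obtain ⟨i, hi, rfl⟩ := List.getElem_of_mem hvl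
      exact hX _ hv (hli i hi).1) hyu hwx (by omega)
  rwa [show W.length + l.length = L by omega] at this

/-- The last four candidates cannot all fail. -/
theorem end_arith {m q0 q1 zp zq wp wq : ℕ} (hm : m % 2 = 0) (hq : m ≤ q0 + q1 + 3)
    (hz : m ≤ zp + zq + 4) (hw : m ≤ wp + wq + 4)
    (e1 : zp % 2 = 0) (e2 : zq % 2 = 0) (e3 : wp % 2 = 0) (e4 : wq % 2 = 0)
    (a1 : zq + q1 + 4 ≤ m) (a2 : zp + q0 + 3 ≤ m) (a3 : wp + q0 + 4 ≤ m)
    (a4 : wq + q1 + 3 ≤ m) : False := by omega

/-- Two blocks whose labels hang from tree members at distance `m - 4` close to `m`. -/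
theorem hasCyc_two_ends (M : TreeMetric G X) (hIX : I ⊆ X)
    (hdom : ∀ v ∉ I, ∃ s ∈ I, G.Adj v s) {j : ℕ → V} {B : ℕ → List V} (hB : IsBlocks G 2 j B)
    {p q : V} {m : ℕ} (hp : p ∈ I) (hq : q ∈ I) (hpj : G.Adj p (j 0)) (hqj : G.Adj (j 1) q)
    (heven : ∀ x ∈ I, ∀ y ∈ I, M.d x y % 2 = 0) (hd : M.d p q + 4 = m)
    (hdiam : ∀ x ∈ I, ∀ y ∈ I, M.d x y + 4 ≤ m)
    (hlB : ∀ x < 2, j x ∉ X ∧ ∀ v ∈ B x, v ∉ X)
    (hlen : m ≤ (B 0).length + (B 1).length + 3) : HasCyc G m := by
  have h0 : 0 < 2 := by omega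
  have h1 : 1 < 2 := by omega
  obtain ⟨x, hx⟩ : ∃ x, (B 0).getLast? = some x :=
    ⟨_, List.getLast?_eq_some_getLast (hB.ne 0 h0)⟩
  obtain ⟨y, hy⟩ : ∃ y, (B 1).head? = some y := ⟨_, List.head?_eq_some_head (hB.ne 1 h1)⟩
  have hxy : G.Adj x y := hB.glue 0 h1 x (by simp [hx]) y (by simp [hy])
  have hxB : x ∈ B 0 := List.mem_of_mem_getLast? hx
  have hyB : y ∈ B 1 := List.mem_of_mem_head? hy
  obtain ⟨z, hz, hxz⟩ := hdom x fun h => (hlB 0 h0).2 x hxB (hIX h)
  obtain ⟨w, hw, hyw⟩ := hdom y fun h => (hlB 1 h1).2 y hyB (hIX h)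
  have dsum : ∀ z ∈ I, M.d p q ≤ M.d z p + M.d z q := fun z hz => by
    have := M.triangle (hIX hp) (hIX hq) (hIX hz)
    rw [M.symm p (hIX hp) z (hIX hz)] at this
    exact this
  -- a part of the last block closed with its label
  have suf : ∀ r, 1 ≤ r → r ≤ (B 0).length →
      ∃ W : List V, W.length = r + 1 ∧ W.Nodup ∧ W.IsChain G.Adj ∧ W.head? = some (j 0) ∧
        W.getLast? = some x ∧ ∀ v ∈ W, v = j 0 ∨ v ∈ B 0 := by
    intro r hr1 hr
    have hmem : ∀ v ∈ (B 0).drop ((B 0).length - r), v ∈ B 0 := fun v hv =>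
      List.mem_of_mem_drop hv
    refine ⟨j 0 :: (B 0).drop ((B 0).length - r), by simp; omega,
      List.nodup_cons.2 ⟨fun h => hB.sep 0 h0 0 h0 (hmem _ h),
        (hB.nodup 0 h0).sublist (List.drop_sublist _ _)⟩,
      ((hB.chain 0 h0).drop _).cons fun v hv => hB.adj 0 h0 v
        (hmem v (List.mem_of_mem_head? hv)), rfl, ?_, ?_⟩
    · rw [List.getLast?_cons_of_ne_nil (List.ne_nil_of_length_pos (by simp; omega)),
        List.getLast?_drop, if_neg (by omega), hx]
    · intro v hv
      rcases List.mem_cons.1 hv with rfl | hv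
      · exact Or.inl rfl
      · exact Or.inr (hmem v hv)
  have pre : ∀ r, 1 ≤ r → r ≤ (B 1).length →
      ∃ W : List V, W.length = r + 1 ∧ W.Nodup ∧ W.IsChain G.Adj ∧ W.head? = some y ∧
        W.getLast? = some (j 1) ∧ ∀ v ∈ W, v = j 1 ∨ v ∈ B 1 := by
    intro r hr1 hr
    have hmem : ∀ v ∈ (B 1).take r, v ∈ B 1 := fun v hv => List.mem_of_mem_take hv
    refine ⟨(B 1).take r ++ [j 1], by simp; omega,
      List.nodup_append.2 ⟨(hB.nodup 1 h1).sublist (List.take_sublist _ _), by simp,
        fun v hv v' hv' e => ?_⟩,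
      ((hB.chain 1 h1).take _).append (.singleton _) fun v hv v' hv' => ?_, ?_, by simp, ?_⟩
    · rw [List.mem_singleton] at hv'
      exact hB.sep 1 h1 1 h1 (hv' ▸ e ▸ hmem v hv)
    · simp only [List.head?_cons, Option.mem_def, Option.some.injEq] at hv'
      subst hv'
      exact (hB.adj 1 h1 v (hmem v (List.mem_of_mem_getLast? hv))).symm
    · obtain ⟨u, B', hb⟩ := List.exists_cons_of_ne_nil (hB.ne 1 h1)
      rw [hb] at hy ⊢
      rw [show r = r - 1 + 1 by omega, List.take_succ_cons]
      simpa using hy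
    · intro v hv
      rcases List.mem_append.1 hv with hv | hv
      · exact Or.inr (hmem v hv)
      · exact Or.inl (List.mem_singleton.1 hv)
  have hout0 : ∀ v, v = j 0 ∨ v ∈ B 0 → v ∉ X := by
    rintro v (rfl | hv)
    · exact (hlB 0 h0).1
    · exact (hlB 0 h0).2 v hv
  have hout1 : ∀ v, v = j 1 ∨ v ∈ B 1 → v ∉ X := by
    rintro v (rfl | hv)
    · exact (hlB 1 h1).1
    · exact (hlB 1 h1).2 v hv
  have hzp := hdiam z hz p hp
  have hzq := hdiam z hz q hq
  have hwp := hdiam w hw p hp
  have hwq := hdiam w hw q hq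
  -- from the last vertex of the first block into the second block
  by_cases a1 : m < M.d z q + (B 1).length + 4
  · obtain ⟨W, hWl, hWn, hWc, hWh, hWt, hWm⟩ :=
      pre (min ((B 1).length) (m - 3 - M.d z q)) (by
        have := List.length_pos_iff.2 (hB.ne 1 h1)
        omega) (by omega)
    refine hasCyc_route M (W := x :: W) (List.nodup_cons.2 ⟨fun h => ?_, hWn⟩)
      (hWc.cons fun v hv => by
        rw [hWh] at hv
        exact Option.some.inj hv ▸ hxy) ?_ rfl
      (by rw [List.getLast?_cons_of_ne_nil (List.ne_nil_of_length_pos (by omega)), hWt])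
      (hIX hq) (hIX hz) hqj hxz.symm ?_ (by omega)
    · rcases hWm x h with e | e
      · exact hB.sep 1 h1 0 h0 (e ▸ hxB)
      · exact absurd (hB.disj 0 h0 1 h1 x hxB e) zero_ne_one
    · intro v hv
      rcases List.mem_cons.1 hv with rfl | hv
      · exact hout0 _ (Or.inr hxB)
      · exact hout1 v (hWm v hv)
    · rw [List.length_cons, hWl, M.symm q (hIX hq) z (hIX hz)]
      omega
  -- from the last vertex of the first block into that block
  by_cases a2 : m < M.d z p + (B 0).length + 3
  · obtain ⟨W, hWl, hWn, hWc, hWh, hWt, hWm⟩ :=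
      suf (m - 2 - M.d z p) (by omega) (by omega)
    exact hasCyc_route M hWn hWc (fun v hv => hout0 v (hWm v hv)) hWh hWt (hIX hz) (hIX hp) hxz
      hpj (by omega) (by omega)
  -- from the first vertex of the second block into the first block
  by_cases a3 : m < M.d w p + (B 0).length + 4
  · obtain ⟨W, hWl, hWn, hWc, hWh, hWt, hWm⟩ :=
      suf (min ((B 0).length) (m - 3 - M.d w p)) (by
        have := List.length_pos_iff.2 (hB.ne 0 h0)
        omega) (by omega)
    refine hasCyc_route M (W := W ++ [y])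
      (List.nodup_append.2 ⟨hWn, by simp, fun v hv v' hv' e => ?_⟩)
      (hWc.append (.singleton _) fun v hv v' hv' => ?_) ?_
      (by rw [List.head?_append, hWh]; rfl) (by simp) (hIX hw) (hIX hp) hyw hpj ?_ (by omega)
    · rw [List.mem_singleton] at hv'
      subst hv' e
      rcases hWm _ hv with e | e
      · exact hB.sep 0 h0 1 h1 (e ▸ hyB)
      · exact absurd (hB.disj 0 h0 1 h1 _ e hyB) zero_ne_one
    · rw [hWt] at hv
      simp only [List.head?_cons, Option.mem_def, Option.some.injEq] at hv hv'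
      subst hv hv'
      exact hxy
    · intro v hv
      rcases List.mem_append.1 hv with hv | hv
      · exact hout0 v (hWm v hv)
      · exact hout1 v (Or.inr (List.mem_singleton.1 hv ▸ hyB))
    · simp only [List.length_append, List.length_singleton, hWl]
      omega
  -- from the first vertex of the second block into that block
  by_cases a4 : m < M.d w q + (B 1).length + 3
  · obtain ⟨W, hWl, hWn, hWc, hWh, hWt, hWm⟩ :=
      pre (m - 2 - M.d w q) (by omega) (by omega)
    exact hasCyc_route M hWn hWc (fun v hv => hout1 v (hWm v hv)) hWh hWt (hIX hq) (hIX hw) hqj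
      hyw.symm (by rw [M.symm q (hIX hq) w (hIX hw)]; omega) (by omega)
  exfalso
  have := dsum z hz
  have := dsum w hw
  have := heven p hp q hq
  exact end_arith (by omega) hlen (by omega) (by omega) (heven z hz p hp) (heven z hz q hq)
    (heven w hw p hp) (heven w hw q hq) (by omega) (by omega) (by omega) (by omega)

end Vale.Agent.P048
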