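import Vale.Agent.P048.SideWindow

/-!
# P048: windows on a line

Labels sit at increasing places of a line with `g` places, two labels being `2|p - p'|` apart.
Blocks with total at least `M - 3` then have a window closing to `M` as soon as `M ≥ 2g + 6`.
-/

namespace Vale.Agent.P048

open Finset

/-- Shortest cycle of a window. -/
def lineLo (p q : ℕ → ℕ) (i j : ℕ) : ℕ :=
  2 * (p j - p i) + 5 + ∑ x ∈ Ioo i j, short (q x)

/-- Longest cycle of a window. -/
def lineHi (p q : ℕ → ℕ) (i j : ℕ) : ℕ :=
  2 * (p j - p i) + 3 + q i + q j + ∑ x ∈ Ioo i j, long (q x)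

theorem line_le {k : ℕ} {p : ℕ → ℕ} (hp : ∀ x, x + 1 < k → p x < p (x + 1)) {i j : ℕ}
    (hij : i ≤ j) (hj : j < k) : p i + (j - i) ≤ p j :=
  strict_steps hp i j hij hj

/-- A longer window has longer cycles at both ends. -/
theorem line_mono {k : ℕ} {p q : ℕ → ℕ} (hp : ∀ x, x + 1 < k → p x < p (x + 1))
    (hq : ∀ x < k, 1 ≤ q x) {i i' j' j : ℕ} (h1 : i ≤ i') (h2 : i' < j') (h3 : j' ≤ j)
    (hj : j < k) : lineLo p q i' j' ≤ lineLo p q i j ∧ lineHi p q i' j' ≤ lineHi p q i j := by
  have right : ∀ j₁, j' ≤ j₁ → j₁ < k →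
      lineLo p q i' j' ≤ lineLo p q i' j₁ ∧ lineHi p q i' j' ≤ lineHi p q i' j₁ := by
    intro j₁ hle
    induction j₁, hle using Nat.le_induction with
    | base => exact fun _ => ⟨le_rfl, le_rfl⟩
    | succ t ht ih =>
      intro htk
      obtain ⟨ih1, ih2⟩ := ih (by omega)
      have e1 := sum_Ioo_right (i := i') (j := t + 1) (by omega) fun x => short (q x)
      have e2 := sum_Ioo_right (i := i') (j := t + 1) (by omega) fun x => long (q x)
      simp only [Nat.add_sub_cancel] at e1 e2
      obtain ⟨-, -, e3, -, -⟩ := short_le_long (q t)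
      have := line_le hp (h2.trans_le ht).le (show t < k by omega)
      have := line_le hp (show t ≤ t + 1 by omega) htk
      have := hq (t + 1) htk
      unfold lineLo lineHi at *
      omega
  obtain ⟨r1, r2⟩ := right j h3 hj
  have left : ∀ i₁, i ≤ i₁ → i₁ ≤ i' →
      lineLo p q i₁ j ≤ lineLo p q i j ∧ lineHi p q i₁ j ≤ lineHi p q i j := by
    intro i₁ hle
    induction i₁, hle using Nat.le_induction with
    | base => exact fun _ => ⟨le_rfl, le_rfl⟩
    | succ t ht ih =>
      intro htk
      obtain ⟨ih1, ih2⟩ := ih (by omega)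
      have e1 := sum_Ioo_left (i := t) (j := j) (by omega) fun x => short (q x)
      have e2 := sum_Ioo_left (i := t) (j := j) (by omega) fun x => long (q x)
      obtain ⟨-, -, e3, -, -⟩ := short_le_long (q (t + 1))
      have := line_le hp (show t ≤ t + 1 by omega) (show t + 1 < k by omega)
      have := line_le hp (show t + 1 ≤ j by omega) hj
      have := hq t (by omega)
      unfold lineLo lineHi at *
      omega
  obtain ⟨l1, l2⟩ := left i' h1 le_rfl
  exact ⟨r1.trans l1, r2.trans l2⟩

theorem lineLo_le_lineHi {k : ℕ} {p q : ℕ → ℕ} (hq : ∀ x < k, 1 ≤ q x) {i j : ℕ} (hij : i < j)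
    (hj : j < k) : lineLo p q i j ≤ lineHi p q i j := by
  have := hq i (by omega)
  have := hq j hj
  obtain ⟨-, h, -, -, -⟩ := sums_bound q (Ioo i j)
  unfold lineLo lineHi
  omega

theorem arith_end {C C' S N n u1 u2 qv : ℕ} (hC : C = u1 + S) (hu : u1 ≤ 3) (hqv : 1 ≤ qv)
    (hN : S + 1 ≤ n + 2 * N) (hC3 : C ≤ 3 * n) (hgap : qv + N ≤ u2) (hC' : C' = C) :
    C' ≤ 2 * n + u2 := by omega

/-- A minimal high window is long. -/
theorem line_high_long {M k : ℕ} {p q : ℕ → ℕ} (hp : ∀ x, x + 1 < k → p x < p (x + 1))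
    (hq : ∀ x < k, 1 ≤ q x) {i j : ℕ} (hij : i + 2 ≤ j) (hj : j < k)
    (hhigh : M < lineLo p q i j) (hl : lineHi p q (i + 1) j < M)
    (hr : lineHi p q i (j - 1) < M) :
    M + 2 * (p j - p (j - 1)) ≤ 4 * (p j - p i) + 6 ∧
      M + 2 * (p (i + 1) - p i) ≤ 4 * (p j - p i) + 6 := by
  obtain ⟨hC3, -, -, -, -⟩ := sums_bound q (Ioo i j)
  rw [Nat.card_Ioo] at hC3
  obtain ⟨-, hE1, hN1, -, -⟩ := sums_bound q (Ioo (i + 1) j)
  obtain ⟨-, hE2, hN2, -, -⟩ := sums_bound q (Ioo i (j - 1))
  rw [Nat.card_Ioo] at hN1 hN2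
  have e1 := sum_Ioo_left (i := i) (j := j) (by omega) fun x => short (q x)
  have e2 := sum_Ioo_right (i := i) (j := j) (by omega) fun x => short (q x)
  obtain ⟨c1, c1', -, -, -⟩ := short_le_long (q (i + 1))
  obtain ⟨c2, c2', -, -, -⟩ := short_le_long (q (j - 1))
  have := hq i (by omega)
  have := hq j hj
  have g0 := line_le hp (show i ≤ i + 1 by omega) (show i + 1 < k by omega)
  have g1 := line_le hp (show i + 1 ≤ j - 1 by omega) (show j - 1 < k by omega)
  have g2 := line_le hp (show j - 1 ≤ j by omega) hj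
  unfold lineLo lineHi at *
  have b1 := arith_end (C' := ∑ x ∈ Ioo i j, short (q x)) (n := j - i - 1)
    (u2 := 2 * (p (i + 1) - p i)) (qv := q j)
    (N := ∑ x ∈ Ioo (i + 1) j, two (q x)) e1 c1' (by omega) (by omega) hC3 (by omega) rfl
  have b2 := arith_end (C' := ∑ x ∈ Ioo i j, short (q x)) (n := j - i - 1)
    (u2 := 2 * (p j - p (j - 1))) (qv := q i)
    (N := ∑ x ∈ Ioo i (j - 1), two (q x)) (e2.trans (add_comm _ _)) c2' (by omega) (by omega)
    hC3 (by omega) rfl
  constructor <;> omega

/-- Two high windows share more than one step. -/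
theorem line_high_meet {g M k : ℕ} {p q : ℕ → ℕ} (hM : 2 * g + 5 ≤ M)
    (hp : ∀ x, x + 1 < k → p x < p (x + 1)) (hpg : ∀ x < k, p x < g) (hq : ∀ x < k, 1 ≤ q x)
    (hno : ∀ i j, i < j → j < k → lineLo p q i j ≤ M → lineHi p q i j < M) :
    ∀ w i j i' j', (j - i) + (j' - i') ≤ w → i < j → j < k → i' < j' → j' < k →
      M < lineLo p q i j → M < lineLo p q i' j' → j ≤ i' + 1 → j ≤ j' → False := by
  intro w
  induction w with
  | zero => intros; omega
  | succ w ih =>
    intro i j i' j' hw hij hjk hij' hjk' h h' hmeet hjj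
    have adj : ∀ u, u + 1 < k → lineLo p q u (u + 1) ≤ M := by
      intro u hu
      have := hpg (u + 1) hu
      have e : Ioo u (u + 1) = ∅ := by ext x; simp
      simp only [lineLo, e, sum_empty]
      omega
    have hij2 : i + 2 ≤ j := by
      by_contra hlt
      obtain rfl : j = i + 1 := by omega
      exact absurd h (not_lt.2 (adj i hjk))
    have hij2' : i' + 2 ≤ j' := by
      by_contra hlt
      obtain rfl : j' = i' + 1 := by omega
      exact absurd h' (not_lt.2 (adj i' hjk'))
    by_cases h1 : M < lineLo p q (i + 1) j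
    · exact ih (i + 1) j i' j' (by omega) (by omega) hjk hij' hjk' h1 h' hmeet hjj
    by_cases h2 : M < lineLo p q i (j - 1)
    · exact ih i (j - 1) i' j' (by omega) (by omega) (by omega) hij' hjk' h2 h' (by omega) (by omega)
    by_cases h3 : M < lineLo p q (i' + 1) j'
    · exact ih i j (i' + 1) j' (by omega) hij hjk (by omega) hjk' h h3 (by omega) hjj
    by_cases h4 : M < lineLo p q i' (j' - 1)
    · exact ih i j i' (j' - 1) (by omega) hij hjk (by omega) (by omega) h h4 hmeet (by omega)
    obtain ⟨b1, -⟩ := line_high_long hp hq hij2 hjk h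
      (hno _ _ (by omega) hjk (not_lt.1 h1)) (hno _ _ (by omega) (by omega) (not_lt.1 h2))
    obtain ⟨-, b2⟩ := line_high_long hp hq hij2' hjk' h'
      (hno _ _ (by omega) hjk' (not_lt.1 h3)) (hno _ _ (by omega) (by omega) (not_lt.1 h4))
    have u1 := line_le hp (show i ≤ j - 1 by omega) (show j - 1 < k by omega)
    have u2 := line_le hp (show j - 1 ≤ j by omega) hjk
    have u3 := line_le hp (show i' ≤ i' + 1 by omega) (show i' + 1 < k by omega)
    have u4 := line_le hp (show i' + 1 ≤ j' by omega) hjk'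
    have u5 := hpg j' hjk'
    rcases eq_or_lt_of_le hmeet with e | e
    · subst e
      simp only [Nat.add_sub_cancel] at *
      omega
    · have := line_le hp (show j ≤ i' by omega) (show i' < k by omega)
      omega

/-- A window on the line. -/
theorem exists_window_line (g M k : ℕ) (p q : ℕ → ℕ) (hM : 2 * g + 6 ≤ M) (hk : 2 ≤ k)
    (hp : ∀ x, x + 1 < k → p x < p (x + 1)) (hpg : ∀ x < k, p x < g)
    (hq : ∀ x < k, 1 ≤ q x) (hV : M ≤ ∑ x ∈ range k, q x + 3) :
    ∃ i j, i < j ∧ j < k ∧ 2 * (p j - p i) + 5 + ∑ x ∈ Ioo i j, short (q x) ≤ M ∧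
      M ≤ 2 * (p j - p i) + 3 + q i + q j + ∑ x ∈ Ioo i j, long (q x) := by
  classical
  by_contra hcon
  push Not at hcon
  have hno : ∀ i j, i < j → j < k → lineLo p q i j ≤ M → lineHi p q i j < M := hcon
  have hsplit : ∀ i j, i ≤ j → j < k → ∀ f : ℕ → ℕ,
      ∑ x ∈ Ico 0 (j + 1), f x = ∑ x ∈ Ico 0 (i + 1), f x + ∑ x ∈ Ioc i j, f x := by
    intro i j hij _ f
    rw [← Finset.sum_Ico_consecutive f (Nat.zero_le (i + 1)) (show i + 1 ≤ j + 1 by omega)]
    refine congrArg _ (Finset.sum_congr ?_ fun _ _ => rfl)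
    ext x
    simp only [mem_Ico, mem_Ioc]
    omega
  have hhead : ∀ j, 0 < j → ∀ f : ℕ → ℕ,
      ∑ x ∈ Ico 0 (j + 1), f x = f 0 + ∑ x ∈ Ioo 0 j, f x + f j := by
    intro j hj f
    rw [← Finset.sum_Ico_consecutive f (Nat.zero_le j) (show j ≤ j + 1 by omega),
      Nat.Ico_succ_singleton, sum_singleton, ← Finset.sum_insert (s := Ioo 0 j) (a := 0) (by simp)]
    refine congrArg (· + _) (Finset.sum_congr ?_ fun _ _ => rfl)
    ext x
    simp only [mem_Ico, mem_insert, mem_Ioo]
    omega
  rw [Finset.range_eq_Ico] at hV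
  -- the whole sequence is high
  have hfull : M < lineLo p q 0 (k - 1) := by
    by_contra hle
    have h1 := hno 0 (k - 1) (by omega) (by omega) (not_lt.1 hle)
    have h2 := hhead (k - 1) (by omega) q
    rw [show k - 1 + 1 = k by omega] at h2
    obtain ⟨-, -, -, h3, -⟩ := sums_bound q (Ioo 0 (k - 1))
    unfold lineHi at h1
    omega
  have hex : ∃ b, b + 1 < k ∧ M < lineLo p q 0 (b + 1) :=
    ⟨k - 2, by omega, by rwa [show k - 2 + 1 = k - 1 by omega]⟩
  obtain ⟨hBk, hB⟩ := Nat.find_spec hex
  set B := Nat.find hex with hBdef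
  have hB1 : 1 ≤ B := by
    by_contra h0
    rw [show B = 0 by omega] at hB
    have := hpg 1 (by omega)
    have e : Ioo 0 1 = (∅ : Finset ℕ) := by ext x; simp; omega
    simp only [lineLo, zero_add, e, sum_empty] at hB
    omega
  have hlow0 : lineHi p q 0 B < M := by
    refine hno 0 B (by omega) (by omega) (not_lt.1 fun h => ?_)
    have := Nat.find_min hex (show B - 1 < B by omega)
    exact this ⟨by omega, by rwa [show B - 1 + 1 = B by omega]⟩
  have claim : ∀ x, B ≤ x → x < k → ∀ A, A ≤ B → (x = B ∨ lineHi p q A x < M) →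
      ∑ y ∈ Ioc B x, q y + 2 * A + 2 * B + 2 * p 0 ≤ 2 * p A + 2 * x := by
    intro x
    induction x using Nat.strong_induction_on with
    | _ x ih =>
      intro hBx hxk A hA hAx
      have := line_le hp (show 0 ≤ A by omega) (show A < k by omega)
      rcases eq_or_lt_of_le hBx with rfl | hlt
      · simp
        omega
      have hlowA := hAx.resolve_left (by omega)
      have hea : ∃ c, c ≤ A ∧ lineHi p q c x < M := ⟨A, le_rfl, hlowA⟩
      obtain ⟨hcA, hc⟩ := Nat.find_spec hea
      set c := Nat.find hea with hcdef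
      have hx0 : M < lineLo p q 0 x :=
        lt_of_lt_of_le hB (line_mono hp hq le_rfl (by omega) (show B + 1 ≤ x by omega) hxk).1
      have hc1 : 1 ≤ c := by
        by_contra h0
        rw [show c = 0 by omega] at hc
        have := lineLo_le_lineHi (p := p) hq (show 0 < x by omega) hxk
        omega
      have hprev : M < lineLo p q (c - 1) x := by
        by_contra h
        exact Nat.find_min hea (show c - 1 < c by omega)
          ⟨by omega, hno _ _ (by omega) hxk (not_lt.1 h)⟩
      have hez : ∃ z, B < z ∧ M < lineLo p q (c - 1) z := ⟨x, hlt, hprev⟩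
      obtain ⟨hzB, hz⟩ := Nat.find_spec hez
      set z := Nat.find hez with hzdef
      have hzx : z ≤ x := Nat.find_min' hez ⟨hlt, hprev⟩
      have hy : z - 1 = B ∨ lineHi p q (c - 1) (z - 1) < M := by
        by_cases h : z - 1 = B
        · exact Or.inl h
        exact Or.inr (hno _ _ (by omega) (by omega) (not_lt.1 fun h' =>
          Nat.find_min hez (show z - 1 < z by omega) ⟨by omega, h'⟩))
      have h5 := ih (z - 1) (by omega) (by omega) (by omega) (c - 1) (by omega) hy
      have e1 : ∑ y ∈ Ioc B x, q y = ∑ y ∈ Ioc B (z - 1), q y + ∑ y ∈ Ico z x, q y + q x := by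
        rw [add_assoc, ← Finset.sum_Ico_succ_top hzx, ← Finset.sum_union]
        · refine Finset.sum_congr ?_ fun _ _ => rfl
          ext y
          simp only [mem_Ioc, mem_union, mem_Ico]
          omega
        · rw [Finset.disjoint_left]
          intro y
          simp only [mem_Ioc, mem_Ico]
          omega
      have hsub : Ico z x ⊆ Ioo c x := by
        intro y
        simp only [mem_Ico, mem_Ioo]
        omega
      have e2 : ∑ y ∈ Ico z x, q y + ∑ y ∈ Ioo c x, short (q y) ≤
          ∑ y ∈ Ioo c x, long (q y) + 2 * (x - z) := by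
        rw [← Finset.sum_sdiff hsub, ← Finset.sum_sdiff hsub (f := fun y => long (q y))]
        have h1 : ∑ y ∈ Ioo c x \ Ico z x, short (q y) ≤
            ∑ y ∈ Ioo c x \ Ico z x, long (q y) := sum_le_sum fun y _ => by
          obtain ⟨e, -, e', -, -⟩ := short_le_long (q y)
          omega
        have h2 : ∑ y ∈ Ico z x, (q y + short (q y)) ≤ ∑ y ∈ Ico z x, (long (q y) + 2) :=
          sum_le_sum fun y _ => by
            unfold short long
            split_ifs <;> omega
        simp only [sum_add_distrib, sum_const, Nat.card_Ico, smul_eq_mul] at h2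
        omega
      have e3 := sum_Ioo_left (i := c - 1) (j := x) (by omega) fun y => short (q y)
      rw [Nat.sub_add_cancel hc1] at e3
      have g0 := line_le hp (show c - 1 ≤ c by omega) (show c < k by omega)
      have g1 := line_le hp hcA (show A < k by omega)
      have g2 := line_le hp (show A ≤ x by omega) hxk
      have g3 := line_le hp (show 0 ≤ c - 1 by omega) (show c - 1 < k by omega)
      obtain ⟨e4, -, -, -, -⟩ := short_le_long (q c)
      unfold lineLo at hprev
      unfold lineHi at hc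
      omega
  obtain ⟨l, hl⟩ : ∃ l, l = k - 1 := ⟨_, rfl⟩
  have hlast : lineHi p q B l < M := by
    refine hno _ _ (by omega) (by omega) (not_lt.1 fun h => ?_)
    exact line_high_meet (by omega) hp hpg hq hno _ 0 (B + 1) B l le_rfl (by omega) hBk
      (by omega) (by omega) hB h le_rfl (by omega)
  have h6 := claim l (by omega) (by omega) B le_rfl (Or.inr hlast)
  have h7 := hsplit B l (by omega) (by omega) q
  rw [show l + 1 = k by omega] at h7
  have h8 := hhead B hB1 q
  obtain ⟨-, -, hN, hT, -⟩ := sums_bound q (Ioo 0 B)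
  rw [Nat.card_Ioo] at hN
  have hN' : ∑ y ∈ Ioo 0 B, two (q y) ≤ B - 1 := by
    refine (sum_le_card_nsmul _ _ 1 fun y _ => ?_).trans (by simp)
    unfold two
    split_ifs <;> omega
  have e9 := sum_Ioo_right (i := 0) (j := B + 1) (by omega) fun y => short (q y)
  simp only [Nat.add_sub_cancel] at e9
  obtain ⟨-, c3, -, -, -⟩ := short_le_long (q B)
  have g0 := line_le hp (show B + 1 ≤ l by omega) (show l < k by omega)
  have g1 := line_le hp (show B ≤ B + 1 by omega) hBk
  have g2 := line_le hp (show 0 ≤ B by omega) (show B < k by omega)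
  have g3 := hpg l (by omega)
  unfold lineLo at hB
  unfold lineHi at hlow0
  omega

end Vale.Agent.P048
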