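import Vale.Agent.P048.SideWindow

/-!
# P048: windows on one side of the middle when `M = 2a + 2`

The window lemma on one side is sharpened by one.  This needs more of the tree: levels at which
two branches are present hold two labels, and within a level the branches come one after the
other, deeper branches first.
-/

namespace Vale.Agent.P048

open Finset

/-- The right end can be improved: only a rigid shape is left. -/
theorem sharp_right {a g e R d d2 ri r2 rj n C S N p2 q2 qi si s2 sj : ℕ}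
    (hhigh : 2 * a + 2 < d + 5 + C) (hC : C = S + p2) (hp : p2 ≤ q2) (hp' : p2 ≤ 3)
    (hqi : 1 ≤ qi) (hlow : d2 + 3 + qi + q2 + (S + N) < 2 * a + 2) (hN : S + 1 ≤ n + 2 * N)
    (hC3 : C ≤ 3 * n) (hB : r2 + d ≤ rj + d2) (hd : d ≤ ri + rj)
    (hR : R + e + 2 * g ≤ 2 * a) (hb : ri ≤ 2 * si + e) (htop : rj ≤ R)
    (hgap : rj + 2 * s2 ≤ r2 + 2 * sj) (hs2 : si + n ≤ s2) (hsj : sj < g)
    (hev : d % 2 = 0) (hpi : ri % 2 = R % 2) (hpj : rj % 2 = R % 2) (hp2R : r2 % 2 = R % 2)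
    (hgain : rj + 5 ≤ d + ri → ri + 2 ≤ 2 * si + e) :
    d = ri + rj ∧ ri ≤ 2 ∧ ri = 2 * si + e ∧ sj + 1 = g ∧ C = 3 * n ∧ rj = r2 + n ∧
      2 * a + 3 = d + 5 + C := by omega

/-- Both ends must be moved and the level rises: impossible. -/
theorem sharp_up {a g e R d d3 ri r1 r2 rj n C S N p1 q1 p2 q2 s1 s2 sj : ℕ}
    (hhigh : 2 * a + 2 < d + 5 + C) (hC : C = p1 + (S + p2)) (hp1 : p1 ≤ q1) (hp2 : p2 ≤ q2)
    (hp1' : p1 ≤ 3) (hp2' : p2 ≤ 3) (hlow : d3 + 3 + q1 + q2 + (S + N) < 2 * a + 2)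
    (hN : S + 2 ≤ n + 2 * N) (hC3 : C ≤ 3 * n)
    (hd3 : d + r1 + r2 ≤ d3 + ri + rj) (hd : d ≤ ri + rj)
    (hR : R + e + 2 * g ≤ 2 * a) (htop : rj ≤ R)
    (hgap : rj + 2 * s2 ≤ r2 + 2 * sj) (hs2 : s1 + n ≤ s2 + 1) (hsj : sj < g)
    (hpi : ri % 2 = R % 2) (hp1R : r1 % 2 = R % 2) (hup : ri < r1)
    (hgain : ri + 4 ≤ 2 * s1 + e) : False := by omega

/-- Both ends must be moved at one level: the short content is bounded. -/
theorem sharp_counts {a d d1 d3 ri r2 rj n C S N S1 N1 p1 q1 p2 q2 qj : ℕ}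
    (hhigh : 2 * a + 2 < d + 5 + C) (hC : C = p1 + (S + p2)) (hC1 : C = p1 + S1)
    (hp1 : p1 ≤ q1) (hp2 : p2 ≤ q2) (hp1' : p1 ≤ 3) (hp2' : p2 ≤ 3) (hqj : 1 ≤ qj)
    (hlow : d3 + 3 + q1 + q2 + (S + N) < 2 * a + 2)
    (hlow1 : d1 + 3 + q1 + qj + (S1 + N1) < 2 * a + 2)
    (hN : S + 2 ≤ n + 2 * N) (hN1 : S1 + 1 ≤ n + 2 * N1)
    (hd3 : d + r2 ≤ d3 + rj) (hd1 : rj ≤ d1 + ri) :
    C + 2 * r2 ≤ n + 4 + 2 * rj ∧ C + 2 * rj ≤ n + 2 * d + 2 * ri := by omega

/-- The two branches meet below the middle of the window. -/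
theorem sharp_both_low {a g e R d ri r2 rj n C si s2 sj : ℕ}
    (hhigh : 2 * a + 2 < d + 5 + C) (hA : C + 2 * r2 ≤ n + 4 + 2 * rj)
    (hB : C + 2 * rj ≤ n + 2 * d + 2 * ri) (hC3 : C ≤ 3 * n) (hn : 2 ≤ n)
    (hd : d + 2 ≤ ri + rj)
    (hR : R + e + 2 * g ≤ 2 * a) (hb : ri ≤ 2 * si + e) (he : e ≤ 2) (htop : rj ≤ R)
    (hgap : rj + 2 * s2 ≤ r2 + 2 * sj) (hs2 : si + n ≤ s2) (hs2' : s2 < sj) (hsj : sj < g)
    (hev : d % 2 = 0) (hpi : ri % 2 = R % 2) (hpj : rj % 2 = R % 2) (hp2R : r2 % 2 = R % 2)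
    (hm2 : r2 ≤ rj) (hgain : rj + 5 ≤ d + ri → ri + 2 ≤ 2 * si + e) :
    2 * a + 3 = d + 5 + C ∧ C = 3 * n ∧ sj + 1 = g ∧ ri = 2 * si + e ∧
      d + 2 = ri + rj ∧ rj = r2 + 2 ∧ n = 4 ∧ ri = 3 := by
  rcases Nat.lt_or_ge (ri + rj) (d + 4) with h | h
  · rcases Nat.lt_or_ge ri 4 with h' | h'
    · omega
    · have := hgain (by omega)
      omega
  · omega

/-- The two branches meet at the middle and have gained twice: impossible. -/
theorem sharp_top_gain {a g e R d ri r2 rj n C si s2 sj : ℕ}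
    (hhigh : 2 * a + 2 < d + 5 + C) (hA : C + 2 * r2 ≤ n + 4 + 2 * rj) (hC3 : C ≤ 3 * n)
    (hd : d = ri + rj) (hR : R + e + 2 * g ≤ 2 * a) (htop : rj ≤ R)
    (hs2 : si + n ≤ s2) (hs2' : s2 < sj) (hsj : sj < g) (hm2 : r2 ≤ rj)
    (hgain : ri + 2 ≤ 2 * si + e) (hdeep : r2 < rj → rj + s2 ≤ r2 + sj) : False := by
  rcases Nat.lt_or_ge r2 rj with h | h
  · have := hdeep h
    omega
  · omega

/-- The two branches meet at the middle, the right end above the block before it. -/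
theorem sharp_top_up {a g e R d ri r2 rj n C si s2 sj : ℕ}
    (hhigh : 2 * a + 2 < d + 5 + C) (hA : C + 2 * r2 ≤ n + 4 + 2 * rj)
    (hB : C + 2 * rj ≤ n + 2 * d + 2 * ri) (hC3 : C ≤ 3 * n) (hd : d = ri + rj)
    (hR : R + e + 2 * g ≤ 2 * a) (hb : ri ≤ 2 * si + e) (htop : rj ≤ R)
    (hs2 : si + n ≤ s2) (hsj : sj < g) (hri : ri ≤ 2) (hup : r2 + 2 ≤ rj)
    (hdeep : rj + s2 ≤ r2 + sj) :
    rj = r2 + 2 ∧ n = 4 ∧ ri = 2 ∧ C = 3 * n ∧ 2 * a + 3 = d + 5 + C ∧ sj + 1 = g ∧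
      ri = 2 * si + e := by
  have h1 : rj = r2 + 2 := by omega
  have h2 : n = 4 := by omega
  have h3 : ri = 2 := by omega
  have h4 : C = 12 := by omega
  refine ⟨h1, h2, h3, ?_, ?_, ?_, ?_⟩ <;> omega

/-- The two branches meet at the middle, the right end at the level of the block before it. -/
theorem sharp_top_flat {a g e R d ri r2 rj n C si s2 sj : ℕ}
    (hhigh : 2 * a + 2 < d + 5 + C) (hA : C + 2 * r2 ≤ n + 4 + 2 * rj)
    (hC3 : C ≤ 3 * n) (hn : 2 ≤ n) (hd : d = ri + rj)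
    (hR : R + e + 2 * g ≤ 2 * a) (hb : ri ≤ 2 * si + e) (htop : rj ≤ R)
    (hs2 : si + n ≤ s2) (hsj : sj < g) (hs2' : s2 < sj) (hflat : r2 = rj) :
    n = 2 ∧ C = 3 * n ∧ 2 * a + 3 = d + 5 + C ∧ sj + 1 = g ∧ ri = 2 * si + e := by
  subst hflat
  have h2 : n = 2 := by omega
  refine ⟨h2, ?_, ?_, ?_, ?_⟩ <;> omega

/-- Both ends must be moved at one level: three rigid shapes are left. -/
theorem sharp_both {a g e R d ri r2 rj n C si s2 sj : ℕ}
    (hhigh : 2 * a + 2 < d + 5 + C) (hA : C + 2 * r2 ≤ n + 4 + 2 * rj)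
    (hB : C + 2 * rj ≤ n + 2 * d + 2 * ri) (hC3 : C ≤ 3 * n) (hn : 2 ≤ n) (hd : d ≤ ri + rj)
    (hR : R + e + 2 * g ≤ 2 * a) (hb : ri ≤ 2 * si + e) (he : e ≤ 2) (htop : rj ≤ R)
    (hgap : rj + 2 * s2 ≤ r2 + 2 * sj) (hs2 : si + n ≤ s2) (hs2' : s2 < sj) (hsj : sj < g)
    (hev : d % 2 = 0) (hpi : ri % 2 = R % 2) (hpj : rj % 2 = R % 2) (hp2R : r2 % 2 = R % 2)
    (hm2 : r2 ≤ rj) (hgain : rj + 5 ≤ d + ri → ri + 2 ≤ 2 * si + e)
    (hdeep : d = ri + rj → r2 < rj → rj + s2 ≤ r2 + sj) :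
    2 * a + 3 = d + 5 + C ∧ C = 3 * n ∧ sj + 1 = g ∧ ri = 2 * si + e ∧
      ((d = ri + rj ∧ rj = r2 + 2 ∧ n = 4 ∧ ri = 2) ∨
        (d = ri + rj ∧ rj = r2 ∧ n = 2 ∧ ri ≤ 2) ∨
        (d + 2 = ri + rj ∧ rj = r2 + 2 ∧ n = 4 ∧ ri = 3)) := by
  rcases Nat.lt_or_ge d (ri + rj) with h | h
  · obtain ⟨h1, h2, h3, h4, h5⟩ := sharp_both_low hhigh hA hB hC3 hn (by omega) hR hb he htop
      hgap hs2 hs2' hsj hev hpi hpj hp2R hm2 hgain
    exact ⟨h1, h2, h3, h4, Or.inr (Or.inr h5)⟩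
  have hd' : d = ri + rj := le_antisymm hd h
  rcases Nat.lt_or_ge ri 3 with hri | hri
  swap
  · exact (sharp_top_gain hhigh hA hC3 hd' hR htop hs2 hs2' hsj hm2
      (hgain (by omega)) (hdeep hd')).elim
  rcases Nat.lt_or_ge r2 rj with hr | hr
  · obtain ⟨h1, h2, h3, h4, h5, h6, h7⟩ := sharp_top_up hhigh hA hB hC3 hd' hR hb htop hs2 hsj
      (by omega) (by omega) (hdeep hd' hr)
    exact ⟨h5, h4, h6, h7, Or.inl ⟨hd', h1, h2, h3⟩⟩
  · have hflat : r2 = rj := le_antisymm hm2 hr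
    obtain ⟨h1, h2, h3, h4, h5⟩ :=
      sharp_top_flat hhigh hA hC3 hn hd' hR hb htop hs2 hsj hs2' hflat
    exact ⟨h3, h2, h4, h5, Or.inr (Or.inl ⟨hd', hflat.symm, h1, by omega⟩)⟩

/-- In a rigid shape the first block of the window is not the first block. -/
theorem sharp_first {M n d d1 d2 qi qj q1 q2 V1 V2 N1 N2 S1 S2 W : ℕ}
    (hM : M + 1 = d + 5 + 3 * n) (hH1 : d + 2 ≤ d1 + d2 + 2 * n)
    (hq1 : 3 ≤ q1) (hS1 : S1 + 3 = 3 * n) (hS2 : S2 + 3 = 3 * n) (hV1 : S1 ≤ V1)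
    (hN1 : S1 + 1 ≤ n + 2 * N1) (hN2 : S2 + 1 ≤ n + 2 * N2)
    (hl1 : d1 + 3 + q1 + qj + (V1 + N1) < M) (hl2 : d2 + 3 + qi + q2 + (V2 + N2) < M)
    (hW : q1 + V1 = V2 + q2) (hV : M ≤ W + qi + qj + (q1 + V1) + 3) :
    1 ≤ W ∧ d1 + d2 + 2 * n ≤ W + d + 1 := by omega

/-- In a rigid shape the window from the first block closes. -/
theorem sharp_zero {M n d d0 d1 d2 e r0 r2 pi qi q0 q2 S0 N0 S0' : ℕ}
    (hM : M + 1 = d + 5 + 3 * n) (hH2 : e + r2 + 1 ≤ d)
    (hH3 : d + e ≤ n + r2 ∨ 2 * d + 2 + e ≤ d1 + d2 + 3 * n + r2)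
    (hq0 : 1 ≤ q0) (hW : d1 + d2 + 2 * n ≤ q0 + d + 1) (hr0 : r0 ≤ e)
    (hd0 : d0 ≤ r0 + r2) (hd0' : r2 ≤ d0 + r0) (hpi' : pi ≤ 3)
    (hqi : 1 ≤ qi) (hq2 : 3 ≤ q2) (hS : S0 = pi + S0') (hS' : S0' + 3 = 3 * n)
    (hN : S0' + 1 ≤ n + 2 * N0)
    (hhi : d0 + 5 + S0 ≤ M → d0 + 3 + q0 + q2 + (qi + (S0' + N0)) < M) : False := by omega

/-- A rigid window leads to a window from the first block. -/
theorem sharp_tight {M k n i j e : ℕ} (rho : ℕ → ℕ) (d : ℕ → ℕ → ℕ) (s q : ℕ → ℕ)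
    (hq : ∀ x < k, 1 ≤ q x) (hV : M ≤ ∑ x ∈ range k, q x + 3) (hn : n + i + 1 = j) (hn2 : 2 ≤ n)
    (hj : j + 1 = k) (hi : i ≤ 1)
    (hM : M + 1 = d (s i) (s j) + 5 + 3 * n)
    (hC : ∑ x ∈ Ioo i j, short (q x) = 3 * n)
    (hH1 : d (s i) (s j) + 2 ≤ d (s (i + 1)) (s j) + d (s i) (s (j - 1)) + 2 * n)
    (hH2 : i = 1 → e + rho (s (j - 1)) + 1 ≤ d (s i) (s j))
    (hH3 : i = 1 → d (s i) (s j) + e ≤ n + rho (s (j - 1)) ∨
      2 * d (s i) (s j) + 2 + e ≤
        d (s (i + 1)) (s j) + d (s i) (s (j - 1)) + 3 * n + rho (s (j - 1)))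
    (hzero : i = 1 → rho (s 0) ≤ e ∧ d (s 0) (s (j - 1)) ≤ rho (s 0) + rho (s (j - 1)) ∧
      rho (s (j - 1)) ≤ d (s 0) (s (j - 1)) + rho (s 0))
    (l1 : d (s (i + 1)) (s j) + 3 + q (i + 1) + q j + ∑ x ∈ Ioo (i + 1) j, long (q x) < M)
    (l2 : d (s i) (s (j - 1)) + 3 + q i + q (j - 1) + ∑ x ∈ Ioo i (j - 1), long (q x) < M)
    (l0 : i = 1 → d (s 0) (s (j - 1)) + 5 + ∑ x ∈ Ioo 0 (j - 1), short (q x) ≤ M →
      d (s 0) (s (j - 1)) + 3 + q 0 + q (j - 1) + ∑ x ∈ Ioo 0 (j - 1), long (q x) < M) :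
    False := by
  obtain ⟨hS13, -, hN1, hT1, hS1⟩ := sums_bound q (Ioo (i + 1) j)
  obtain ⟨hS23, -, hN2, hT2, -⟩ := sums_bound q (Ioo i (j - 1))
  rw [Nat.card_Ioo] at hS13 hN1 hS23 hN2
  have hij : i + 1 < j := by omega
  have e1 := sum_Ioo_left hij fun x => short (q x)
  have e2 := sum_Ioo_right hij fun x => short (q x)
  rw [hC] at e1 e2
  obtain ⟨c1, c1', -, -, -⟩ := short_le_long (q (i + 1))
  obtain ⟨c2, c2', -, -, -⟩ := short_le_long (q (j - 1))
  have hS1' : ∑ x ∈ Ioo (i + 1) j, short (q x) + 3 = 3 * n := by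
    clear * - e1 c1' hS13 hn hn2; omega
  have hS2' : ∑ x ∈ Ioo i (j - 1), short (q x) + 3 = 3 * n := by
    clear * - e2 c2' hS23 hn hn2; omega
  have hq1 : 3 ≤ q (i + 1) := by clear * - e1 hS1' c1; omega
  have hq2 : 3 ≤ q (j - 1) := by clear * - e2 hS2' c2; omega
  rw [hT1] at l1
  rw [hT2] at l2
  rcases Nat.le_one_iff_eq_zero_or_eq_one.1 hi with hi' | hi'
  · have e : range k = insert i (insert j (Ioo i j)) := by
      ext x
      simp only [mem_range, mem_insert, mem_Ioo]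
      clear * - hi' hj
      omega
    have n1 : i ∉ insert j (Ioo i j) := by simp; clear * - hij; omega
    have n2 : j ∉ Ioo i j := by simp
    rw [e, sum_insert n1, sum_insert n2, sum_Ioo_left hij q] at hV
    have := (sharp_first (W := 0) hM hH1 hq1 hS1' hS2' hS1
      (by clear * - hN1 hn hn2; omega) (by clear * - hN2 hn hn2; omega) l1 l2
      ((sum_Ioo_left hij q).symm.trans (sum_Ioo_right hij q))
      (by clear * - hV; omega)).1
    omega
  · subst hi'
    obtain ⟨z1, z2, z3⟩ := hzero rfl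
    have e : range k = insert 0 (insert 1 (insert j (Ioo 1 j))) := by
      ext x
      simp only [mem_range, mem_insert, mem_Ioo]
      clear * - hj hij
      omega
    have n0 : (0 : ℕ) ∉ insert 1 (insert j (Ioo 1 j)) := by simp; clear * - hij; omega
    have n1 : (1 : ℕ) ∉ insert j (Ioo 1 j) := by simp; clear * - hij; omega
    have n2 : j ∉ Ioo 1 j := by simp
    rw [e, sum_insert n0, sum_insert n1, sum_insert n2, sum_Ioo_left hij q] at hV
    obtain ⟨-, hW⟩ := sharp_first (W := q 0) hM hH1 hq1 hS1' hS2' hS1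
      (by clear * - hN1 hn hn2; omega) (by clear * - hN2 hn hn2; omega) l1 l2
      ((sum_Ioo_left hij q).symm.trans (sum_Ioo_right hij q))
      (by clear * - hV; omega)
    have f1 := sum_Ioo_left (i := 0) (j := j - 1) (by clear * - hn hn2; omega) fun x => short (q x)
    have f2 := sum_Ioo_left (i := 0) (j := j - 1) (by clear * - hn hn2; omega) fun x => long (q x)
    simp only [zero_add] at f1 f2
    obtain ⟨-, hT, -, -, -⟩ := sums_bound q (Ioo 1 (j - 1))
    obtain ⟨c0, c0', c0'', -, -⟩ := short_le_long (q 1)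
    have hq0 := hq 0 (by omega)
    have hqi := hq 1 (by omega)
    refine sharp_zero hM (hH2 rfl) (hH3 rfl) hq0 hW z1 z2 z3 c0' hqi hq2 f1 hS2'
      (N0 := ∑ x ∈ Ioo 1 (j - 1), two (q x)) (by clear * - hN2 hn hn2; omega) fun h => ?_
    have h0 := l0 rfl h
    rw [f2] at h0
    clear * - h0 hT c0''
    omega

/-- The window lemma on one side for `M = 2a + 2`. -/
theorem exists_window_sharp (a g R e M k : ℕ) (rho : ℕ → ℕ) (d : ℕ → ℕ → ℕ) (s q : ℕ → ℕ)
    (hM : M = 2 * a + 2) (hR : R + e + 2 * g ≤ 2 * a) (he : e ≤ 2) (hk : 2 ≤ k)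
    (hs : ∀ x, x + 1 < k → s x < s (x + 1)) (hsg : ∀ x < k, s x < g)
    (hq : ∀ x < k, 1 ≤ q x) (hV : M ≤ ∑ x ∈ range k, q x + 3)
    (hmono : ∀ x y, x ≤ y → y < g → rho x ≤ rho y)
    (hpar : ∀ x < g, rho x % 2 = R % 2)
    (htop : ∀ x < g, rho x ≤ R)
    (hbound : ∀ x < g, rho x ≤ 2 * x + e)
    (hgap : ∀ x y, x < y → y < g → rho y ≤ rho x + 2 * (y - x))
    (hdle : ∀ x y, x < g → y < g → d x y ≤ rho x + rho y)
    (hdge : ∀ x y, x < g → y < g → rho y ≤ d x y + rho x)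
    (hdeven : ∀ x y, x < g → y < g → d x y % 2 = 0)
    (hdsymm : ∀ x y, x < g → y < g → d x y = d y x)
    (hfour : ∀ x y z, x < g → y < g → z < g →
      d x z + rho y ≤ max (d y z + rho x) (d x y + rho z))
    (hup : ∀ x y, x < y → y < g → rho x < rho y → rho y < d x y + rho x →
      rho x + 4 ≤ 2 * y + e)
    (htwo : ∀ x y, x < y → y < g → rho y + 5 ≤ d x y + rho x → rho x + 2 ≤ 2 * x + e)
    (hside : e = 2 → ∀ x y, x < g → y < g → 1 ≤ rho x → 1 ≤ rho y →
      d x y + 2 ≤ rho x + rho y)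
    (hdeep : ∀ x y z w, x < y → y < g → z < g → w < g → rho x = rho y →
      d x y = rho x + rho y → d y z < rho y + rho z → rho x ≤ rho w → rho w < rho z →
      rho z + w ≤ rho w + z)
    (hgroup : ∀ x y z, x < y → y < z → z < g → rho x = rho y → rho y = rho z →
      d x z < rho x + rho z → d x y < rho x + rho y) :
    ∃ i j, i < j ∧ j < k ∧
      d (s i) (s j) + 5 + ∑ x ∈ Ioo i j, short (q x) ≤ M ∧
      M ≤ d (s i) (s j) + 3 + q i + q j + ∑ x ∈ Ioo i j, long (q x) := by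
  classical
  by_contra hno
  push Not at hno
  subst hM
  have hstep := strict_steps hs
  -- the whole sequence is high
  have hfull : 2 * a + 2 < d (s 0) (s (k - 1)) + 5 + ∑ x ∈ Ioo 0 (k - 1), short (q x) := by
    by_contra hle
    have h1 := hno 0 (k - 1) (by omega) (by omega) (by omega)
    have e : range k = insert 0 (insert (k - 1) (Ioo 0 (k - 1))) := by
      ext x
      simp only [mem_range, mem_insert, mem_Ioo]
      omega
    have n1 : (0 : ℕ) ∉ insert (k - 1) (Ioo 0 (k - 1)) := by simp; omega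
    have n2 : k - 1 ∉ Ioo 0 (k - 1) := by simp
    rw [e, sum_insert n1, sum_insert n2] at hV
    obtain ⟨-, -, -, h2, -⟩ := sums_bound q (Ioo 0 (k - 1))
    omega
  have hex : ∃ w, ∃ i j, i < j ∧ j < k ∧ j - i = w ∧
      2 * a + 2 < d (s i) (s j) + 5 + ∑ x ∈ Ioo i j, short (q x) :=
    ⟨k - 1, 0, k - 1, by omega, by omega, by omega, hfull⟩
  obtain ⟨i, j, hij, hjk, hw, hhigh⟩ := Nat.find_spec hex
  have hlow : ∀ i' j', i' < j' → j' < k → j' - i' < j - i →
      d (s i') (s j') + 3 + q i' + q j' + ∑ x ∈ Ioo i' j', long (q x) < 2 * a + 2 := by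
    intro i' j' h1 h2 h3
    refine hno i' j' h1 h2 (not_lt.1 fun h4 => ?_)
    exact Nat.find_min hex (hw ▸ h3) ⟨i', j', h1, h2, rfl, h4⟩
  have si := hsg i (by omega)
  have sj := hsg j hjk
  have sij := hstep i j hij.le hjk
  have dij := hdle _ _ si sj
  have p5 := hdeven _ _ si sj
  have b1 := hbound _ si
  have t2 := htop _ sj
  -- at least one inner block
  have hn : i + 1 < j := by
    by_contra hadj
    have : Ioo i j = ∅ := by
      ext x
      simp
      omega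
    rw [this, sum_empty] at hhigh
    clear * - hhigh b1 t2 dij hR sij sj hij p5
    omega
  obtain ⟨hC3, -, -, -, -⟩ := sums_bound q (Ioo i j)
  rw [Nat.card_Ioo] at hC3
  obtain ⟨C, hC⟩ : ∃ C, C = ∑ x ∈ Ioo i j, short (q x) := ⟨_, rfl⟩
  rw [← hC] at hhigh hC3
  obtain ⟨n, hnn⟩ : ∃ n, n + i + 1 = j := ⟨j - i - 1, by omega⟩
  have hC3' : C ≤ 3 * n := by clear * - hC3 hnn; omega
  have si' := hsg (i + 1) (by omega)
  have sj' := hsg (j - 1) (by omega)
  have sij' := hstep i (j - 1) (by omega) (by omega)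
  have sn : s i + n ≤ s (j - 1) := by clear * - sij' hnn; omega
  have hs1 := hs i (by omega)
  have hs2 : s (j - 1) < s j := by
    have := hs (j - 1) (by omega)
    rwa [Nat.sub_add_cancel (by omega)] at this
  have m1 := hmono _ _ hs1.le si'
  have m2 := hmono _ _ hs2.le sj
  have g2 : rho (s j) + 2 * s (j - 1) ≤ rho (s (j - 1)) + 2 * s j := by
    have := hgap _ _ hs2 sj
    clear * - this hs2
    omega
  -- the window without the left block is no option
  have l1 := hlow (i + 1) j hn hjk (by omega)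
  obtain ⟨-, hE1, hN1, -, -⟩ := sums_bound q (Ioo (i + 1) j)
  rw [Nat.card_Ioo] at hN1
  have e1 : C = short (q (i + 1)) + ∑ x ∈ Ioo (i + 1) j, short (q x) := hC ▸ sum_Ioo_left hn _
  obtain ⟨c1, c1', -, -, -⟩ := short_le_long (q (i + 1))
  have qj := hq j hjk
  have qi := hq i (by omega)
  have hA : rho (s i) + d (s (i + 1)) (s j) < rho (s (i + 1)) + d (s i) (s j) :=
    arith_left (qj := q j) (q1 := q (i + 1)) hhigh e1 c1 qj
      (N := ∑ x ∈ Ioo (i + 1) j, two (q x)) (by clear * - l1 hE1; omega) m1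
  have l2 := hlow i (j - 1) (by omega) (by omega) (by omega)
  obtain ⟨-, hE2, hN2, -, -⟩ := sums_bound q (Ioo i (j - 1))
  rw [Nat.card_Ioo] at hN2
  have e2 : C = (∑ x ∈ Ioo i (j - 1), short (q x)) + short (q (j - 1)) :=
    hC ▸ sum_Ioo_right hn _
  obtain ⟨c2, c2', -, -, -⟩ := short_le_long (q (j - 1))
  have d1ge := hdge _ _ si' sj
  have d2ge := hdge _ _ si sj'
  have q5 := hpar _ si
  have q6 := hpar _ sj
  have q7 := hpar _ sj'
  have hgain : rho (s j) + 5 ≤ d (s i) (s j) + rho (s i) → rho (s i) + 2 ≤ 2 * s i + e :=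
    htwo _ _ (by clear * - sij hij; omega) sj
  have hi0 := hstep 0 i (Nat.zero_le _) (by omega)
  -- the end of a rigid shape
  have finish : s i ≤ 1 → s j + 1 = g → C = 3 * n → 2 ≤ n →
      2 * a + 3 = d (s i) (s j) + 5 + C →
      d (s i) (s j) + 2 ≤ d (s (i + 1)) (s j) + d (s i) (s (j - 1)) + 2 * n →
      (s i = 1 → e + rho (s (j - 1)) + 1 ≤ d (s i) (s j)) →
      (s i = 1 → d (s i) (s j) + e ≤ n + rho (s (j - 1)) ∨ 2 * d (s i) (s j) + 2 + e ≤
        d (s (i + 1)) (s j) + d (s i) (s (j - 1)) + 3 * n + rho (s (j - 1))) → False := by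
    intro hsi hsj hC3n hn2 hlo H1 H2 H3
    have hlast : j + 1 = k := by
      by_contra hne
      have := hstep j (k - 1) (by omega) (by omega)
      have := hsg (k - 1) (by omega)
      omega
    have hz : i = 1 → s i = 1 ∧ s 0 = 0 := fun h => by
      subst h
      clear * - hsi hi0
      omega
    refine sharp_tight rho d s q hq hV hnn hn2 hlast (by clear * - hsi hi0; omega)
      (by clear * - hlo hC3n; omega) (hC ▸ hC3n) H1 (fun h => H2 (hz h).1) (fun h => H3 (hz h).1)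
      (fun h => ?_) l1 l2 fun h => hno 0 (j - 1) (by clear * - hnn hn2; omega)
        (by clear * - hjk; omega)
    have s0 := hsg 0 (by omega)
    refine ⟨?_, hdle _ _ s0 sj', hdge _ _ s0 sj'⟩
    have := hbound _ s0
    rw [(hz h).2] at this ⊢
    simpa using this
  by_cases hB : rho (s (j - 1)) + d (s i) (s j) ≤ rho (s j) + d (s i) (s (j - 1))
  · obtain ⟨hd, hri, hrie, hsj, hC3n, hδ, hlo⟩ := sharp_right (n := n) (qi := q i) (g := g)
      hhigh e2 c2 c2' qi (N := ∑ x ∈ Ioo i (j - 1), two (q x))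
      (by clear * - l2 hE2; omega) (by clear * - hN2 hnn hn; omega) hC3' hB dij hR b1 t2 g2 sn sj
      p5 q5 q6 q7 hgain
    have hne2 : s i = 1 → e = 0 := by
      clear * - hri hrie
      omega
    have hev : 2 ≤ n := by
      clear * - q6 q7 hδ hnn hn
      omega
    have hm12 : rho (s (i + 1)) ≤ rho (s (j - 1)) := by
      rcases eq_or_lt_of_le (show i + 1 ≤ j - 1 by omega) with h | h
      · rw [h]
      · have := hstep (i + 1) (j - 1) h.le (by clear * - hjk; omega)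
        exact hmono _ _ (by clear * - this; omega) sj'
    refine finish (by clear * - hri hrie; omega) hsj hC3n hev hlo ?_ (fun h => ?_) fun h => ?_
    · clear * - hd hB hδ d1ge hm12 hev
      omega
    · have := hne2 h
      clear * - this hd hrie h hδ
      omega
    · refine Or.inr ?_
      have := hne2 h
      clear * - this hd hrie h hδ hB d1ge hm12 hev
      omega
  -- both ends: the inner window
  have f1 := hfour _ _ _ si si' sj
  have f2 := hfour _ _ _ si sj' si'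
  have f3 := hfour _ _ _ si sj' sj
  rw [hdsymm _ _ sj' si'] at f2
  have hn2 : i + 1 < j - 1 := by
    by_contra hle
    have e : j - 1 = i + 1 := by omega
    rw [e] at hB
    clear * - hA hB f1
    omega
  have hd3 : d (s i) (s j) + rho (s (i + 1)) + rho (s (j - 1)) ≤
      d (s (i + 1)) (s (j - 1)) + rho (s i) + rho (s j) := by
    clear * - hA hB f1 f2
    omega
  have l3 := hlow (i + 1) (j - 1) hn2 (by clear * - hjk; omega) (by clear * - hn; omega)
  obtain ⟨-, hE3, hN3, -, -⟩ := sums_bound q (Ioo (i + 1) (j - 1))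
  rw [Nat.card_Ioo] at hN3
  have e3 : C = short (q (i + 1)) +
      ((∑ x ∈ Ioo (i + 1) (j - 1), short (q x)) + short (q (j - 1))) := by
    rw [e1, sum_Ioo_right (by clear * - hn2; omega) fun x => short (q x)]
  have hN3' : ∑ x ∈ Ioo (i + 1) (j - 1), short (q x) + 2 ≤
      n + 2 * ∑ x ∈ Ioo (i + 1) (j - 1), two (q x) := by
    clear * - hN3 hnn hn2
    omega
  have hD : d (s i) (s j) + rho (s (i + 1)) ≤ d (s i) (s (i + 1)) + rho (s j) := by
    clear * - f1 hA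
    omega
  have hh : rho (s j) < d (s i) (s j) + rho (s i) := by
    clear * - hB d2ge f3
    omega
  rcases Nat.lt_or_eq_of_le m1 with heta | heta
  · have hup' := hup _ _ hs1 si' heta (by clear * - hD hh heta; omega)
    have hs12 := hstep (i + 1) (j - 1) hn2.le (by clear * - hjk; omega)
    exact sharp_up (n := n) hhigh e3 c1 c2 c1' c2'
      (N := ∑ x ∈ Ioo (i + 1) (j - 1), two (q x)) (by clear * - l3 hE3; omega) hN3' hC3'
      hd3 dij hR t2 g2 (by clear * - hs12 hnn hn2; omega) sj q5 (hpar _ si') heta hup'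
  have hdp : rho (s i) = rho (s (i + 1)) := heta
  have hgain' : rho (s j) + 5 ≤ d (s i) (s j) + rho (s i) → rho (s i) + 2 ≤ 2 * s i + e :=
    fun h => htwo _ _ hs1 si' (by clear * - h hD hdp; omega)
  have hdeep' : d (s i) (s j) = rho (s i) + rho (s j) → rho (s (j - 1)) < rho (s j) →
      rho (s j) + s (j - 1) ≤ rho (s (j - 1)) + s j := fun h h' => by
    have hs12 := hstep i (j - 1) (by clear * - hn; omega) (by clear * - hjk; omega)
    have hm := hmono _ _ (show s i ≤ s (j - 1) by clear * - hs12; omega) sj'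
    refine hdeep _ _ _ _ hs1 si' sj sj' hdp ?_ ?_ hm h'
    · have := hdle _ _ si si'
      clear * - h hD hdp this
      omega
    · clear * - hA h hdp
      omega
  rw [← hdp] at hd3 d1ge
  have hn' : 2 ≤ n := by clear * - hnn hn2; omega
  obtain ⟨hcA, hcB⟩ := sharp_counts (n := n) (qj := q j)
    hhigh e3 e1 c1 c2 c1' c2' qj
    (N := ∑ x ∈ Ioo (i + 1) (j - 1), two (q x)) (N1 := ∑ x ∈ Ioo (i + 1) j, two (q x))
    (ri := rho (s i)) (rj := rho (s j)) (r2 := rho (s (j - 1)))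
    (d3 := d (s (i + 1)) (s (j - 1))) (d1 := d (s (i + 1)) (s j))
    (by clear * - l3 hE3; omega) (by clear * - l1 hE1; omega) hN3'
    (by clear * - hN1 hnn hn; omega) (by clear * - hd3; omega) d1ge
  obtain ⟨hlo, hC3n, hsj, hrie, hcases⟩ := sharp_both (g := g) hhigh hcA hcB hC3' hn' dij
    hR b1 he t2 g2 sn hs2 sj p5 q5 q6 q7 m2 hgain' hdeep'
  -- the level of the right end
  have hs13 := hstep (i + 1) (j - 1) hn2.le (by clear * - hjk; omega)
  have hm2' : rho (s i) ≤ rho (s (j - 1)) :=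
    hdp ▸ hmono _ _ (by clear * - hs13; omega) sj'
  rcases hcases with ⟨hd, hr, hn4, hri⟩ | ⟨hd, hr, hn4, hri⟩ | ⟨hd, hr, hn4, hri⟩
  · have he0 : e = 0 := by
      by_contra he0
      have := hside (by clear * - hrie hri he0; omega) _ _ si sj (by clear * - hri; omega)
        (by clear * - hm2' hri hr; omega)
      clear * - this hd
      omega
    refine finish (by clear * - hrie hri; omega) hsj hC3n hn' hlo ?_ (fun h => ?_) fun h => ?_
    all_goals
      clear * - hd hr hn4 hri he0 d1ge d2ge hm2'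
      omega
  · rcases Nat.lt_or_ge (rho (s i)) 2 with hri' | hri'
    · have hsi0 : s i = 0 := by clear * - hrie hri'; omega
      refine finish (hsi0.le.trans zero_le_one) hsj hC3n hn' hlo ?_ (fun h => absurd h (by clear * - hsi0; omega))
        fun h => absurd h (by clear * - hsi0; omega)
      have := hpar _ si
      clear * - hd hr hn4 hri' d1ge d2ge hm2' hh
      omega
    · have he0 : e = 0 := by
        by_contra he0
        have := hside (by clear * - hrie hri he0 hri'; omega) _ _ si sj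
          (by clear * - hri'; omega) (by clear * - hm2' hri' hr; omega)
        clear * - this hd
        omega
      have hne : rho (s j) ≠ rho (s i) := fun h => by
        have hs14 := hstep (i + 1) (j - 1) hn2.le (by clear * - hjk; omega)
        have := hgroup _ _ _ hs1 (show s (i + 1) < s (j - 1) by clear * - hs14 hn2; omega) sj' hdp
          (by clear * - hdp hr h; omega) (by clear * - hB hd hr h hdp; omega)
        clear * - this hD hd hdp
        omega
      refine finish (by clear * - hrie hri; omega) hsj hC3n hn' hlo ?_ (fun h => ?_) fun h => ?_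
      all_goals
        clear * - hd hr hn4 hri hri' he0 d1ge d2ge hm2' hne q5 q6
        omega
  · have he1 : e = 1 ∧ s i = 1 := by
      clear * - hrie hri he q5 b1
      omega
    refine finish he1.2.le hsj hC3n hn' hlo ?_ (fun h => ?_) fun h => ?_
    all_goals
      clear * - hd hr hn4 hri he1 d1ge d2ge hm2'
      omega

end Vale.Agent.P048
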