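import Vale.Agent.P048.LinkRank
import Vale.Agent.P048.SideWindowSharp

/-!
# P048: branches at the middle of the link tree

Members of the independent set are grouped by their branch at the middle `c`.  The labels of one
side are ordered by the distance from the middle and then by branch, deeper branches first; the
window lemma for `m = 2a + 2` applies to this order.
-/

namespace Vale.Agent.P048

open Finset

variable {V : Type*} {G : SimpleGraph V} {X I : Finset V}

/-- Being equal or in one branch at `c` is transitive. -/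
theorem branch_trans (M : TreeMetric G X) {c x y z : V} (hc : c ∈ X) (hx : x ∈ X) (hy : y ∈ X)
    (hz : z ∈ X) (h1 : M.d x y < M.d c x + M.d c y) (h2 : M.d y z < M.d c y + M.d c z) :
    M.d x z < M.d c x + M.d c z := by
  have := M.four x hx z hz y hy c hc
  have := M.symm y hy c hc
  have := M.symm z hz c hc
  have := M.symm z hz y hy
  have := M.symm x hx c hc
  omega

/-- The members of `I` in the branch of `x`. -/
noncomputable def branch (M : TreeMetric G X) (I : Finset V) (c x : V) : Finset V := by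
  classical exact I.filter fun z => z = x ∨ M.d x z < M.d c x + M.d c z

theorem mem_branch {M : TreeMetric G X} {c x z : V} :
    z ∈ branch M I c x ↔ z ∈ I ∧ (z = x ∨ M.d x z < M.d c x + M.d c z) := by
  classical simp [branch]

theorem branch_congr (M : TreeMetric G X) (hIX : I ⊆ X) {c x y : V} (hc : c ∈ X) (hx : x ∈ I)
    (hy : y ∈ I) (h : M.d x y < M.d c x + M.d c y) : branch M I c x = branch M I c y := by
  classical
  ext z
  simp only [mem_branch]
  refine and_congr_right fun hz => ?_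
  have h' : M.d y x < M.d c y + M.d c x := by
    rw [M.symm y (hIX hy) x (hIX hx), add_comm]
    exact h
  constructor
  · rintro (rfl | e)
    · exact Or.inr h'
    · exact Or.inr (branch_trans M hc (hIX hy) (hIX hx) (hIX hz) h' e)
  · rintro (rfl | e)
    · exact Or.inr h
    · exact Or.inr (branch_trans M hc (hIX hx) (hIX hy) (hIX hz) h e)

/-- A number below `|I|` and the depth, telling the branches apart. -/
theorem exists_branch_code [Fintype V] (M : TreeMetric G X) (hIX : I ⊆ X) (c : V) (hc : c ∈ X) (R : ℕ)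
    (htop : ∀ x ∈ I, M.d c x ≤ R) :
    ∃ (K : V → ℕ) (N : ℕ), (∀ x ∈ I, K x < N) ∧
      (∀ x ∈ I, ∀ y ∈ I, M.d x y < M.d c x + M.d c y → K x = K y) ∧
      (∀ x ∈ I, ∀ y ∈ I, K x = K y → x = y ∨ M.d x y < M.d c x + M.d c y) ∧
      ∀ x ∈ I, ∀ y ∈ I, K x ≤ K y → ∀ z ∈ I, M.d y z < M.d c y + M.d c z →
        ∃ u ∈ I, (u = x ∨ M.d x u < M.d c x + M.d c u) ∧ M.d c z ≤ M.d c u := by
  classical
  let depth : V → ℕ := fun x => (branch M I c x).sup fun z => M.d c z
  let low : V → ℕ := fun x =>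
    if h : (branch M I c x).Nonempty then ((branch M I c x).image fun z =>
      (Fintype.equivFin V z : ℕ)).min' (h.image _) else 0
  have hself : ∀ x ∈ I, x ∈ branch M I c x := fun x hx => mem_branch.2 ⟨hx, Or.inl rfl⟩
  have hdepth : ∀ x, depth x ≤ R := fun x =>
    Finset.sup_le fun z hz => htop z (mem_branch.1 hz).1
  have hlow : ∀ x ∈ I, ∃ z ∈ branch M I c x, (Fintype.equivFin V z : ℕ) = low x := by
    intro x hx
    simp only [low, dif_pos (show (branch M I c x).Nonempty from ⟨x, hself x hx⟩)]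
    exact mem_image.1 (Finset.min'_mem _ _)
  have hlowlt : ∀ x ∈ I, low x < Fintype.card V := fun x hx => by
    obtain ⟨z, -, hz⟩ := hlow x hx
    exact hz ▸ (Fintype.equivFin V z).isLt
  refine ⟨fun x => (R - depth x) * Fintype.card V + low x, (R + 1) * Fintype.card V,
    fun x hx => ?_, fun x hx y hy h => ?_, fun x hx y hy h => ?_, fun x hx y hy h z hz hyz => ?_⟩
  · show (R - depth x) * Fintype.card V + low x < _
    have := hlowlt x hx
    have : (R - depth x) * Fintype.card V ≤ R * Fintype.card V :=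
      Nat.mul_le_mul_right _ (Nat.sub_le _ _)
    rw [Nat.add_mul, one_mul]
    omega
  · simp only [depth, low, branch_congr M hIX hc hx hy h]
  · have hm := congrArg (· % Fintype.card V) h
    simp only [Nat.mul_add_mod_self_right, Nat.mod_eq_of_lt (hlowlt x hx),
      Nat.mod_eq_of_lt (hlowlt y hy)] at hm
    obtain ⟨u, hu, hu'⟩ := hlow x hx
    obtain ⟨w, hw, hw'⟩ := hlow y hy
    obtain rfl : u = w := (Fintype.equivFin V).injective (Fin.ext (by omega))
    obtain ⟨huI, e1⟩ := mem_branch.1 hu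
    obtain ⟨-, e2⟩ := mem_branch.1 hw
    rcases e1 with rfl | e1
    · rcases e2 with rfl | e2
      · exact Or.inl rfl
      · exact Or.inr (by rw [M.symm _ (hIX huI) _ (hIX hy), add_comm]; exact e2)
    · rcases e2 with rfl | e2
      · exact Or.inr e1
      · exact Or.inr (branch_trans M hc (hIX hx) (hIX huI) (hIX hy) e1
          (by rw [M.symm _ (hIX huI) _ (hIX hy), add_comm]; exact e2))
  · have hdz : M.d c z ≤ depth y :=
      Finset.le_sup (f := fun z => M.d c z) (mem_branch.2 ⟨hz, Or.inr hyz⟩)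
    obtain ⟨u, hu, hu'⟩ :=
      Finset.exists_mem_eq_sup _ ⟨x, hself x hx⟩ fun z => M.d c z
    obtain ⟨huI, hu''⟩ := mem_branch.1 hu
    refine ⟨u, huI, hu'', hdz.trans ?_⟩
    rw [← hu']
    by_contra hlt
    have h1 := hdepth x
    have h2 := hdepth y
    have h3 := hlowlt y hy
    have h4 : (R - depth y + 1) * Fintype.card V ≤ (R - depth x) * Fintype.card V :=
      Nat.mul_le_mul_right _ (by simp only [depth] at hlt h1 h2 ⊢; omega)
    rw [Nat.add_mul, one_mul] at h4
    simp only [] at h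
    omega

/-- The member of `I` at a given level below a member of `I`. -/
theorem exists_ancestor [DecidableEq V] (M : TreeMetric G X) (hIX : I ⊆ X) (c : V) (hc : c ∈ X)
    (hpar : ∀ x ∈ X, ∀ y ∈ X, (M.d x y + side I x + side I y) % 2 = 0) {p : V} (hp : p ∈ I)
    {l : ℕ} (hl : l ≤ M.d c p) (hlp : l % 2 = M.d c p % 2) :
    ∃ w ∈ I, M.d c w = l ∧ M.d w p + l = M.d c p := by
  obtain ⟨t, ht, -, -, -, -, hti⟩ := M.path c hc p (hIX hp)
  obtain ⟨h1, h2, h4⟩ := hti l (by omega)
  refine ⟨t[l]'(by omega), ?_, h2, h4⟩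
  by_contra h
  have e1 := hpar c hc _ h1
  have e2 := hpar c hc p (hIX hp)
  rw [show side I p = 0 from if_pos hp] at e2
  rw [show side I (t[l]'(by omega)) = 1 from if_neg h] at e1
  omega

variable [DecidableEq V]

/-- Windows at `m = 2a + 2` among the labels `T` of one side `S`, ordered by level and branch. -/
theorem side_window_sharp (M : TreeMetric G X) (hIX : I ⊆ X) (c : V) (hc : c ∈ X) (S : V → Prop)
    (T : Finset V) (π : V → V) (a R e m : ℕ) (E : ℕ → V) (rk : V → ℕ) (u : ℕ → V)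
    (K : V → ℕ) (N : ℕ) (hKN : ∀ x ∈ I, K x < N)
    (hK : ∀ x ∈ I, ∀ y ∈ I, M.d x y < M.d c x + M.d c y → K x = K y)
    (hK' : ∀ x ∈ I, ∀ y ∈ I, K x = K y → x = y ∨ M.d x y < M.d c x + M.d c y)
    (hKdeep : ∀ x ∈ I, ∀ y ∈ I, K x ≤ K y → ∀ z ∈ I, M.d y z < M.d c y + M.d c z →
      ∃ u ∈ I, (u = x ∨ M.d x u < M.d c x + M.d c u) ∧ M.d c z ≤ M.d c u)
    (hπ : ∀ s ∈ T, π s ∈ I ∧ S (π s)) (hsurj : ∀ x ∈ I, S x → ∃ s ∈ T, π s = x)
    (hE : ∀ x < T.card, E x ∈ T ∧ rk (E x) = x)
    (hrk : ∀ s ∈ T, rk s < T.card ∧ E (rk s) = s)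
    (hkey : ∀ x y, x ≤ y → y < T.card →
      M.d c (π (E x)) * N + K (π (E x)) ≤ M.d c (π (E y)) * N + K (π (E y)))
    (hparX : ∀ x ∈ X, ∀ y ∈ X, (M.d x y + side I x + side I y) % 2 = 0)
    (hpar : ∀ x ∈ I, M.d c x % 2 = R % 2) (htop : ∀ x ∈ I, M.d c x ≤ R)
    (heven : ∀ x ∈ I, ∀ y ∈ I, M.d x y % 2 = 0)
    (he : e % 2 = R % 2) (he2 : e ≤ 2) (hlow : ∀ x ∈ I, S x → e ≤ M.d c x)
    (hu : ∀ k, k ≤ R → k % 2 = R % 2 → e ≤ k → u k ∈ I ∧ S (u k) ∧ M.d c (u k) = k)
    (hclosed : ∀ x ∈ I, ∀ y ∈ I, S x → M.d x y < M.d c x + M.d c y → S y)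
    (hone : e = 2 → ∀ x ∈ I, ∀ y ∈ I, S x → S y → M.d x y < M.d c x + M.d c y)
    (hR : R + e + 2 * T.card ≤ 2 * a) (hm : m = 2 * a + 2)
    (k : ℕ) (j : ℕ → V) (q : ℕ → ℕ) (hk : 2 ≤ k) (hj : ∀ x < k, j x ∈ T)
    (hjr : ∀ x, x + 1 < k → rk (j x) < rk (j (x + 1)))
    (hq : ∀ x < k, 1 ≤ q x) (hV : m ≤ ∑ x ∈ range k, q x + 3) :
    ∃ i i', i < i' ∧ i' < k ∧
      M.d (π (j i)) (π (j i')) + 5 + ∑ x ∈ Ioo i i', short (q x) ≤ m ∧
      m ≤ M.d (π (j i)) (π (j i')) + 3 + q i + q i' + ∑ x ∈ Ioo i i', long (q x) := by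
  classical
  have : Nonempty V := ⟨c⟩
  have hρI : ∀ x < T.card, π (E x) ∈ I ∧ S (π (E x)) := fun x hx => hπ _ (hE x hx).1
  have hρX : ∀ x < T.card, π (E x) ∈ X := fun x hx => hIX (hρI x hx).1
  have hmono : ∀ x y, x ≤ y → y < T.card → M.d c (π (E x)) ≤ M.d c (π (E y)) := by
    intro x y hxy hy
    have h := hkey x y hxy hy
    by_contra hlt
    have h1 : (M.d c (π (E y)) + 1) * N ≤ M.d c (π (E x)) * N :=
      Nat.mul_le_mul_right _ (by omega)
    rw [Nat.add_mul, one_mul] at h1
    have := hKN _ (hρI y hy).1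
    omega
  -- members of a set of tree vertices have labels of their own
  have hlift : ∀ W : Finset V, (∀ x ∈ W, x ∈ I ∧ S x) → ∀ lo hi,
      (∀ x ∈ W, ∀ s ∈ T, π s = x → lo < rk s + 1 ∧ rk s < hi) → W.card ≤ hi - lo := by
    intro W hW lo hi hr
    have h1 : ∀ x ∈ W, ∃ s, s ∈ T ∧ π s = x := fun x hx => by
      obtain ⟨s, hs, h⟩ := hsurj x (hW x hx).1 (hW x hx).2
      exact ⟨s, hs, h⟩
    choose! g hgT hgπ using h1
    rw [← Nat.card_Ico]
    refine Finset.card_le_card_of_injOn (fun x => rk (g x)) (fun x hx => ?_) fun x hx y hy h => ?_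
    · obtain ⟨h1, h2⟩ := hr x hx (g x) (hgT x hx) (hgπ x hx)
      simp only [mem_coe, mem_Ico]
      omega
    · have h' := congrArg E h
      simp only [(hrk _ (hgT x hx)).2, (hrk _ (hgT y hy)).2] at h'
      rw [← hgπ x hx, ← hgπ y hy, h']
  -- a label of smaller key has smaller rank
  have hbeforeK : ∀ x < T.card, ∀ s ∈ T,
      M.d c (π s) * N + K (π s) < M.d c (π (E x)) * N + K (π (E x)) → rk s < x := by
    intro x hx s hs h
    by_contra hle
    have := hkey x (rk s) (not_lt.1 hle) (hrk s hs).1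
    rw [(hrk s hs).2] at this
    omega
  have hbefore : ∀ x < T.card, ∀ s ∈ T, M.d c (π s) < M.d c (π (E x)) → rk s < x := by
    intro x hx s hs h
    by_contra hle
    have := hmono x (rk s) (not_lt.1 hle) (hrk s hs).1
    rw [(hrk s hs).2] at this
    omega
  have hafter : ∀ x < T.card, ∀ s ∈ T, M.d c (π (E x)) < M.d c (π s) → x < rk s := by
    intro x hx s hs h
    by_contra hle
    have := hmono (rk s) x (not_lt.1 hle) hx
    rw [(hrk s hs).2] at this
    omega
  let lev : ℕ → Finset V := fun n => (range n).image fun i => u (2 * i + e)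
  have hlev : ∀ n, (∀ i < n, 2 * i + e ≤ R) →
      (lev n).card = n ∧ ∀ x ∈ lev n, x ∈ I ∧ S x ∧ ∃ i < n, x = u (2 * i + e) ∧
        M.d c x = 2 * i + e := by
    intro n hn
    have h1 : ∀ i < n, u (2 * i + e) ∈ I ∧ S (u (2 * i + e)) ∧
        M.d c (u (2 * i + e)) = 2 * i + e :=
      fun i hi => hu _ (hn i hi) (by omega) (by omega)
    refine ⟨?_, fun x hx => ?_⟩
    · rw [Finset.card_image_of_injOn, card_range]
      intro i hi i' hi' h
      simp only [mem_coe, mem_range] at hi hi'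
      have h2 := (h1 i hi).2.2
      have h3 := (h1 i' hi').2.2
      rw [show u (2 * i + e) = u (2 * i' + e) from h] at h2
      omega
    · obtain ⟨i, hi, rfl⟩ := Finset.mem_image.1 hx
      rw [mem_range] at hi
      exact ⟨(h1 i hi).1, (h1 i hi).2.1, i, hi, rfl, (h1 i hi).2.2⟩
  -- members below a level
  have hcount : ∀ x < T.card, ∀ W : Finset V,
      (∀ w ∈ W, w ∈ I ∧ S w ∧ ∀ s ∈ T, π s = w → rk s < x) → W.card ≤ x := by
    intro x _ W hW
    simpa using hlift W (fun w hw => ⟨(hW w hw).1, (hW w hw).2.1⟩) 0 x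
      fun w hw s hs hsw => ⟨Nat.succ_pos _, (hW w hw).2.2 s hs hsw⟩
  have hlevel : ∀ x < T.card, ∃ n, 2 * n + e = M.d c (π (E x)) ∧ (lev n).card = n ∧
      ∀ w ∈ lev n, w ∈ I ∧ S w ∧ M.d c w + 2 ≤ M.d c (π (E x)) ∧
        ∃ i, w = u (2 * i + e) ∧ M.d c w = 2 * i + e := by
    intro x hx
    obtain ⟨hxI, hxS⟩ := hρI x hx
    have := hlow _ hxI hxS
    have := hpar _ hxI
    have := htop _ hxI
    obtain ⟨n, hn⟩ : ∃ n, n = (M.d c (π (E x)) - e) / 2 := ⟨_, rfl⟩
    obtain ⟨h1, h2⟩ := hlev n (fun i hi => by omega)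
    refine ⟨n, by omega, h1, fun w hw => ?_⟩
    obtain ⟨hwI, hwS, i, hi, hwi, hwd⟩ := h2 w hw
    exact ⟨hwI, hwS, by omega, i, hwi, hwd⟩
  have hsame : ∀ {x y : V}, x ∈ I → y ∈ I → M.d x y < M.d c x + M.d c y →
      M.d y x < M.d c y + M.d c x := by
    intro x y hx hy h
    rwa [M.symm y (hIX hy) x (hIX hx), add_comm]
  refine exists_window_sharp a T.card R e m k (fun x => M.d c (π (E x)))
    (fun x y => M.d (π (E x)) (π (E y))) (fun x => rk (j x)) q hm hR he2 hk hjr
    (fun x hx => (hrk _ (hj x hx)).1) hq hV hmono (fun x hx => hpar _ (hρI x hx).1)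
    (fun x hx => htop _ (hρI x hx).1) ?bound ?gap ?dle ?dge
    (fun x y hx hy => heven _ (hρI x hx).1 _ (hρI y hy).1)
    (fun x y hx hy => M.symm _ (hρX x hx) _ (hρX y hy))
    ?four ?up ?two ?side ?deep ?group |>.imp fun i => Exists.imp ?last
  case bound =>
    intro x hx
    obtain ⟨n, hn, hc1, hlev'⟩ := hlevel x hx
    have := hcount x hx (lev n) fun w hw => by
      obtain ⟨hwI, hwS, hwd, -⟩ := hlev' w hw
      exact ⟨hwI, hwS, fun s hs hsw => hbefore x hx s hs (by rw [hsw]; omega)⟩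
    omega
  case gap =>
    intro x y hxy hy
    have hx : x < T.card := hxy.trans hy
    obtain ⟨hxI, hxS⟩ := hρI x hx
    obtain ⟨hyI, hyS⟩ := hρI y hy
    have := hlow _ hxI hxS
    have := hpar _ hxI
    have := hpar _ hyI
    have := htop _ hyI
    have := hmono x y hxy.le hy
    by_contra hbig
    push Not at hbig
    obtain ⟨N', hN⟩ : ∃ N', N' = (M.d c (π (E y)) - e) / 2 := ⟨_, rfl⟩
    obtain ⟨N₀, hN₀⟩ : ∃ N₀, N₀ = (M.d c (π (E x)) - e) / 2 + 1 := ⟨_, rfl⟩
    obtain ⟨h1, h2⟩ := hlev N' (fun i hi => by omega)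
    have hsub : lev N₀ ⊆ lev N' := Finset.image_subset_image (range_mono (by omega))
    have hc0 := (hlev N₀ (fun i hi => by omega)).1
    have := hlift (lev N' \ lev N₀)
      (fun w hw => ⟨(h2 w (mem_sdiff.1 hw).1).1, (h2 w (mem_sdiff.1 hw).1).2.1⟩) (x + 1) y
      fun w hw s hs hsw => by
        obtain ⟨hw1, hw2⟩ := mem_sdiff.1 hw
        obtain ⟨-, -, i, hi, hwi, hwd⟩ := h2 w hw1
        have hi0 : ¬ i < N₀ := fun h => hw2 (mem_image.2 ⟨i, mem_range.2 h, hwi.symm⟩)
        exact ⟨Nat.succ_lt_succ (hafter x hx s hs (by rw [hsw]; omega)),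
          hbefore y hy s hs (by rw [hsw]; omega)⟩
    rw [card_sdiff_of_subset hsub, h1, hc0] at this
    omega
  case dle =>
    intro x y hx hy
    exact (M.triangle (hρX x hx) (hρX y hy) hc).trans_eq (by rw [M.symm _ (hρX x hx) _ hc])
  case dge =>
    intro x y hx hy
    have := M.triangle hc (hρX y hy) (hρX x hx)
    omega
  case four =>
    intro x y z hx hy hz
    have h := M.four _ (hρX x hx) _ (hρX z hz) _ hc _ (hρX y hy)
    have := M.symm _ (hρX x hx) _ hc
    have := M.symm _ (hρX z hz) _ hc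
    have := M.symm _ (hρX z hz) _ (hρX y hy)
    omega
  case up =>
    intro x y hxy hy hlt hd
    have hx : x < T.card := hxy.trans hy
    obtain ⟨hxI, hxS⟩ := hρI x hx
    obtain ⟨hyI, hyS⟩ := hρI y hy
    have := hpar _ hxI
    have := hpar _ hyI
    obtain ⟨w, hwI, hwd, hwy⟩ := exists_ancestor M hIX c hc hparX hyI hlt.le (by omega)
    have := M.triangle (hρX x hx) (hρX y hy) hc
    have := M.symm _ (hρX x hx) _ hc
    have hwS : S w := hclosed _ hyI _ hwI hyS (by
      have := M.symm _ (hρX y hy) _ (hIX hwI)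
      omega)
    have hne : w ≠ π (E x) := fun h => by
      rw [h] at hwy
      omega
    obtain ⟨n, hn, hc1, hlev'⟩ := hlevel x hx
    have hnl : ∀ v, M.d c v = M.d c (π (E x)) → v ∉ lev n := fun v hv h => by
      have := (hlev' v h).2.2.1
      omega
    have := hcount y hy (insert w (insert (π (E x)) (lev n))) fun v hv => by
      rcases mem_insert.1 hv with rfl | hv
      · exact ⟨hwI, hwS, fun s hs hsw => hbefore y hy s hs (by rw [hsw]; omega)⟩
      rcases mem_insert.1 hv with rfl | hv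
      · exact ⟨hxI, hxS, fun s hs hsw => hbefore y hy s hs (by rw [hsw]; omega)⟩
      · obtain ⟨hvI, hvS, hvd, -⟩ := hlev' v hv
        exact ⟨hvI, hvS, fun s hs hsw => hbefore y hy s hs (by rw [hsw]; omega)⟩
    rw [card_insert_of_notMem (by simpa [hne] using hnl w hwd),
      card_insert_of_notMem (hnl _ rfl), hc1] at this
    omega
  case two =>
    intro x y hxy hy hd
    have hx : x < T.card := hxy.trans hy
    obtain ⟨hxI, hxS⟩ := hρI x hx
    obtain ⟨hyI, hyS⟩ := hρI y hy
    have := hmono x y hxy.le hy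
    have := M.triangle (hρX x hx) (hρX y hy) hc
    have := M.symm _ (hρX x hx) _ hc
    have := hpar _ hxI
    have := hpar _ hyI
    obtain ⟨w, hwI, hwd, hwx⟩ := exists_ancestor M hIX c hc hparX hxI
      (show M.d c (π (E x)) - 2 ≤ _ by omega) (by omega)
    obtain ⟨w', hwI', hwd', hwy⟩ := exists_ancestor M hIX c hc hparX hyI
      (show M.d c (π (E x)) - 2 ≤ _ by omega) (by omega)
    have hwS : S w := hclosed _ hxI _ hwI hxS (by
      have := M.symm _ (hρX x hx) _ (hIX hwI)
      omega)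
    have hwS' : S w' := hclosed _ hyI _ hwI' hyS (by
      have := M.symm _ (hρX y hy) _ (hIX hwI')
      omega)
    have hne : w ≠ w' := fun h => by
      subst h
      have := M.triangle (hρX x hx) (hρX y hy) (hIX hwI)
      have := M.symm _ (hρX x hx) _ (hIX hwI)
      omega
    obtain ⟨n, hn, hc1, hlev'⟩ := hlevel x hx
    obtain ⟨z, hzI, hzS, hzd, hz⟩ : ∃ z, z ∈ I ∧ S z ∧ M.d c z + 2 = M.d c (π (E x)) ∧
        z ∉ lev n := by
      by_cases hwl : w ∈ lev n
      · refine ⟨w', hwI', hwS', by omega, fun hwl' => hne ?_⟩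
        obtain ⟨-, -, -, i, e1, d1⟩ := hlev' w hwl
        obtain ⟨-, -, -, i', e2, d2⟩ := hlev' w' hwl'
        rw [e1, e2, show i = i' by omega]
      · exact ⟨w, hwI, hwS, by omega, hwl⟩
    have := hcount x hx (insert z (lev n)) fun v hv => by
      rcases mem_insert.1 hv with rfl | hv
      · exact ⟨hzI, hzS, fun s hs hsw => hbefore x hx s hs (by rw [hsw]; omega)⟩
      · obtain ⟨hvI, hvS, hvd, -⟩ := hlev' v hv
        exact ⟨hvI, hvS, fun s hs hsw => hbefore x hx s hs (by rw [hsw]; omega)⟩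
    rw [card_insert_of_notMem hz, hc1] at this
    omega
  case side =>
    intro h2 x y hx hy _ _
    obtain ⟨hxI, hxS⟩ := hρI x hx
    obtain ⟨hyI, hyS⟩ := hρI y hy
    have := hone h2 _ hxI _ hyI hxS hyS
    have := heven _ hxI _ hyI
    have := hpar _ hxI
    have := hpar _ hyI
    omega
  case group =>
    intro x y z hxy hyz hz e1 e2 hd
    have hy : y < T.card := hyz.trans hz
    have hx : x < T.card := hxy.trans hy
    obtain ⟨hxI, -⟩ := hρI x hx
    obtain ⟨hyI, -⟩ := hρI y hy
    obtain ⟨hzI, -⟩ := hρI z hz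
    have k1 := hK _ hxI _ hzI hd
    have k2 := hkey x y hxy.le hy
    have k3 := hkey y z hyz.le hz
    rw [e1] at k2
    rw [← e2] at k3
    rcases hK' _ hxI _ hyI (by omega) with h | h
    · show M.d (π (E x)) (π (E y)) < _
      rw [← h, M.self _ (hIX hxI)]
      omega
    · exact h
  case deep =>
    intro x y z w hxy hy hz hw hxy' hd hyz hxw hwz
    have hx : x < T.card := hxy.trans hy
    obtain ⟨hxI, hxS⟩ := hρI x hx
    obtain ⟨hyI, hyS⟩ := hρI y hy
    obtain ⟨hzI, hzS⟩ := hρI z hz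
    obtain ⟨hwI, -⟩ := hρI w hw
    have := hpar _ hzI
    have := hpar _ hwI
    have hpos : 1 ≤ M.d c (π (E y)) := by
      by_contra h0
      have := M.triangle hc (hρX z hz) (hρX y hy)
      omega
    have hKne : K (π (E x)) ≠ K (π (E y)) := fun h => by
      rcases hK' _ hxI _ hyI h with h | h
      · rw [← h, M.self _ (hρX x hx)] at hd
        omega
      · omega
    have hKle : K (π (E x)) ≤ K (π (E y)) := by
      have := hkey x y hxy.le hy
      rw [hxy'] at this
      omega
    obtain ⟨v, hvI, hv, hvd⟩ := hKdeep _ hxI _ hyI hKle _ hzI hyz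
    have hxv : M.d (π (E x)) v < M.d c (π (E x)) + M.d c v := by
      rcases hv with rfl | h
      · rw [M.self _ (hρX x hx)]
        omega
      · exact h
    have hvS := hclosed _ hxI _ hvI hxS hxv
    have hKv := hK _ hxI _ hvI hxv
    have hKz := hK _ hyI _ hzI hyz
    have := hpar _ hvI
    obtain ⟨n, hn⟩ : ∃ n, 2 * n = M.d c (π (E z)) - M.d c (π (E w)) :=
      ⟨(M.d c (π (E z)) - M.d c (π (E w))) / 2, by omega⟩
    -- the members of two branches above the level of `w`
    have anc : ∀ p ∈ I, S p → M.d c (π (E z)) ≤ M.d c p → ∀ i < n, ∃ t ∈ I, S t ∧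
        M.d c t = M.d c (π (E w)) + 2 * (i + 1) ∧ K t = K p := by
      intro p hp hpS hpz i hi
      have := hpar _ hp
      obtain ⟨t, htI, htd, htp⟩ := exists_ancestor M hIX c hc hparX hp
        (show M.d c (π (E w)) + 2 * (i + 1) ≤ _ by omega) (by omega)
      have hlt : M.d t p < M.d c t + M.d c p := by omega
      exact ⟨t, htI, hclosed _ hp _ htI hpS (hsame htI hp hlt), htd, hK _ htI _ hp hlt⟩
    choose! f hfI hfS hfd hfK using anc v hvI hvS hvd
    choose! g hgI hgS hgd hgK using anc _ hzI hzS le_rfl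
    set W := (range n).image f ∪ (range (n - 1)).image g with hW
    have hWcard : W.card = n + (n - 1) := by
      rw [hW, card_union_of_disjoint, card_image_of_injOn, card_image_of_injOn, card_range,
        card_range]
      · intro i hi i' hi' h
        simp only [mem_coe, mem_range] at hi hi'
        have e1 := hgd i (by omega)
        have e2 := hgd i' (by omega)
        rw [h] at e1
        omega
      · intro i hi i' hi' h
        simp only [mem_coe, mem_range] at hi hi'
        have e1 := hfd i hi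
        have e2 := hfd i' hi'
        rw [h] at e1
        omega
      · rw [Finset.disjoint_left]
        intro t ht ht'
        obtain ⟨i, hi, rfl⟩ := mem_image.1 ht
        obtain ⟨i', hi', h⟩ := mem_image.1 ht'
        rw [mem_range] at hi hi'
        have e1 := hfK i hi
        rw [← h, hgK i' (by omega)] at e1
        omega
    have := hlift W (fun t ht => by
      rcases mem_union.1 ht with h | h <;> obtain ⟨i, hi, rfl⟩ := mem_image.1 h <;>
        rw [mem_range] at hi
      · exact ⟨hfI i hi, hfS i hi⟩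
      · exact ⟨hgI i (by omega), hgS i (by omega)⟩) (w + 1) z fun t ht s hs hst => by
      rcases mem_union.1 ht with h | h <;> obtain ⟨i, hi, rfl⟩ := mem_image.1 h <;>
        rw [mem_range] at hi
      · have e1 := hfd i hi
        refine ⟨Nat.succ_lt_succ (hafter w hw s hs (by rw [hst]; omega)), ?_⟩
        rcases eq_or_lt_of_le (show i + 1 ≤ n by omega) with h' | h'
        · refine hbeforeK z hz s hs ?_
          rw [hst, e1, hfK i hi, show M.d c (π (E w)) + 2 * (i + 1) = M.d c (π (E z)) by omega]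
          omega
        · exact hbefore z hz s hs (by rw [hst]; omega)
      · have e1 := hgd i (by omega)
        exact ⟨Nat.succ_lt_succ (hafter w hw s hs (by rw [hst]; omega)),
          hbefore z hz s hs (by rw [hst]; omega)⟩
    rw [hWcard] at this
    omega
  case last =>
    intro i'
    rintro ⟨h1, h2, h3, h4⟩
    simp only [(hrk _ (hj i (h1.trans h2))).2, (hrk _ (hj i' h2)).2] at h3 h4
    exact ⟨h1, h2, h3, h4⟩

end Vale.Agent.P048
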