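import Vale.Agent.P048.LineWindow

/-!
# P048: windows when the link tree is a path

The tree is a path with places `0, …, a-1` for the labels.  In the order
`0, a-2, a-3, …, 1, a-1` every sequence of blocks with total at least `M - 3` has a window
closing to `M = 2a + 2`, except the two blocks at the ends of the path.
-/

namespace Vale.Agent.P048

open Finset

/-- The rank of a place in the order `0, a-2, …, 1, a-1`. -/
def pathKey (a p : ℕ) : ℕ := if p = 0 then 0 else if p + 1 = a then a else a - 1 - p

/-- Twice the distance of two places. -/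
def pathDist (p r : ℕ) : ℕ := 2 * ((p - r) + (r - p))

theorem sum_whole {k : ℕ} (hk : 2 ≤ k) (f : ℕ → ℕ) :
    ∑ x ∈ range k, f x = f 0 + f (k - 1) + ∑ x ∈ Ioo 0 (k - 1), f x := by
  have e : range k = insert 0 (insert (k - 1) (Ioo 0 (k - 1))) := by
    ext x
    simp only [mem_range, mem_insert, mem_Ioo]
    omega
  have n1 : (0 : ℕ) ∉ insert (k - 1) (Ioo 0 (k - 1)) := by simp; omega
  have n2 : k - 1 ∉ Ioo 0 (k - 1) := by simp
  rw [e, sum_insert n1, sum_insert n2, add_assoc]

theorem exists_window_path (a M k : ℕ) (P q : ℕ → ℕ) (hM : M = 2 * a + 2) (hk : 2 ≤ k)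
    (hPa : ∀ x < k, P x < a) (hkey : ∀ x, x + 1 < k → pathKey a (P x) < pathKey a (P (x + 1)))
    (hq : ∀ x < k, 1 ≤ q x) (hV : M ≤ ∑ x ∈ range k, q x + 3)
    (hne : ¬ (k = 2 ∧ P 0 = 0 ∧ P 1 + 1 = a)) :
    ∃ i j, i < j ∧ j < k ∧ pathDist (P i) (P j) + 5 + ∑ x ∈ Ioo i j, short (q x) ≤ M ∧
      M ≤ pathDist (P i) (P j) + 3 + q i + q j + ∑ x ∈ Ioo i j, long (q x) := by
  classical
  by_contra hno
  push Not at hno
  have hstep := strict_steps (s := fun x => pathKey a (P x)) hkey
  have hbd : ∀ x < k, pathKey a (P x) ≤ a := fun x hx => by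
    unfold pathKey; split_ifs <;> omega
  -- inner blocks are at inner places
  have hinner : ∀ x, 0 < x → x + 1 < k → 1 ≤ P x ∧ P x + 2 ≤ a := by
    intro x hx0 hxk
    have := hstep 0 x hx0.le (by omega)
    have := hkey x hxk
    have := hbd (x + 1) hxk
    have := hPa x (by omega)
    unfold pathKey at *
    split_ifs at * <;> omega
  have hdec : ∀ x y, x < y → y < k → 1 ≤ P x → P y + 2 ≤ a →
      1 ≤ P y ∧ P y + (y - x) ≤ P x := by
    intro x y hxy hy hx hy2
    have := hstep x y hxy.le hy
    have := hPa x (hxy.trans hy)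
    unfold pathKey at *
    split_ifs at * <;> omega
  have hwhole := sum_whole hk q
  obtain ⟨-, -, -, hT, -⟩ := sums_bound q (Ioo 0 (k - 1))
  -- the whole sequence is high
  have hfull : M < pathDist (P 0) (P (k - 1)) + 5 + ∑ x ∈ Ioo 0 (k - 1), short (q x) := by
    by_contra hle
    have := hno 0 (k - 1) (by omega) (by omega) (not_lt.1 hle)
    omega
  -- the first end is at place `0`
  have hfirst : P 0 = 0 → ∀ j, 0 < j → j < k → P j + 2 ≤ a →
      pathDist (P 0) (P j) + 3 + q 0 + q j + ∑ x ∈ Ioo 0 j, long (q x) < M := by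
    intro h0 j
    induction j using Nat.strong_induction_on with
    | _ j ih =>
      intro hj0 hjk hja
      refine hno 0 j hj0 hjk ?_
      rcases eq_or_lt_of_le (show 1 ≤ j by omega) with rfl | hj
      · have e : Ioo 0 1 = (∅ : Finset ℕ) := by ext x; simp; omega
        rw [e, sum_empty]
        unfold pathDist
        omega
      obtain ⟨e1, e2⟩ := hinner (j - 1) (by omega) (by omega)
      have := ih (j - 1) (by omega) (by omega) (by omega) e2
      obtain ⟨-, e3⟩ := hdec (j - 1) j (by omega) hjk e1 hja
      rw [sum_Ioo_right (show 0 + 1 < j by omega)]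
      obtain ⟨-, s1, -, -, -⟩ := sums_bound q (Ioo 0 (j - 1))
      obtain ⟨s2, -, -, -, -⟩ := short_le_long (q (j - 1))
      have := hq 0 (by omega)
      unfold pathDist at *
      omega
  -- the last end is at place `a - 1`
  have hlast : P (k - 1) + 1 = a → ∀ w i, k - 1 - i = w → i + 1 < k → 1 ≤ P i →
      pathDist (P i) (P (k - 1)) + 3 + q i + q (k - 1) + ∑ x ∈ Ioo i (k - 1), long (q x) < M := by
    intro hl w
    induction w using Nat.strong_induction_on with
    | _ w ih =>
      intro i hw hik hi
      refine hno i (k - 1) (by omega) (by omega) ?_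
      rcases eq_or_lt_of_le (show i + 1 ≤ k - 1 by omega) with e | e
      · rw [← e, show Ioo i (i + 1) = ∅ by ext x; simp, sum_empty, e]
        unfold pathDist
        have := hPa i (by omega)
        omega
      obtain ⟨e1, e2⟩ := hinner (i + 1) (by omega) (by omega)
      have := ih (k - 1 - (i + 1)) (by omega) (i + 1) rfl (by omega) e1
      obtain ⟨-, e3⟩ := hdec i (i + 1) (by omega) (by omega) hi e2
      rw [sum_Ioo_left e]
      obtain ⟨-, s1, -, -, -⟩ := sums_bound q (Ioo (i + 1) (k - 1))
      obtain ⟨s2, -, -, -, -⟩ := short_le_long (q (i + 1))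
      have := hq (k - 1) (by omega)
      have := hPa i (by omega)
      unfold pathDist at *
      omega
  by_cases h0 : P 0 = 0
  · by_cases hl : P (k - 1) + 1 = a
    · have hk3 : 3 ≤ k := by
        by_contra h
        obtain rfl : k = 2 := by omega
        exact hne ⟨rfl, h0, hl⟩
      obtain ⟨f1, f2⟩ := hinner 1 (by omega) (by omega)
      obtain ⟨l1, l2⟩ := hinner (k - 2) (by omega) (by omega)
      have A1 := hfirst h0 1 (by omega) (by omega) f2
      have A2 := hlast hl _ (k - 2) rfl (by omega) l1
      have B1 := hfirst h0 (k - 2) (by omega) (by omega) l2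
      have B2 := hlast hl _ 1 rfl (by omega) f1
      have hfl : P (k - 2) ≤ P 1 := by
        rcases eq_or_lt_of_le (show 1 ≤ k - 2 by omega) with e | e
        · rw [← e]
        · have := (hdec 1 (k - 2) e (by omega) f1 l2).2
          omega
      have e1 := sum_Ioo_left (i := 0) (j := k - 1) (by omega) q
      have e2 := sum_Ioo_right (i := 0) (j := k - 1) (by omega) q
      simp only [zero_add] at e1
      rw [show k - 1 - 1 = k - 2 by omega] at e2
      obtain ⟨-, -, -, t1, -⟩ := sums_bound q (Ioo 0 (k - 2))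
      obtain ⟨-, -, -, t2, -⟩ := sums_bound q (Ioo 1 (k - 1))
      have g1 := hq 1 (by omega)
      have g2 := hq (k - 2) (by omega)
      rw [h0] at A1 B1
      unfold pathDist at A1 A2 B1 B2
      clear * - A1 A2 B1 B2 t1 t2 e1 e2 hwhole hV hM hfl f1 f2 l1 l2 hl g1 g2
      omega
    · have hla : P (k - 1) + 2 ≤ a := by have := hPa (k - 1) (by omega); omega
      have := hfirst h0 (k - 1) (by omega) (by omega) hla
      omega
  · by_cases hl : P (k - 1) + 1 = a
    · have := hlast hl _ 0 rfl (by omega) (by omega)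
      omega
    -- only inner places
    have hla : P (k - 1) + 2 ≤ a := by have := hPa (k - 1) (by omega); omega
    have hin : ∀ x < k, 1 ≤ P x ∧ P x + 2 ≤ a := by
      intro x hx
      rcases Nat.eq_zero_or_pos x with rfl | hx0
      · refine ⟨Nat.pos_of_ne_zero h0, ?_⟩
        have := hkey 0 (by omega)
        have := hbd (0 + 1) (by omega)
        have := hPa 0 hx
        unfold pathKey at *
        split_ifs at * <;> omega
      rcases eq_or_lt_of_le (show x + 1 ≤ k by omega) with e | e
      · rw [show x = k - 1 by omega]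
        exact ⟨(hdec 0 (k - 1) (by omega) (by omega) (Nat.pos_of_ne_zero h0) hla).1, hla⟩
      · exact hinner x hx0 e
    obtain ⟨i, j, hij, hjk, hlo, hhi⟩ := exists_window_line (a - 2) M k (fun x => a - 2 - P x) q
      (by have := hin 0 (by omega); omega) hk
      (fun x hx => by
        obtain ⟨u1, u2⟩ := hin x (by omega)
        obtain ⟨v1, v2⟩ := hin (x + 1) hx
        obtain ⟨-, w⟩ := hdec x (x + 1) (by omega) hx u1 v2
        omega)
      (fun x hx => by obtain ⟨u1, u2⟩ := hin x hx; omega) hq hV
    obtain ⟨u1, u2⟩ := hin i (hij.trans hjk)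
    obtain ⟨v1, v2⟩ := hin j hjk
    obtain ⟨-, w⟩ := hdec i j hij hjk u1 v2
    have := hno i j hij hjk (by unfold pathDist; omega)
    unfold pathDist at this
    omega

end Vale.Agent.P048
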