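import Vale.Agent.P048.LinkBranch
import Vale.Agent.P048.PathWindow

/-!
# P048: an order of the labels for `m = 2a + 2`

If the link tree is a path on `2a - 1` vertices, the labels are ordered `0, a-2, …, 1, a-1` along
it.  Otherwise they are ordered by side, level and branch.  Then every long sequence of blocks has
a window closing to `m`, except two blocks at the two ends of a path.
-/

namespace Vale.Agent.P048

open Finset

variable {V : Type*} [DecidableEq V] {G : SimpleGraph V} {X I : Finset V}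

theorem pathKey_inj {a p r : ℕ} (hp : p < a) (hr : r < a) (h : pathKey a p = pathKey a r) :
    p = r := by
  unfold pathKey at h
  split_ifs at h <;> omega

/-- The order of the labels along a path. -/
theorem exists_order_path (M : TreeMetric G X) (L : Finset V) (π : V → V) (m R : ℕ) (A B : V)
    (l : List V) (hIX : I ⊆ X) (hX : X.card + 1 ≤ 2 * I.card)
    (hπ : ∀ s ∈ L, π s ∈ I) (hsurj : ∀ x ∈ I, ∃ s ∈ L, π s = x) (hm : m = 2 * L.card + 2)
    (hA : A ∈ I) (hB : B ∈ I) (hR : M.d A B = 2 * R) (hR1 : R + 1 = L.card)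
    (hl : l.length = M.d A B + 1) (hln : l.Nodup)
    (hli : ∀ i, (hi : i < l.length) → l[i] ∈ X ∧ M.d A l[i] = i ∧ M.d l[i] B + i = M.d A B)
    (heven : ∀ x ∈ I, ∀ y ∈ I, M.d x y % 2 = 0)
    (hDmax : ∀ x ∈ I, ∀ y ∈ I, M.d x y ≤ 2 * R) :
    ∃ pos : V → ℕ, Set.InjOn pos L ∧
      ∀ (k : ℕ) (j : ℕ → V) (q : ℕ → ℕ), 2 ≤ k → (∀ x < k, j x ∈ L) →
        (∀ x, x + 1 < k → pos (j x) < pos (j (x + 1))) →
        (∀ x < k, 1 ≤ q x) → m ≤ ∑ x ∈ range k, q x + 3 →
        (k = 2 ∧ M.d (π (j 0)) (π (j 1)) + 4 = m) ∨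
        ∃ i i', i < i' ∧ i' < k ∧
          M.d (π (j i)) (π (j i')) + 5 + ∑ x ∈ Ioo i i', short (q x) ≤ m ∧
          m ≤ M.d (π (j i)) (π (j i')) + 3 + q i + q i' + ∑ x ∈ Ioo i i', long (q x) := by
  classical
  have hIL : I.card ≤ L.card :=
    (Finset.card_le_card fun x hx => by
      obtain ⟨s, hs, rfl⟩ := hsurj x hx
      exact mem_image.2 ⟨s, hs, rfl⟩).trans card_image_le
  have hlX : l.length ≤ X.card := by
    rw [← List.toFinset_card_of_nodup hln]
    refine Finset.card_le_card fun v hv => ?_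
    obtain ⟨i, hi, rfl⟩ := List.getElem_of_mem (List.mem_toFinset.1 hv)
    exact (hli i hi).1
  have hXl : ∀ x ∈ X, ∃ i, ∃ h : i < l.length, l[i] = x := by
    have e : l.toFinset = X := by
      refine Finset.eq_of_subset_of_card_le (fun v hv => ?_) (by
        rw [List.toFinset_card_of_nodup hln]
        omega)
      obtain ⟨i, hi, rfl⟩ := List.getElem_of_mem (List.mem_toFinset.1 hv)
      exact (hli i hi).1
    intro x hx
    rw [← e] at hx
    exact List.getElem_of_mem (List.mem_toFinset.1 hx)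
  have hat : ∀ x ∈ I, M.d A x ≤ 2 * R ∧ M.d x B + M.d A x = 2 * R ∧
      ∀ y ∈ I, M.d A x = M.d A y → x = y := by
    intro x hx
    obtain ⟨i, hi, e⟩ := hXl x (hIX hx)
    obtain ⟨-, e1, e2⟩ := hli i hi
    rw [e] at e1 e2
    refine ⟨hDmax A hA x hx, by omega, fun y hy h => ?_⟩
    obtain ⟨i', hi', e'⟩ := hXl y (hIX hy)
    obtain ⟨-, e1', -⟩ := hli i' hi'
    rw [e'] at e1'
    rw [← e, ← e']
    congr 1
    omega
  have hπinj : Set.InjOn π L := by
    refine Finset.injOn_of_card_image_eq (le_antisymm card_image_le ?_)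
    have h1 : I ⊆ L.image π := fun x hx => by
      obtain ⟨s, hs, rfl⟩ := hsurj x hx
      exact mem_image.2 ⟨s, hs, rfl⟩
    have h2 := Finset.card_le_card h1
    omega
  have hdist : ∀ x ∈ I, ∀ y ∈ I, pathDist (M.d A x / 2) (M.d A y / 2) = M.d x y := by
    intro x hx y hy
    have := hat x hx
    have := hat y hy
    have := M.four x (hIX hx) y (hIX hy) A (hIX hA) B (hIX hB)
    have := M.triangle (hIX hA) (hIX hy) (hIX hx)
    have := M.triangle (hIX hA) (hIX hx) (hIX hy)
    have := M.symm x (hIX hx) y (hIX hy)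
    have := M.symm x (hIX hx) A (hIX hA)
    have := M.symm y (hIX hy) A (hIX hA)
    have := heven A hA x hx
    have := heven A hA y hy
    unfold pathDist
    omega
  have hPa : ∀ s ∈ L, M.d A (π s) / 2 < L.card := fun s hs => by
    have := (hat _ (hπ s hs)).1
    omega
  refine ⟨fun s => pathKey L.card (M.d A (π s) / 2), fun s hs t ht h => ?_,
    fun k j q hk hj hjp hq hV => ?_⟩
  · simp only [mem_coe] at hs ht
    have := pathKey_inj (hPa s hs) (hPa t ht) h
    have := heven A hA _ (hπ s hs)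
    have := heven A hA _ (hπ t ht)
    exact hπinj hs ht ((hat _ (hπ s hs)).2.2 _ (hπ t ht) (by omega))
  by_cases hexc : k = 2 ∧ M.d A (π (j 0)) / 2 = 0 ∧ M.d A (π (j 1)) / 2 + 1 = L.card
  · obtain ⟨rfl, h0, h1⟩ := hexc
    refine Or.inl ⟨rfl, ?_⟩
    rw [← hdist _ (hπ _ (hj 0 (by omega))) _ (hπ _ (hj 1 (by omega))), h0]
    unfold pathDist
    omega
  · obtain ⟨i, i', h1, h2, h3, h4⟩ := exists_window_path L.card m k
      (fun x => M.d A (π (j x)) / 2) q hm hk (fun x hx => hPa _ (hj x hx)) hjp hq hV hexc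
    simp only [hdist _ (hπ _ (hj i (h1.trans h2))) _ (hπ _ (hj i' h2))] at h3 h4
    exact Or.inr ⟨i, i', h1, h2, h3, h4⟩

/-- An order of the labels for `m = 2a + 2`. -/
theorem exists_order_even [Fintype V] (M : TreeMetric G X) (L : Finset V) (π : V → V) (m : ℕ)
    (hIX : I ⊆ X) (hI : I.Nonempty) (hX : X.card + 1 ≤ 2 * I.card)
    (hpar : ∀ x ∈ X, ∀ y ∈ X, (M.d x y + side I x + side I y) % 2 = 0)
    (hπ : ∀ s ∈ L, π s ∈ I) (hsurj : ∀ x ∈ I, ∃ s ∈ L, π s = x) (hm : m = 2 * L.card + 2) :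
    ∃ pos : V → ℕ, Set.InjOn pos L ∧ (∀ x ∈ I, ∀ y ∈ I, M.d x y + 4 ≤ m) ∧
      ∀ (k : ℕ) (j : ℕ → V) (q : ℕ → ℕ), 2 ≤ k → (∀ x < k, j x ∈ L) →
        (∀ x, x + 1 < k → pos (j x) < pos (j (x + 1))) →
        (∀ x < k, 1 ≤ q x) → m ≤ ∑ x ∈ range k, q x + 3 →
        (k = 2 ∧ M.d (π (j 0)) (π (j 1)) + 4 = m) ∨
        ∃ i i', i < i' ∧ i' < k ∧
          M.d (π (j i)) (π (j i')) + 5 + ∑ x ∈ Ioo i i', short (q x) ≤ m ∧
          m ≤ M.d (π (j i)) (π (j i')) + 3 + q i + q i' + ∑ x ∈ Ioo i i', long (q x) := by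
  classical
  obtain ⟨v₀, hv₀⟩ := hI
  have : Nonempty V := ⟨v₀⟩
  have hIL : I.card ≤ L.card :=
    (Finset.card_le_card fun x hx => by
      obtain ⟨s, hs, rfl⟩ := hsurj x hx
      exact mem_image.2 ⟨s, hs, rfl⟩).trans card_image_le
  obtain ⟨⟨A, B⟩, hAB, hmax⟩ := Finset.exists_max_image (I ×ˢ I) (fun p => M.d p.1 p.2)
    ⟨(v₀, v₀), mem_product.2 ⟨hv₀, hv₀⟩⟩
  obtain ⟨hA, hB⟩ : A ∈ I ∧ B ∈ I := mem_product.1 hAB
  simp only at hmax
  have hside : ∀ x ∈ I, side I x = 0 := fun x hx => if_pos hx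
  have heven : ∀ x ∈ I, ∀ y ∈ I, M.d x y % 2 = 0 := fun x hx y hy => by
    have := hpar x (hIX hx) y (hIX hy)
    rw [hside x hx, hside y hy] at this
    omega
  obtain ⟨l, hl, hln, -, -, -, hli⟩ := M.path A (hIX hA) B (hIX hB)
  have hlX : l.length ≤ X.card := by
    rw [← List.toFinset_card_of_nodup hln]
    refine Finset.card_le_card fun v hv => ?_
    obtain ⟨i, hi, rfl⟩ := List.getElem_of_mem (List.mem_toFinset.1 hv)
    exact (hli i hi).1
  obtain ⟨R, hR⟩ : ∃ R, M.d A B = 2 * R :=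
    ⟨M.d A B / 2, by have := heven A hA B hB; omega⟩
  have hDmax : ∀ x ∈ I, ∀ y ∈ I, M.d x y ≤ 2 * R := fun x hx y hy =>
    hR ▸ hmax (x, y) (mem_product.2 ⟨hx, hy⟩)
  obtain ⟨hcX, hAc, hcB⟩ := hli R (by omega)
  set c := l[R]'(by omega) with hc
  have hcA : M.d c A = R := by rw [M.symm c hcX A (hIX hA)]; exact hAc
  have htop : ∀ x ∈ I, M.d c x ≤ R := by
    intro x hx
    have := M.four c hcX x (hIX hx) A (hIX hA) B (hIX hB)
    have := hDmax x hx A hA
    have := hDmax x hx B hB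
    omega
  have hρpar : ∀ x ∈ I, M.d c x % 2 = R % 2 := by
    intro x hx
    have h1 := hpar c hcX x (hIX hx)
    have h2 := hpar A (hIX hA) c hcX
    rw [hside x hx] at h1
    rw [hside A hA, hAc] at h2
    omega
  have hdiam : ∀ x ∈ I, ∀ y ∈ I, M.d x y + 4 ≤ m := fun x hx y hy => by
    have := hDmax x hx y hy
    omega
  by_cases hR1 : R + 1 = L.card
  · obtain ⟨pos, h1, h2⟩ :=
      exists_order_path M L π m R A B l hIX hX hπ hsurj hm hA hB hR hR1 hl hln hli heven hDmax
    exact ⟨pos, h1, hdiam, h2⟩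
  have hR2 : R + 2 ≤ L.card := by omega
  let F : V → Prop := fun x => M.d x A < M.d c x + R
  -- the witnesses on the long path
  let uF : ℕ → V := fun k => if h : R - k < l.length then l[R - k] else A
  let uR : ℕ → V := fun k => if h : R + k < l.length then l[R + k] else A
  have hpathI : ∀ i, (hi : i < l.length) → i % 2 = 0 → l[i] ∈ I ∧
      M.d c l[i] + R = max (2 * R - i) i ∧ M.d l[i] A = i := by
    intro i hi hev
    obtain ⟨h1, h2, h3⟩ := hli i hi
    have h4 : side I l[i] = 0 := by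
      have := hpar A (hIX hA) _ h1
      rw [hside A hA, h2] at this
      have : side I l[i] ≤ 1 := by unfold side; split_ifs <;> omega
      omega
    refine ⟨by_contra fun h => by simp [side, h] at h4, ?_, by rw [M.symm _ h1 A (hIX hA), h2]⟩
    have := M.four c hcX _ h1 A (hIX hA) B (hIX hB)
    have := M.triangle (hIX hA) hcX h1
    have := M.triangle (hIX hA) h1 hcX
    have := M.triangle hcX (hIX hB) h1
    have := M.symm _ h1 c hcX
    have := M.symm A (hIX hA) _ h1
    omega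
  have huF : ∀ k, k ≤ R → k % 2 = R % 2 → 2 - R % 2 ≤ k →
      uF k ∈ I ∧ F (uF k) ∧ M.d c (uF k) = k := by
    intro k h1 h2 h3
    have hlt : R - k < l.length := by omega
    obtain ⟨e1, e2, e3⟩ := hpathI (R - k) hlt (by omega)
    simp only [uF, dif_pos hlt, F]
    exact ⟨e1, by omega, by omega⟩
  have huR : ∀ k, k ≤ R → k % 2 = R % 2 → R % 2 ≤ k →
      uR k ∈ I ∧ ¬ F (uR k) ∧ M.d c (uR k) = k := by
    intro k h1 h2 h3
    have hlt : R + k < l.length := by omega
    obtain ⟨e1, e2, e3⟩ := hpathI (R + k) hlt (by omega)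
    simp only [uR, dif_pos hlt, F]
    exact ⟨e1, by omega, by omega⟩
  have hlowF : ∀ x ∈ I, F x → 2 - R % 2 ≤ M.d c x := by
    intro x hx hF
    have := M.triangle hcX (hIX hA) (hIX hx)
    have := hρpar x hx
    simp only [F] at hF
    omega
  -- branches
  have hFclosed : ∀ x ∈ I, ∀ y ∈ I, M.d x y < M.d c x + M.d c y → (F x ↔ F y) := by
    intro x hx y hy h
    have h' : M.d y x < M.d c y + M.d c x := by
      rw [M.symm y (hIX hy) x (hIX hx), add_comm]
      exact h
    simp only [F]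
    rw [← hcA]
    exact ⟨branch_trans M hcX (hIX hy) (hIX hx) (hIX hA) h',
      branch_trans M hcX (hIX hx) (hIX hy) (hIX hA) h⟩
  obtain ⟨K, N, hKN, hK, hK', hKdeep⟩ := exists_branch_code M hIX c hcX R htop
  -- the two sides
  set TF := L.filter fun s => F (π s) with hTF
  set TR := L.filter fun s => ¬ F (π s) with hTR
  have hcards : TF.card + TR.card = L.card := card_filter_add_card_filter_not _
  obtain ⟨EF, rF, hEF, hrF, hkF⟩ := exists_enum TF (fun s => M.d c (π s) * N + K (π s)) v₀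
  obtain ⟨ER, rR, hER, hrR, hkR⟩ := exists_enum TR (fun s => M.d c (π s) * N + K (π s)) v₀
  have hlevel : ∀ {s t}, s ∈ L → t ∈ L →
      M.d c (π s) * N + K (π s) ≤ M.d c (π t) * N + K (π t) → M.d c (π s) ≤ M.d c (π t) := by
    intro s t hs ht h
    by_contra hlt
    have h1 : (M.d c (π t) + 1) * N ≤ M.d c (π s) * N := Nat.mul_le_mul_right _ (by omega)
    rw [Nat.add_mul, one_mul] at h1
    have := hKN _ (hπ t ht)
    omega
  have hmF : ∀ x y, x ≤ y → y < TF.card → M.d c (π (EF x)) ≤ M.d c (π (EF y)) :=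
    fun x y hxy hy => hlevel (mem_filter.1 (hEF x (hxy.trans_lt hy)).1).1
      (mem_filter.1 (hEF y hy).1).1 (hkF x y hxy hy)
  have hmR : ∀ x y, x ≤ y → y < TR.card → M.d c (π (ER x)) ≤ M.d c (π (ER y)) :=
    fun x y hxy hy => hlevel (mem_filter.1 (hER x (hxy.trans_lt hy)).1).1
      (mem_filter.1 (hER y hy).1).1 (hkR x y hxy hy)
  have hcount : ∀ (S : V → Prop) (u : ℕ → V) (e : ℕ), e % 2 = R % 2 → e ≤ 2 →
      (∀ k, k ≤ R → k % 2 = R % 2 → e ≤ k → u k ∈ I ∧ S (u k) ∧ M.d c (u k) = k) →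
      R + 2 ≤ 2 * (L.filter fun s => S (π s)).card + e := by
    intro S u e he he2 hu
    by_cases heR : e ≤ R
    swap
    · omega
    obtain ⟨n, hn⟩ : ∃ n, n = (R - e) / 2 + 1 := ⟨_, rfl⟩
    have h1 : ∀ i < n, ∃ s ∈ L.filter (fun s => S (π s)), M.d c (π s) = 2 * i + e := by
      intro i hi
      obtain ⟨e1, e2, e3⟩ := hu (2 * i + e) (by omega) (by omega) (by omega)
      obtain ⟨s, hs, hsπ⟩ := hsurj _ e1
      exact ⟨s, mem_filter.2 ⟨hs, hsπ ▸ e2⟩, hsπ ▸ e3⟩
    choose! g hg hgd using h1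
    have h2 := Finset.card_le_card_of_injOn (s := range n) g
      (fun i hi => hg i (mem_range.1 hi)) fun i hi i' hi' h => by
        have e1 := hgd i (mem_range.1 hi)
        have e2 := hgd i' (mem_range.1 hi')
        rw [h] at e1
        omega
    rw [card_range] at h2
    omega
  have hcF : R + 2 ≤ 2 * TF.card + (2 - R % 2) :=
    by convert hcount F uF (2 - R % 2) (by omega) (by omega) huF
  have hcR : R + 2 ≤ 2 * TR.card + R % 2 :=
    by convert hcount (fun x => ¬ F x) uR (R % 2) (by omega) (by omega) huR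
  let pos : V → ℕ := fun s => if F (π s) then rF s else TF.card + (TR.card - 1 - rR s)
  have hinTF : ∀ {s}, s ∈ L → F (π s) → s ∈ TF := fun hs h => mem_filter.2 ⟨hs, h⟩
  have hinTR : ∀ {s}, s ∈ L → ¬ F (π s) → s ∈ TR := fun hs h => mem_filter.2 ⟨hs, h⟩
  refine ⟨pos, fun s hs t ht h => ?_, fun x hx y hy => ?_, fun k j q hk hj hjp hq hV => ?_⟩
  · simp only [mem_coe] at hs ht
    simp only [pos] at h
    split_ifs at h with h1 h2 h2
    · rw [← (hrF s (hinTF hs h1)).2, ← (hrF t (hinTF ht h2)).2, h]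
    · have := (hrF s (hinTF hs h1)).1; omega
    · have := (hrF t (hinTF ht h2)).1; omega
    · have := (hrR s (hinTR hs h1)).1
      have := (hrR t (hinTR ht h2)).1
      rw [← (hrR s (hinTR hs h1)).2, ← (hrR t (hinTR ht h2)).2, show rR s = rR t by omega]
  · exact hdiam x hx y hy
  -- all on the first side, all on the second side, or crossing
  have hFF : ∀ x, x + 1 < k → F (π (j (x + 1))) → F (π (j x)) ∧ rF (j x) < rF (j (x + 1)) := by
    intro x hx h1
    have h := hjp x hx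
    have := (hrF _ (hinTF (hj _ (by omega)) h1)).1
    simp only [pos, if_pos h1] at h
    split_ifs at h with h0
    · exact ⟨h0, h⟩
    · omega
  have hRR : ∀ x, x + 1 < k → ¬ F (π (j x)) →
      ¬ F (π (j (x + 1))) ∧ rR (j (x + 1)) < rR (j x) := by
    intro x hx h0
    have h1 : ¬ F (π (j (x + 1))) := fun h1 => h0 (hFF x hx h1).1
    have h := hjp x hx
    simp only [pos, if_neg h0, if_neg h1] at h
    exact ⟨h1, by omega⟩
  refine Or.inr ?_
  by_cases hallF : ∀ x < k, F (π (j x))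
  · exact side_window_sharp M hIX c hcX F TF π L.card R (2 - R % 2) m EF rF uF K N hKN hK hK'
      hKdeep (fun s hs => ⟨hπ s (mem_filter.1 hs).1, (mem_filter.1 hs).2⟩)
      (fun x hx hF => by
        obtain ⟨s, hs, rfl⟩ := hsurj x hx
        exact ⟨s, hinTF hs hF, rfl⟩)
      hEF hrF hkF hpar hρpar htop heven (by omega) (by omega) hlowF huF
      (fun x hx y hy hFx h => (hFclosed x hx y hy h).1 hFx)
      (fun _ x hx y hy hFx hFy => by
        simp only [F] at hFx hFy
        rw [← hcA] at hFx hFy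
        refine branch_trans M hcX (hIX hx) (hIX hA) (hIX hy) hFx ?_
        rw [M.symm A (hIX hA) y (hIX hy), add_comm]
        exact hFy)
      (by omega) hm k j q hk (fun x hx => hinTF (hj x hx) (hallF x hx))
      (fun x hx => (hFF x hx (hallF _ (by omega))).2) hq hV
  by_cases hallR : ∀ x < k, ¬ F (π (j x))
  · have h := side_window_sharp M hIX c hcX (fun x => ¬ F x) TR π L.card R (R % 2) m ER rR uR
      K N hKN hK hK' hKdeep (fun s hs => ⟨hπ s (mem_filter.1 hs).1, (mem_filter.1 hs).2⟩)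
      (fun x hx hF => by
        obtain ⟨s, hs, rfl⟩ := hsurj x hx
        exact ⟨s, hinTR hs hF, rfl⟩)
      hER hrR hkR hpar hρpar htop heven (by omega) (by omega)
      (fun x hx _ => by have := hρpar x hx; omega) huR
      (fun x hx y hy hFx h hFy => hFx ((hFclosed x hx y hy h).2 hFy))
      (fun h => absurd h (by omega))
      (by omega) hm k (fun x => j (k - 1 - x)) (fun x => q (k - 1 - x)) hk
      (fun x hx => hinTR (hj _ (by omega)) (hallR _ (by omega)))
      (fun x hx => by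
        have := (hRR (k - 1 - (x + 1)) (by omega) (hallR _ (by omega))).2
        rwa [show k - 1 - (x + 1) + 1 = k - 1 - x by omega] at this)
      (fun x hx => hq _ (by omega)) (by rwa [Finset.sum_range_reflect q k])
    obtain ⟨i, i', h1, h2, h3, h4⟩ := h
    rw [sum_Ioo_reflect h2 fun x => short (q x)] at h3
    rw [sum_Ioo_reflect h2 fun x => long (q x)] at h4
    have hs := M.symm _ (hIX (hπ _ (hj (k - 1 - i) (by omega)))) _
      (hIX (hπ _ (hj (k - 1 - i') (by omega))))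
    exact ⟨k - 1 - i', k - 1 - i, by omega, by omega, by omega, by omega⟩
  -- crossing
  push Not at hallF hallR
  obtain ⟨r₀, hr₀, hr₀F⟩ := hallF
  obtain ⟨f₀, hf₀, hf₀F⟩ := hallR
  have hex : ∃ x, x < k ∧ ¬ F (π (j x)) := ⟨r₀, hr₀, hr₀F⟩
  obtain ⟨hck, hcR'⟩ := Nat.find_spec hex
  have hleft : ∀ x < Nat.find hex, F (π (j x)) := fun x hx =>
    by_contra fun h => Nat.find_min hex hx ⟨hx.trans hck, h⟩
  have hright : ∀ x, Nat.find hex ≤ x → x < k → ¬ F (π (j x)) := by
    intro x hx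
    induction x, hx using Nat.le_induction with
    | base => exact fun _ => hcR'
    | succ x hx ih => exact fun h => (hRR x h (ih (by omega))).1
  obtain ⟨c₀, hc₀⟩ : ∃ c₀, Nat.find hex = c₀ + 1 := by
    refine ⟨Nat.find hex - 1, ?_⟩
    by_contra h
    exact hright f₀ (by omega) hf₀ hf₀F
  rw [hc₀] at hck hleft hright
  have hdcross : ∀ i i', i ≤ c₀ → c₀ < i' → i' < k →
      M.d (π (j i)) (π (j i')) = M.d c (π (j i)) + M.d c (π (j i')) := by
    intro i i' h1 h2 h3
    have hp := hIX (hπ _ (hj i (by omega)))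
    have hq' := hIX (hπ _ (hj i' h3))
    have hF1 := hleft i (by omega)
    have hF2 := hright i' (by omega) h3
    simp only [F] at hF1 hF2
    have := M.four A (hIX hA) _ hq' _ hp c hcX
    have := M.triangle hp hq' hcX
    have := M.symm _ hcX _ hp
    have := M.symm _ hcX _ hq'
    have := M.symm _ hp A (hIX hA)
    have := M.symm _ hq' A (hIX hA)
    have := M.symm _ hq' _ hp
    omega
  have hup : ∀ i, i + 1 ≤ c₀ → M.d c (π (j i)) ≤ M.d c (π (j (i + 1))) := by
    intro i hi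
    obtain ⟨h0, hlt⟩ := hFF i (by omega) (hleft _ (by omega))
    have e1 := hrF _ (hinTF (hj i (by omega)) h0)
    have e2 := hrF _ (hinTF (hj (i + 1) (by omega)) (hleft _ (by omega)))
    have := hmF _ _ hlt.le e2.1
    rwa [e1.2, e2.2] at this
  have hdown : ∀ i, c₀ < i → i + 1 < k → M.d c (π (j (i + 1))) ≤ M.d c (π (j i)) := by
    intro i hi hik
    obtain ⟨h1, hlt⟩ := hRR i hik (hright _ (by omega) (by omega))
    have e1 := hrR _ (hinTR (hj i (by omega)) (hright _ (by omega) (by omega)))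
    have e2 := hrR _ (hinTR (hj (i + 1) hik) h1)
    have := hmR _ _ hlt.le e1.1
    rwa [e1.2, e2.2] at this
  have hfull : m ≤ M.d (π (j 0)) (π (j (k - 1))) + 3 + q 0 + q (k - 1) +
      ∑ x ∈ Ioo 0 (k - 1), long (q x) := by
    have e : range k = insert 0 (insert (k - 1) (Ioo 0 (k - 1))) := by
      ext x
      simp only [mem_range, mem_insert, mem_Ioo]
      omega
    have n1 : (0 : ℕ) ∉ insert (k - 1) (Ioo 0 (k - 1)) := by simp; omega
    have n2 : k - 1 ∉ Ioo 0 (k - 1) := by simp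
    rw [e, sum_insert n1, sum_insert n2] at hV
    obtain ⟨-, -, -, h2, -⟩ := sums_bound q (Ioo 0 (k - 1))
    omega
  have hexw : ∃ w, ∃ i i', i ≤ c₀ ∧ c₀ < i' ∧ i' < k ∧ i' - i = w ∧
      m ≤ M.d (π (j i)) (π (j i')) + 3 + q i + q i' + ∑ x ∈ Ioo i i', long (q x) :=
    ⟨k - 1, 0, k - 1, by omega, by omega, by omega, by omega, hfull⟩
  obtain ⟨i, i', h1, h2, h3, hw, h4⟩ := Nat.find_spec hexw
  have hmin : ∀ p p', p ≤ c₀ → c₀ < p' → p' < k → p' - p < i' - i →
      M.d (π (j p)) (π (j p')) + 3 + q p + q p' + ∑ x ∈ Ioo p p', long (q x) < m := by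
    intro p p' e1 e2 e3 e4
    by_contra h
    exact Nat.find_min hexw (hw ▸ e4) ⟨p, p', e1, e2, e3, rfl, not_lt.1 h⟩
  refine ⟨i, i', by omega, h3, ?_, h4⟩
  rw [hdcross i i' h1 h2 h3]
  have hqi := hq i (by omega)
  have hqi' := hq i' h3
  rcases lt_or_eq_of_le h1 with hi | hi
  · have h5 := hmin (i + 1) i' hi h2 h3 (by omega)
    rw [hdcross (i + 1) i' hi h2 h3] at h5
    have h6 := hup i hi
    rw [sum_Ioo_left (show i + 1 < i' by omega)]
    obtain ⟨s1, -, -, -, -⟩ := short_le_long (q (i + 1))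
    obtain ⟨-, s2, -, -, -⟩ := sums_bound q (Ioo (i + 1) i')
    clear * - h5 h6 s1 s2 hqi'
    omega
  · subst hi
    rcases lt_or_eq_of_le (show i + 1 ≤ i' by omega) with hi' | hi'
    · have h5 := hmin i (i' - 1) le_rfl (by omega) (by omega) (by omega)
      rw [hdcross i (i' - 1) le_rfl (by omega) (by omega)] at h5
      have h6 := hdown (i' - 1) (by omega) (by omega)
      rw [Nat.sub_add_cancel (by omega : 1 ≤ i')] at h6
      rw [sum_Ioo_right hi']
      obtain ⟨s1, -, -, -, -⟩ := short_le_long (q (i' - 1))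
      obtain ⟨-, s2, -, -, -⟩ := sums_bound q (Ioo i (i' - 1))
      clear * - h5 h6 s1 s2 hqi
      omega
    · rw [show Ioo i i' = ∅ by ext x; simp; omega, sum_empty]
      have := htop _ (hπ _ (hj i (by omega)))
      have := htop _ (hπ _ (hj i' h3))
      omega

end Vale.Agent.P048
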