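import Vale.Agent.P048.LinkTree
import Vale.Agent.P048.SideWindow

/-!
# P048: the order of the labels and the window it gives

The labels are attached onto the independent set of the link tree.  They are ordered along one
side of the middle outwards-in, so that the distance from the middle first increases and then
decreases; every long enough sequence of blocks in this order has a window closing to `m`.
-/

namespace Vale.Agent.P048

open Finset

variable {V : Type*} {G : SimpleGraph V}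

/-- A finite set enumerated by increasing values. -/
theorem exists_enum [DecidableEq V] (T : Finset V) (f : V → ℕ) (v₀ : V) :
    ∃ (E : ℕ → V) (rk : V → ℕ), (∀ x < T.card, E x ∈ T ∧ rk (E x) = x) ∧
      (∀ s ∈ T, rk s < T.card ∧ E (rk s) = s) ∧
      ∀ x y, x ≤ y → y < T.card → f (E x) ≤ f (E y) := by
  classical
  let e : Fin T.card ≃ T := T.equivFin.symm
  let ρ : Equiv.Perm (Fin T.card) := Tuple.sort fun i => f (e i)
  let E : Fin T.card ≃ T := ρ.trans e
  refine ⟨fun x => if h : x < T.card then (E ⟨x, h⟩ : V) else v₀,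
    fun s => if h : s ∈ T then (E.symm ⟨s, h⟩ : ℕ) else 0,
    fun x hx => ?_, fun s hs => ?_, fun x y hxy hy => ?_⟩
  · simp [dif_pos hx]
  · simp [dif_pos hs]
  · simp only [dif_pos hy, dif_pos (hxy.trans_lt hy)]
    exact Tuple.monotone_sort (fun i => f (e i)) (show (⟨x, hxy.trans_lt hy⟩ : Fin T.card) ≤ ⟨y, hy⟩
      from hxy)

/-- Reflection of a sum over the inside of a window. -/
theorem sum_Ioo_reflect {k i j : ℕ} (hj : j < k) (f : ℕ → ℕ) :
    ∑ x ∈ Ioo i j, f (k - 1 - x) = ∑ x ∈ Ioo (k - 1 - j) (k - 1 - i), f x := by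
  refine Finset.sum_nbij' (fun x => k - 1 - x) (fun x => k - 1 - x) ?_ ?_ ?_ ?_ fun x _ => rfl
  all_goals
    intro x hx
    simp only [mem_Ioo] at hx ⊢
    omega

variable [DecidableEq V] {X I : Finset V}

/-- Windows among the labels `T` of one side `S` of the middle `c`. -/
theorem side_window (M : TreeMetric G X) (hIX : I ⊆ X) (c : V) (hc : c ∈ X) (S : V → Prop)
    (T : Finset V) (π : V → V) (a R e m : ℕ) (E : ℕ → V) (rk : V → ℕ) (u : ℕ → V)
    (hπ : ∀ s ∈ T, π s ∈ I ∧ S (π s)) (hsurj : ∀ x ∈ I, S x → ∃ s ∈ T, π s = x)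
    (hE : ∀ x < T.card, E x ∈ T ∧ rk (E x) = x)
    (hrk : ∀ s ∈ T, rk s < T.card ∧ E (rk s) = s)
    (hmono : ∀ x y, x ≤ y → y < T.card → M.d c (π (E x)) ≤ M.d c (π (E y)))
    (hpar : ∀ x ∈ I, M.d c x % 2 = R % 2) (htop : ∀ x ∈ I, M.d c x ≤ R)
    (heven : ∀ x ∈ I, ∀ y ∈ I, M.d x y % 2 = 0)
    (he : e % 2 = R % 2) (hlow : ∀ x ∈ I, S x → e ≤ M.d c x)
    (hu : ∀ k, k ≤ R → k % 2 = R % 2 → e ≤ k → u k ∈ I ∧ S (u k) ∧ M.d c (u k) = k)
    (htwo : ∀ p ∈ I, S p → ∀ q ∈ I, S q → M.d c p = M.d c q → 3 ≤ M.d c p →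
      M.d p q = 2 * M.d c p → ∃ w ∈ I, ∃ w' ∈ I, S w ∧ S w' ∧ w ≠ w' ∧
        M.d c w + 2 = M.d c p ∧ M.d c w' + 2 = M.d c p)
    (hR : R + e ≤ 2 * (a - T.card)) (hT : T.card ≤ a) (hm : 2 * a + 3 ≤ m)
    (k : ℕ) (j : ℕ → V) (q : ℕ → ℕ) (hk : 2 ≤ k) (hj : ∀ x < k, j x ∈ T)
    (hjr : ∀ x, x + 1 < k → rk (j x) < rk (j (x + 1)))
    (hq : ∀ x < k, 1 ≤ q x) (hV : m ≤ ∑ x ∈ range k, q x + 3) :
    ∃ i i', i < i' ∧ i' < k ∧
      M.d (π (j i)) (π (j i')) + 5 + ∑ x ∈ Ioo i i', short (q x) ≤ m ∧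
      m ≤ M.d (π (j i)) (π (j i')) + 3 + q i + q i' + ∑ x ∈ Ioo i i', long (q x) := by
  classical
  have : Nonempty V := ⟨c⟩
  -- members of a set of tree vertices have labels of their own
  have hlift : ∀ W : Finset V, (∀ x ∈ W, x ∈ I ∧ S x) → ∀ lo hi,
      (∀ x ∈ W, ∀ s ∈ T, π s = x → lo < rk s + 1 ∧ rk s < hi) → W.card ≤ hi - lo := by
    intro W hW lo hi hr
    have h1 : ∀ x ∈ W, ∃ s, s ∈ T ∧ π s = x := fun x hx => by
      obtain ⟨s, hs, h⟩ := hsurj x (hW x hx).1 (hW x hx).2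
      exact ⟨s, hs, h⟩
    choose! g hgT hgπ using h1
    rw [← Nat.card_Ico]
    refine Finset.card_le_card_of_injOn (fun x => rk (g x)) (fun x hx => ?_) fun x hx y hy h => ?_
    · obtain ⟨h1, h2⟩ := hr x hx (g x) (hgT x hx) (hgπ x hx)
      simp only [mem_coe, mem_Ico]
      omega
    · have h' := congrArg E h
      simp only [(hrk _ (hgT x hx)).2, (hrk _ (hgT y hy)).2] at h'
      rw [← hgπ x hx, ← hgπ y hy, h']
  have hρI : ∀ x < T.card, π (E x) ∈ I ∧ S (π (E x)) := fun x hx => hπ _ (hE x hx).1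
  -- a label of smaller value has smaller rank
  have hbefore : ∀ x < T.card, ∀ s ∈ T, M.d c (π s) < M.d c (π (E x)) → rk s < x := by
    intro x hx s hs h
    by_contra hle
    have := hmono x (rk s) (not_lt.1 hle) (hrk s hs).1
    rw [(hrk s hs).2] at this
    omega
  let lev : ℕ → Finset V := fun n => (range n).image fun i => u (2 * i + e)
  have hlev : ∀ n, (∀ i < n, 2 * i + e ≤ R) →
      (lev n).card = n ∧ ∀ x ∈ lev n, x ∈ I ∧ S x ∧ ∃ i < n, x = u (2 * i + e) ∧
        M.d c x = 2 * i + e := by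
    intro n hn
    have h1 : ∀ i < n, u (2 * i + e) ∈ I ∧ S (u (2 * i + e)) ∧
        M.d c (u (2 * i + e)) = 2 * i + e :=
      fun i hi => hu _ (hn i hi) (by omega) (by omega)
    refine ⟨?_, fun x hx => ?_⟩
    · rw [Finset.card_image_of_injOn, card_range]
      intro i hi i' hi' h
      simp only [mem_coe, mem_range] at hi hi'
      have h2 := (h1 i hi).2.2
      have h3 := (h1 i' hi').2.2
      rw [show u (2 * i + e) = u (2 * i' + e) from h] at h2
      omega
    · obtain ⟨i, hi, rfl⟩ := Finset.mem_image.1 hx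
      rw [mem_range] at hi
      exact ⟨(h1 i hi).1, (h1 i hi).2.1, i, hi, rfl, (h1 i hi).2.2⟩
  have hbound : ∀ x < T.card, M.d c (π (E x)) ≤ 2 * x + e := by
    intro x hx
    obtain ⟨hxI, hxS⟩ := hρI x hx
    have := hlow _ hxI hxS
    have := hpar _ hxI
    have := htop _ hxI
    obtain ⟨n, hn⟩ : ∃ n, n = (M.d c (π (E x)) - e) / 2 := ⟨_, rfl⟩
    obtain ⟨h1, h2⟩ := hlev n (fun i hi => by omega)
    have := hlift (lev n) (fun y hy => ⟨(h2 y hy).1, (h2 y hy).2.1⟩) 0 x fun y hy s hs hsy => by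
      obtain ⟨-, -, i, hi, -, hd⟩ := h2 y hy
      refine ⟨Nat.succ_pos _, hbefore x hx s hs ?_⟩
      rw [hsy]
      omega
    omega
  refine exists_window a T.card R m k (fun x => M.d c (π (E x)))
    (fun x y => M.d (π (E x)) (π (E y))) (fun x => rk (j x)) q hm hT hk hjr
    (fun x hx => (hrk _ (hj x hx)).1) hq hV hmono (fun x hx => hpar _ (hρI x hx).1)
    (fun x hx => htop _ (hρI x hx).1) (fun x hx => ?_) (fun x y hxy hy => ?_)
    (fun x y hx hy => ?_) (fun x y hx hy => ?_) (fun x y hx hy => heven _ (hρI x hx).1 _ (hρI y hy).1)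
    (fun x y hx hy => M.symm _ (hIX (hρI x hx).1) _ (hIX (hρI y hy).1))
    (fun x y z hx hy hz => ?_) (fun x y hxy hy heq hd h3 => ?_) |>.imp fun i => Exists.imp ?_
  · have := hbound x hx
    omega
  · -- gaps
    have hx : x < T.card := hxy.trans hy
    obtain ⟨hxI, hxS⟩ := hρI x hx
    obtain ⟨hyI, hyS⟩ := hρI y hy
    have := hlow _ hxI hxS
    have := hpar _ hxI
    have := hpar _ hyI
    have := htop _ hyI
    have := hmono x y hxy.le hy
    by_contra hbig
    push Not at hbig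
    obtain ⟨N, hN⟩ : ∃ N, N = (M.d c (π (E y)) - e) / 2 := ⟨_, rfl⟩
    obtain ⟨N₀, hN₀⟩ : ∃ N₀, N₀ = (M.d c (π (E x)) - e) / 2 + 1 := ⟨_, rfl⟩
    obtain ⟨h1, h2⟩ := hlev N (fun i hi => by omega)
    have hsub : lev N₀ ⊆ lev N := Finset.image_subset_image (range_mono (by omega))
    have hc0 := (hlev N₀ (fun i hi => by omega)).1
    have := hlift (lev N \ lev N₀)
      (fun w hw => ⟨(h2 w (mem_sdiff.1 hw).1).1, (h2 w (mem_sdiff.1 hw).1).2.1⟩) (x + 1) y
      fun w hw s hs hsw => by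
        obtain ⟨hw1, hw2⟩ := mem_sdiff.1 hw
        obtain ⟨-, -, i, hi, hwi, hwd⟩ := h2 w hw1
        have hi0 : ¬ i < N₀ := fun h => hw2 (mem_image.2 ⟨i, mem_range.2 h, hwi.symm⟩)
        refine ⟨?_, hbefore y hy s hs (by rw [hsw]; omega)⟩
        by_contra hle
        have := hmono (rk s) x (by omega) hx
        rw [(hrk s hs).2, hsw] at this
        omega
    rw [card_sdiff_of_subset hsub, h1, hc0] at this
    omega
  · exact (M.triangle (hIX (hρI x hx).1) (hIX (hρI y hy).1) hc).trans_eq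
      (by rw [M.symm _ (hIX (hρI x hx).1) _ hc])
  · have := M.triangle hc (hIX (hρI y hy).1) (hIX (hρI x hx).1)
    omega
  · have h := M.four _ (hIX (hρI x hx).1) _ (hIX (hρI z hz).1) _ hc _ (hIX (hρI y hy).1)
    have := M.symm _ (hIX (hρI x hx).1) _ hc
    have := M.symm _ (hIX (hρI z hz).1) _ hc
    have := M.symm _ (hIX (hρI z hz).1) _ (hIX (hρI y hy).1)
    omega
  · -- two branches at one level
    have hx : x < T.card := hxy.trans hy
    obtain ⟨hxI, hxS⟩ := hρI x hx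
    obtain ⟨hyI, hyS⟩ := hρI y hy
    obtain ⟨w, hw, w', hw', hwS, hwS', hne, hwd, hwd'⟩ := htwo _ hxI hxS _ hyI hyS heq h3 hd
    have := hlow _ hw hwS
    have := hpar _ hxI
    have := htop _ hxI
    obtain ⟨n, hn⟩ : ∃ n, n = (M.d c (π (E x)) - e) / 2 := ⟨_, rfl⟩
    obtain ⟨h1, h2⟩ := hlev n (fun i hi => by omega)
    obtain ⟨z, hzI, hzS, hzd, hz⟩ : ∃ z, z ∈ I ∧ S z ∧ M.d c z + 2 = M.d c (π (E x)) ∧
        z ∉ lev n := by
      by_cases hwl : w ∈ lev n
      · refine ⟨w', hw', hwS', hwd', fun hwl' => hne ?_⟩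
        obtain ⟨-, -, i, -, e1, d1⟩ := h2 w hwl
        obtain ⟨-, -, i', -, e2, d2⟩ := h2 w' hwl'
        rw [e1, e2, show i = i' by omega]
      · exact ⟨w, hw, hwS, hwd, hwl⟩
    have := hlift (insert z (lev n)) (fun v hv => by
        rcases mem_insert.1 hv with rfl | hv
        · exact ⟨hzI, hzS⟩
        · exact ⟨(h2 v hv).1, (h2 v hv).2.1⟩) 0 x fun v hv s hs hsv => by
      refine ⟨Nat.succ_pos _, hbefore x hx s hs ?_⟩
      rw [hsv]
      rcases mem_insert.1 hv with rfl | hv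
      · omega
      · obtain ⟨-, -, i, hi, -, hd⟩ := h2 v hv
        omega
    rw [card_insert_of_notMem hz, h1] at this
    omega
  · intro i'
    rintro ⟨h1, h2, h3, h4⟩
    simp only [(hrk _ (hj i (h1.trans h2))).2, (hrk _ (hj i' h2)).2] at h3 h4
    exact ⟨h1, h2, h3, h4⟩

/-- An order of the labels in which every long sequence of blocks has a window. -/
theorem exists_ranked_order (M : TreeMetric G X) (L : Finset V) (π : V → V) (m : ℕ)
    (hIX : I ⊆ X) (hI : I.Nonempty) (hX : X.card + 1 ≤ 2 * I.card)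
    (hpar : ∀ x ∈ X, ∀ y ∈ X, (M.d x y + side I x + side I y) % 2 = 0)
    (hπ : ∀ s ∈ L, π s ∈ I) (hsurj : ∀ x ∈ I, ∃ s ∈ L, π s = x) (hm : 2 * L.card + 3 ≤ m) :
    ∃ pos : V → ℕ, Set.InjOn pos L ∧ (∀ x ∈ I, ∀ y ∈ I, M.d x y + 5 ≤ m) ∧
      ∀ (k : ℕ) (j : ℕ → V) (q : ℕ → ℕ), 2 ≤ k → (∀ x < k, j x ∈ L) →
        (∀ x, x + 1 < k → pos (j x) < pos (j (x + 1))) →
        (∀ x < k, 1 ≤ q x) → m ≤ ∑ x ∈ range k, q x + 3 →
        ∃ i i', i < i' ∧ i' < k ∧
          M.d (π (j i)) (π (j i')) + 5 + ∑ x ∈ Ioo i i', short (q x) ≤ m ∧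
          m ≤ M.d (π (j i)) (π (j i')) + 3 + q i + q i' + ∑ x ∈ Ioo i i', long (q x) := by
  classical
  obtain ⟨v₀, hv₀⟩ := hI
  have : Nonempty V := ⟨v₀⟩
  have hIL : I.card ≤ L.card :=
    (Finset.card_le_card fun x hx => by
      obtain ⟨s, hs, rfl⟩ := hsurj x hx
      exact mem_image.2 ⟨s, hs, rfl⟩).trans card_image_le
  obtain ⟨⟨A, B⟩, hAB, hmax⟩ := Finset.exists_max_image (I ×ˢ I) (fun p => M.d p.1 p.2)
    ⟨(v₀, v₀), mem_product.2 ⟨hv₀, hv₀⟩⟩
  obtain ⟨hA, hB⟩ : A ∈ I ∧ B ∈ I := mem_product.1 hAB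
  simp only at hmax
  have hside : ∀ x ∈ I, side I x = 0 := fun x hx => if_pos hx
  have heven : ∀ x ∈ I, ∀ y ∈ I, M.d x y % 2 = 0 := fun x hx y hy => by
    have := hpar x (hIX hx) y (hIX hy)
    rw [hside x hx, hside y hy] at this
    omega
  obtain ⟨l, hl, hln, -, -, -, hli⟩ := M.path A (hIX hA) B (hIX hB)
  have hlX : l.length ≤ X.card := by
    rw [← List.toFinset_card_of_nodup hln]
    refine Finset.card_le_card fun v hv => ?_
    obtain ⟨i, hi, rfl⟩ := List.getElem_of_mem (List.mem_toFinset.1 hv)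
    exact (hli i hi).1
  obtain ⟨R, hR⟩ : ∃ R, M.d A B = 2 * R :=
    ⟨M.d A B / 2, by have := heven A hA B hB; omega⟩
  have hDmax : ∀ x ∈ I, ∀ y ∈ I, M.d x y ≤ 2 * R := fun x hx y hy =>
    hR ▸ hmax (x, y) (mem_product.2 ⟨hx, hy⟩)
  obtain ⟨hcX, hAc, hcB⟩ := hli R (by omega)
  set c := l[R]'(by omega) with hc
  have hcA : M.d c A = R := by rw [M.symm c hcX A (hIX hA)]; exact hAc
  have htop : ∀ x ∈ I, M.d c x ≤ R := by
    intro x hx
    have := M.four c hcX x (hIX hx) A (hIX hA) B (hIX hB)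
    have := hDmax x hx A hA
    have := hDmax x hx B hB
    omega
  have hρpar : ∀ x ∈ I, M.d c x % 2 = R % 2 := by
    intro x hx
    have h1 := hpar c hcX x (hIX hx)
    have h2 := hpar A (hIX hA) c hcX
    rw [hside x hx] at h1
    rw [hside A hA, hAc] at h2
    omega
  let F : V → Prop := fun x => M.d x A < M.d c x + R
  -- the witnesses on the long path
  let uF : ℕ → V := fun k => if h : R - k < l.length then l[R - k] else A
  let uR : ℕ → V := fun k => if h : R + k < l.length then l[R + k] else A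
  have hpathI : ∀ i, (hi : i < l.length) → i % 2 = 0 → l[i] ∈ I ∧
      M.d c l[i] + R = max (2 * R - i) i ∧ M.d l[i] A = i := by
    intro i hi hev
    obtain ⟨h1, h2, h3⟩ := hli i hi
    have h4 : side I l[i] = 0 := by
      have := hpar A (hIX hA) _ h1
      rw [hside A hA, h2] at this
      have : side I l[i] ≤ 1 := by unfold side; split_ifs <;> omega
      omega
    refine ⟨by_contra fun h => by simp [side, h] at h4, ?_, by rw [M.symm _ h1 A (hIX hA), h2]⟩
    have := M.four c hcX _ h1 A (hIX hA) B (hIX hB)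
    have := M.triangle (hIX hA) hcX h1
    have := M.triangle (hIX hA) h1 hcX
    have := M.triangle hcX (hIX hB) h1
    have := M.symm _ h1 c hcX
    have := M.symm A (hIX hA) _ h1
    omega
  have huF : ∀ k, k ≤ R → k % 2 = R % 2 → 2 - R % 2 ≤ k →
      uF k ∈ I ∧ F (uF k) ∧ M.d c (uF k) = k := by
    intro k h1 h2 h3
    have hlt : R - k < l.length := by omega
    obtain ⟨e1, e2, e3⟩ := hpathI (R - k) hlt (by omega)
    simp only [uF, dif_pos hlt, F]
    exact ⟨e1, by omega, by omega⟩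
  have huR : ∀ k, k ≤ R → k % 2 = R % 2 → R % 2 ≤ k →
      uR k ∈ I ∧ ¬ F (uR k) ∧ M.d c (uR k) = k := by
    intro k h1 h2 h3
    have hlt : R + k < l.length := by omega
    obtain ⟨e1, e2, e3⟩ := hpathI (R + k) hlt (by omega)
    simp only [uR, dif_pos hlt, F]
    exact ⟨e1, by omega, by omega⟩
  have hlowF : ∀ x ∈ I, F x → 2 - R % 2 ≤ M.d c x := by
    intro x hx hF
    have := M.triangle hcX (hIX hA) (hIX hx)
    have := hρpar x hx
    simp only [F] at hF
    omega
  -- two branches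
  have htwo : ∀ p ∈ I, ∀ q ∈ I, (F p ↔ F q) → M.d c p = M.d c q → 3 ≤ M.d c p →
      M.d p q = 2 * M.d c p → ∃ w ∈ I, ∃ w' ∈ I, (F w ↔ F p) ∧ (F w' ↔ F p) ∧ w ≠ w' ∧
        M.d c w + 2 = M.d c p ∧ M.d c w' + 2 = M.d c p := by
    intro p hp q hq hFpq heq h3 hd
    have hstep : ∀ p ∈ I, 3 ≤ M.d c p → ∃ w ∈ I, (F w ↔ F p) ∧ M.d c w + 2 = M.d c p ∧
        M.d w p = 2 := by
      intro p hp h3
      obtain ⟨t, ht, -, -, -, -, hti⟩ := M.path c hcX p (hIX hp)
      obtain ⟨h1, h2, h4⟩ := hti (M.d c p - 2) (by omega)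
      set w := t[M.d c p - 2]'(by omega)
      have hwI : w ∈ I := by
        by_contra h
        have e1 := hpar c hcX w h1
        have e2 := hpar c hcX p (hIX hp)
        rw [hside p hp] at e2
        rw [show side I w = 1 from if_neg h] at e1
        omega
      refine ⟨w, hwI, ?_, by omega, by omega⟩
      have := M.four w h1 A (hIX hA) p (hIX hp) c hcX
      have := M.triangle (hIX hp) (hIX hA) h1
      have := M.symm _ hcX w h1
      have := M.symm _ hcX p (hIX hp)
      have := M.symm w h1 p (hIX hp)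
      have := M.symm A (hIX hA) p (hIX hp)
      have := M.symm A (hIX hA) c hcX
      have := M.triangle h1 (hIX hA) hcX
      simp only [F]
      omega
    obtain ⟨w, hw, hFw, hwd, hwp⟩ := hstep p hp h3
    obtain ⟨w', hw', hFw', hwd', hwq⟩ := hstep q hq (by omega)
    refine ⟨w, hw, w', hw', hFw, hFw'.trans hFpq.symm, fun h => ?_, hwd, by omega⟩
    subst h
    have := M.triangle (hIX hp) (hIX hq) (hIX hw)
    have := M.symm w (hIX hw) p (hIX hp)
    omega
  -- the two sides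
  set TF := L.filter fun s => F (π s) with hTF
  set TR := L.filter fun s => ¬ F (π s) with hTR
  have hcards : TF.card + TR.card = L.card := card_filter_add_card_filter_not _
  obtain ⟨EF, rF, hEF, hrF, hmF⟩ := exists_enum TF (fun s => M.d c (π s)) v₀
  obtain ⟨ER, rR, hER, hrR, hmR⟩ := exists_enum TR (fun s => M.d c (π s)) v₀
  have hcount : ∀ (S : V → Prop) (u : ℕ → V) (e : ℕ), e % 2 = R % 2 → e ≤ 2 →
      (∀ k, k ≤ R → k % 2 = R % 2 → e ≤ k → u k ∈ I ∧ S (u k) ∧ M.d c (u k) = k) →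
      R + 2 ≤ 2 * (L.filter fun s => S (π s)).card + e := by
    intro S u e he he2 hu
    by_cases heR : e ≤ R
    swap
    · omega
    obtain ⟨n, hn⟩ : ∃ n, n = (R - e) / 2 + 1 := ⟨_, rfl⟩
    have h1 : ∀ i < n, ∃ s ∈ L.filter (fun s => S (π s)), M.d c (π s) = 2 * i + e := by
      intro i hi
      obtain ⟨e1, e2, e3⟩ := hu (2 * i + e) (by omega) (by omega) (by omega)
      obtain ⟨s, hs, hsπ⟩ := hsurj _ e1
      exact ⟨s, mem_filter.2 ⟨hs, hsπ ▸ e2⟩, hsπ ▸ e3⟩
    choose! g hg hgd using h1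
    have h2 := Finset.card_le_card_of_injOn (s := range n) g
      (fun i hi => hg i (mem_range.1 hi)) fun i hi i' hi' h => by
        have e1 := hgd i (mem_range.1 hi)
        have e2 := hgd i' (mem_range.1 hi')
        rw [h] at e1
        omega
    rw [card_range] at h2
    omega
  have hcF : R + 2 ≤ 2 * TF.card + (2 - R % 2) :=
    by convert hcount F uF (2 - R % 2) (by omega) (by omega) huF
  have hcR : R + 2 ≤ 2 * TR.card + R % 2 :=
    by convert hcount (fun x => ¬ F x) uR (R % 2) (by omega) (by omega) huR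
  let pos : V → ℕ := fun s => if F (π s) then rF s else TF.card + (TR.card - 1 - rR s)
  have hinTF : ∀ {s}, s ∈ L → F (π s) → s ∈ TF := fun hs h => mem_filter.2 ⟨hs, h⟩
  have hinTR : ∀ {s}, s ∈ L → ¬ F (π s) → s ∈ TR := fun hs h => mem_filter.2 ⟨hs, h⟩
  refine ⟨pos, fun s hs t ht h => ?_, fun x hx y hy => ?_, fun k j q hk hj hjp hq hV => ?_⟩
  · simp only [mem_coe] at hs ht
    simp only [pos] at h
    split_ifs at h with h1 h2 h2
    · rw [← (hrF s (hinTF hs h1)).2, ← (hrF t (hinTF ht h2)).2, h]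
    · have := (hrF s (hinTF hs h1)).1; omega
    · have := (hrF t (hinTF ht h2)).1; omega
    · have := (hrR s (hinTR hs h1)).1
      have := (hrR t (hinTR ht h2)).1
      rw [← (hrR s (hinTR hs h1)).2, ← (hrR t (hinTR ht h2)).2, show rR s = rR t by omega]
  · have := hDmax x hx y hy
    omega
  -- all on the first side, all on the second side, or crossing
  have hFF : ∀ x, x + 1 < k → F (π (j (x + 1))) → F (π (j x)) ∧ rF (j x) < rF (j (x + 1)) := by
    intro x hx h1
    have h := hjp x hx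
    have := (hrF _ (hinTF (hj _ (by omega)) h1)).1
    simp only [pos, if_pos h1] at h
    split_ifs at h with h0
    · exact ⟨h0, h⟩
    · omega
  have hRR : ∀ x, x + 1 < k → ¬ F (π (j x)) →
      ¬ F (π (j (x + 1))) ∧ rR (j (x + 1)) < rR (j x) := by
    intro x hx h0
    have h1 : ¬ F (π (j (x + 1))) := fun h1 => h0 (hFF x hx h1).1
    have h := hjp x hx
    simp only [pos, if_neg h0, if_neg h1] at h
    exact ⟨h1, by omega⟩
  by_cases hallF : ∀ x < k, F (π (j x))
  · exact side_window M hIX c hcX F TF π L.card R (2 - R % 2) m EF rF uF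
      (fun s hs => ⟨hπ s (mem_filter.1 hs).1, (mem_filter.1 hs).2⟩)
      (fun x hx hF => by
        obtain ⟨s, hs, rfl⟩ := hsurj x hx
        exact ⟨s, hinTF hs hF, rfl⟩)
      hEF hrF hmF hρpar htop heven (by omega) hlowF huF
      (fun p hp hFp q hq hFq he h3 hd => by
        obtain ⟨w, hw, w', hw', e1, e2, rest⟩ := htwo p hp q hq ⟨fun _ => hFq, fun _ => hFp⟩ he h3 hd
        exact ⟨w, hw, w', hw', e1.2 hFp, e2.2 hFp, rest⟩)
      (by omega) (by omega) hm k j q hk (fun x hx => hinTF (hj x hx) (hallF x hx))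
      (fun x hx => (hFF x hx (hallF _ (by omega))).2) hq hV
  by_cases hallR : ∀ x < k, ¬ F (π (j x))
  · have h := side_window M hIX c hcX (fun x => ¬ F x) TR π L.card R (R % 2) m ER rR uR
      (fun s hs => ⟨hπ s (mem_filter.1 hs).1, (mem_filter.1 hs).2⟩)
      (fun x hx hF => by
        obtain ⟨s, hs, rfl⟩ := hsurj x hx
        exact ⟨s, hinTR hs hF, rfl⟩)
      hER hrR hmR hρpar htop heven (by omega)
      (fun x hx _ => by have := hρpar x hx; omega) huR
      (fun p hp hFp q hq hFq he h3 hd => by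
        obtain ⟨w, hw, w', hw', e1, e2, rest⟩ := htwo p hp q hq
          ⟨fun h => absurd h hFp, fun h => absurd h hFq⟩ he h3 hd
        exact ⟨w, hw, w', hw', fun h => hFp (e1.1 h), fun h => hFp (e2.1 h), rest⟩)
      (by omega) (by omega) hm k (fun x => j (k - 1 - x)) (fun x => q (k - 1 - x)) hk
      (fun x hx => hinTR (hj _ (by omega)) (hallR _ (by omega)))
      (fun x hx => by
        have := (hRR (k - 1 - (x + 1)) (by omega) (hallR _ (by omega))).2
        rwa [show k - 1 - (x + 1) + 1 = k - 1 - x by omega] at this)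
      (fun x hx => hq _ (by omega)) (by rwa [Finset.sum_range_reflect q k])
    obtain ⟨i, i', h1, h2, h3, h4⟩ := h
    rw [sum_Ioo_reflect h2 fun x => short (q x)] at h3
    rw [sum_Ioo_reflect h2 fun x => long (q x)] at h4
    have hs := M.symm _ (hIX (hπ _ (hj (k - 1 - i) (by omega)))) _
      (hIX (hπ _ (hj (k - 1 - i') (by omega))))
    exact ⟨k - 1 - i', k - 1 - i, by omega, by omega, by omega, by omega⟩
  -- crossing
  push Not at hallF hallR
  obtain ⟨r₀, hr₀, hr₀F⟩ := hallF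
  obtain ⟨f₀, hf₀, hf₀F⟩ := hallR
  have hex : ∃ x, x < k ∧ ¬ F (π (j x)) := ⟨r₀, hr₀, hr₀F⟩
  obtain ⟨hck, hcR'⟩ := Nat.find_spec hex
  have hleft : ∀ x < Nat.find hex, F (π (j x)) := fun x hx =>
    by_contra fun h => Nat.find_min hex hx ⟨hx.trans hck, h⟩
  have hright : ∀ x, Nat.find hex ≤ x → x < k → ¬ F (π (j x)) := by
    intro x hx
    induction x, hx using Nat.le_induction with
    | base => exact fun _ => hcR'
    | succ x hx ih => exact fun h => (hRR x h (ih (by omega))).1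
  obtain ⟨c₀, hc₀⟩ : ∃ c₀, Nat.find hex = c₀ + 1 := by
    refine ⟨Nat.find hex - 1, ?_⟩
    by_contra h
    exact hright f₀ (by omega) hf₀ hf₀F
  rw [hc₀] at hck hleft hright
  have hdcross : ∀ i i', i ≤ c₀ → c₀ < i' → i' < k →
      M.d (π (j i)) (π (j i')) = M.d c (π (j i)) + M.d c (π (j i')) := by
    intro i i' h1 h2 h3
    have hp := hIX (hπ _ (hj i (by omega)))
    have hq' := hIX (hπ _ (hj i' h3))
    have hF1 := hleft i (by omega)
    have hF2 := hright i' (by omega) h3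
    simp only [F] at hF1 hF2
    have := M.four A (hIX hA) _ hq' _ hp c hcX
    have := M.triangle hp hq' hcX
    have := M.symm _ hcX _ hp
    have := M.symm _ hcX _ hq'
    have := M.symm _ hp A (hIX hA)
    have := M.symm _ hq' A (hIX hA)
    have := M.symm _ hq' _ hp
    omega
  have hup : ∀ i, i + 1 ≤ c₀ → M.d c (π (j i)) ≤ M.d c (π (j (i + 1))) := by
    intro i hi
    obtain ⟨h0, hlt⟩ := hFF i (by omega) (hleft _ (by omega))
    have e1 := hrF _ (hinTF (hj i (by omega)) h0)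
    have e2 := hrF _ (hinTF (hj (i + 1) (by omega)) (hleft _ (by omega)))
    have := hmF _ _ hlt.le e2.1
    rwa [e1.2, e2.2] at this
  have hdown : ∀ i, c₀ < i → i + 1 < k → M.d c (π (j (i + 1))) ≤ M.d c (π (j i)) := by
    intro i hi hik
    obtain ⟨h1, hlt⟩ := hRR i hik (hright _ (by omega) (by omega))
    have e1 := hrR _ (hinTR (hj i (by omega)) (hright _ (by omega) (by omega)))
    have e2 := hrR _ (hinTR (hj (i + 1) hik) h1)
    have := hmR _ _ hlt.le e1.1
    rwa [e1.2, e2.2] at this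
  have hfull : m ≤ M.d (π (j 0)) (π (j (k - 1))) + 3 + q 0 + q (k - 1) +
      ∑ x ∈ Ioo 0 (k - 1), long (q x) := by
    have e : range k = insert 0 (insert (k - 1) (Ioo 0 (k - 1))) := by
      ext x
      simp only [mem_range, mem_insert, mem_Ioo]
      omega
    have n1 : (0 : ℕ) ∉ insert (k - 1) (Ioo 0 (k - 1)) := by simp; omega
    have n2 : k - 1 ∉ Ioo 0 (k - 1) := by simp
    rw [e, sum_insert n1, sum_insert n2] at hV
    obtain ⟨-, -, -, h2, -⟩ := sums_bound q (Ioo 0 (k - 1))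
    omega
  have hexw : ∃ w, ∃ i i', i ≤ c₀ ∧ c₀ < i' ∧ i' < k ∧ i' - i = w ∧
      m ≤ M.d (π (j i)) (π (j i')) + 3 + q i + q i' + ∑ x ∈ Ioo i i', long (q x) :=
    ⟨k - 1, 0, k - 1, by omega, by omega, by omega, by omega, hfull⟩
  obtain ⟨i, i', h1, h2, h3, hw, h4⟩ := Nat.find_spec hexw
  have hmin : ∀ p p', p ≤ c₀ → c₀ < p' → p' < k → p' - p < i' - i →
      M.d (π (j p)) (π (j p')) + 3 + q p + q p' + ∑ x ∈ Ioo p p', long (q x) < m := by
    intro p p' e1 e2 e3 e4
    by_contra h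
    exact Nat.find_min hexw (hw ▸ e4) ⟨p, p', e1, e2, e3, rfl, not_lt.1 h⟩
  refine ⟨i, i', by omega, h3, ?_, h4⟩
  rw [hdcross i i' h1 h2 h3]
  have hqi := hq i (by omega)
  have hqi' := hq i' h3
  rcases lt_or_eq_of_le h1 with hi | hi
  · have h5 := hmin (i + 1) i' hi h2 h3 (by omega)
    rw [hdcross (i + 1) i' hi h2 h3] at h5
    have h6 := hup i hi
    rw [sum_Ioo_left (show i + 1 < i' by omega)]
    obtain ⟨s1, -, -, -, -⟩ := short_le_long (q (i + 1))
    obtain ⟨-, s2, -, -, -⟩ := sums_bound q (Ioo (i + 1) i')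
    clear * - h5 h6 s1 s2 hqi'
    omega
  · subst hi
    rcases lt_or_eq_of_le (show i + 1 ≤ i' by omega) with hi' | hi'
    · have h5 := hmin i (i' - 1) le_rfl (by omega) (by omega) (by omega)
      rw [hdcross i (i' - 1) le_rfl (by omega) (by omega)] at h5
      have h6 := hdown (i' - 1) (by omega) (by omega)
      rw [Nat.sub_add_cancel (by omega : 1 ≤ i')] at h6
      rw [sum_Ioo_right hi']
      obtain ⟨s1, -, -, -, -⟩ := short_le_long (q (i' - 1))
      obtain ⟨-, s2, -, -, -⟩ := sums_bound q (Ioo i (i' - 1))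
      clear * - h5 h6 s1 s2 hqi
      omega
    · rw [show Ioo i i' = ∅ by ext x; simp; omega, sum_empty]
      have := htop _ (hπ _ (hj i (by omega)))
      have := htop _ (hπ _ (hj i' h3))
      omega

end Vale.Agent.P048
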