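import Vale.Agent.P048.Step
import Vale.Agent.P048.LinkRank
import Vale.Agent.P048.Blocks

/-!
# P048: the induction step for `m ≥ 2a+3`

In a graph on `(m-1)a+1` vertices with independence number `a` in which every set of `m-1`
vertices is avoided by an independent `a`-set and which is connected and has no large clique,
there is a cycle of length `m` as soon as `m ≥ 2a+3`.
-/

namespace Vale.Agent.P048

variable {V : Type*} [Fintype V]

/-- The induction step for the cycle-complete Ramsey number. -/
theorem exists_cycle_step_link (G : SimpleGraph V) (a m : ℕ) (ha : 1 ≤ a) (hm : 2 * a + 3 ≤ m)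
    (hcard : (m - 1) * a + 1 ≤ Fintype.card V) (hind : IndepLE G a)
    (havoid : ∀ Z : Finset V, Z.card ≤ m - 1 →
      ∃ S : Finset V, (∀ x ∈ S, ∀ y ∈ S, ¬ G.Adj x y) ∧ Disjoint S Z ∧ S.card = a)
    (hconn : ∀ A : Finset V, A.Nonempty → A ≠ Finset.univ → ∃ u ∈ A, ∃ v, v ∉ A ∧ G.Adj u v)
    (hclique : ∀ K : Finset V, G.IsClique K → K.card + 2 < m) :
    HasCyc G m := by
  classical
  obtain ⟨v₀⟩ : Nonempty V := Fintype.card_pos_iff.1 (by omega)
  obtain ⟨X, I, M, hIX, hv₀, hI, hdom, hXcard, hpar⟩ := exists_link_tree G v₀ a hind hconn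
  have hIa : I.card ≤ a := hind I hI
  obtain ⟨L, hL, hLX, hLcard⟩ := havoid X (by omega)
  have hLI : Disjoint L I := hLX.mono_right hIX
  obtain ⟨σ, hσinj, hσ⟩ := exists_matching hind hL hLcard hI hLI.symm
  -- the tree member of a label
  have hπex : ∀ s : V, ∃ x, s ∈ L → x ∈ I ∧ G.Adj s x ∧ ∀ z ∈ I, σ z = s → x = z := by
    intro s
    by_cases hs : s ∈ L
    · by_cases h : ∃ z ∈ I, σ z = s
      · obtain ⟨z, hz, hzs⟩ := h
        exact ⟨z, fun _ => ⟨hz, hzs ▸ (hσ z hz).2.symm,
          fun z' hz' h' => hσinj hz hz' (hzs.trans h'.symm)⟩⟩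
      · obtain ⟨x, hx, hadj⟩ := hdom s (Finset.disjoint_left.1 hLI hs)
        exact ⟨x, fun _ => ⟨hx, hadj, fun z hz h' => absurd ⟨z, hz, h'⟩ h⟩⟩
    · exact ⟨s, fun h => absurd h hs⟩
  choose π hπ using hπex
  obtain ⟨pos, hposinj, hlen, hwin⟩ := exists_ranked_order M L π m hIX ⟨v₀, hv₀⟩ hXcard hpar
    (fun s hs => (hπ s hs).1)
    (fun x hx => ⟨σ x, (hσ x hx).1, (hπ _ (hσ x hx).1).2.2 x hx rfl⟩) (by omega)
  -- labels
  have hlabex : ∀ x : V, ∃ y ∈ L, x ∉ L → G.Adj x y := by
    intro x
    by_cases hx : x ∈ L
    · exact ⟨x, hx, fun h => absurd hx h⟩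
    · obtain ⟨y, hy, hadj⟩ := exists_adj_of_indep hind hL hLcard hx
      exact ⟨y, hy, fun _ => hadj⟩
  choose lab hlabL hlabadj using hlabex
  set Y := Finset.univ \ (X ∪ L) with hY
  have hYmem : ∀ x ∈ Y, x ∉ X ∧ x ∉ L := fun x hx => by simpa [Y] using hx
  let fl : V → ℕ := fun x => if ∃ t ∈ L, t ≠ lab x ∧ G.Adj x t then 1 else 0
  have hfl : ∀ x, fl x ≤ 1 := fun x => by simp only [fl]; split_ifs <;> omega
  let key : V → ℕ := fun x =>
    (2 * pos (lab x) + fl x) * (Fintype.card V + 1) + (Fintype.equivFin V x : ℕ)
  have hkey : ∀ x y : V, key x < key y →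
      2 * pos (lab x) + fl x ≤ 2 * pos (lab y) + fl y := by
    intro x y h
    by_contra hlt
    have h1 : (2 * pos (lab y) + fl y + 1) * (Fintype.card V + 1) ≤
        (2 * pos (lab x) + fl x) * (Fintype.card V + 1) := Nat.mul_le_mul_right _ (by omega)
    rw [Nat.add_mul (2 * pos (lab y) + fl y) 1, one_mul] at h1
    have := (Fintype.equivFin V y).isLt
    simp only [key] at h
    omega
  have hkeyinj : ∀ x y : V, key x = key y → x = y := by
    intro x y h
    have h1 := congrArg (· % (Fintype.card V + 1)) h
    have hx := (Fintype.equivFin V x).isLt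
    have hy := (Fintype.equivFin V y).isLt
    simp only [key, Nat.mul_add_mod_self_right] at h1
    rw [Nat.mod_eq_of_lt (by omega), Nat.mod_eq_of_lt (by omega)] at h1
    exact (Fintype.equivFin V).injective (Fin.ext h1)
  -- a long increasing path
  obtain ⟨P, hPY, hPch, hPinc, hPlen⟩ : ∃ P : List V, (∀ x ∈ P, x ∈ Y) ∧ P.IsChain G.Adj ∧
      P.Pairwise (fun x y => key x < key y) ∧ m - 3 ≤ P.length := by
    by_contra hall
    push Not at hall
    have hle := card_le_mul (G := G) key Y (m - 4) a (fun x _ y _ => hkeyinj x y)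
      (fun P hP hc hi => by
        have htr : IsTrans V fun x y => key x < key y := ⟨fun _ _ _ => lt_trans⟩
        have := hall P hP hc (List.isChain_iff_pairwise.1 hi)
        omega)
      (fun s _ hs => hind s hs)
    have hYcard : Fintype.card V ≤ Y.card + (X.card + L.card) := by
      have h1 : Y.card = Fintype.card V - (X ∪ L).card := by
        rw [hY, ← Finset.compl_eq_univ_sdiff, Finset.card_compl]
      have h2 := Finset.card_union_le X L
      omega
    rw [Nat.sub_mul] at hle hcard
    have : 4 * a ≤ m * a := Nat.mul_le_mul_right a (by omega)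
    omega
  have hPnd : P.Nodup := hPinc.imp fun h he => by rw [he] at h; exact lt_irrefl _ h
  have hposle : P.Pairwise (fun x y => pos (lab x) ≤ pos (lab y)) := hPinc.imp fun {x y} h => by
    have := hkey x y h
    have := hfl x
    have := hfl y
    omega
  have hlabP : ∀ x ∈ P, G.Adj (lab x) x := fun x hx =>
    (hlabadj x (hYmem x (hPY x hx)).2).symm
  have hPL : ∀ x ∈ P, x ∉ L := fun x hx => (hYmem x (hPY x hx)).2
  have hPX : ∀ x ∈ P, x ∉ X := fun x hx => (hYmem x (hPY x hx)).1
  have hLX' : ∀ x ∈ L, x ∉ X := fun x hx => Finset.disjoint_left.1 hLX hx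
  have hPne : P ≠ [] := List.ne_nil_of_length_pos (by omega)
  obtain ⟨k, j, B, hk, hne, hnc, hglue, hmem, hjpos, hsum, -⟩ := exists_blocks (G := G) lab pos P
    hPne hPnd hPch (fun u _ v _ h => hposinj (hlabL u) (hlabL v) h) hposle
  have hjmem : ∀ x < k, ∃ v ∈ P, lab v = j x := fun x hx => by
    obtain ⟨v, hv⟩ := List.exists_mem_of_ne_nil _ (hne x hx)
    exact ⟨v, hmem x hx v hv⟩
  have hjL : ∀ x < k, j x ∈ L := fun x hx => by
    obtain ⟨v, -, hv⟩ := hjmem x hx
    exact hv ▸ hlabL v
  rcases eq_or_lt_of_le hk with hk1 | hk2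
  · -- one label
    subst hk1
    rw [Finset.sum_range_one] at hsum
    obtain ⟨z, hz⟩ : ∃ z, P.getLast? = some z := ⟨_, List.getLast?_eq_some_getLast hPne⟩
    have hzP : z ∈ P := List.mem_of_mem_getLast? hz
    have hone : ∀ y ∈ P, lab y = j 0 := by
      have hsub : (B 0).toFinset ⊆ P.toFinset := fun v hv =>
        List.mem_toFinset.2 (hmem 0 one_pos v (List.mem_toFinset.1 hv)).1
      have heq := Finset.eq_of_subset_of_card_le hsub (by
        rw [List.toFinset_card_of_nodup hPnd, List.toFinset_card_of_nodup (hnc 0 one_pos).1, hsum])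
      intro y hy
      exact (hmem 0 one_pos y (List.mem_toFinset.1 (heq ▸ List.mem_toFinset.2 hy))).2
    by_cases hflag : ∃ y ∈ P, fl y = 1
    · obtain ⟨y, hy, hy1⟩ := hflag
      have hz1 : fl z = 1 := by
        rw [← P.dropLast_append_getLast hPne] at hy hPinc
        obtain rfl : P.getLast hPne = z := by
          rw [List.getLast?_eq_some_getLast hPne] at hz; exact Option.some.inj hz
        rcases List.mem_append.1 hy with hy' | hy'
        · have h := hkey _ _ ((List.pairwise_append.1 hPinc).2.2 y hy' (P.getLast hPne) (by simp))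
          rw [hone y (List.dropLast_subset _ hy'), hone _ hzP] at h
          have := hfl (P.getLast hPne)
          omega
        · rwa [List.mem_singleton.1 hy'] at hy1
      obtain ⟨t, htL, htne, hzt⟩ : ∃ t ∈ L, t ≠ lab z ∧ G.Adj z t := by
        simp only [fl] at hz1
        by_contra h
        rw [if_neg h] at hz1
        omega
      obtain ⟨htI, htπ, -⟩ := hπ t htL
      obtain ⟨hzI, hzπ, -⟩ := hπ (lab z) (hlabL z)
      obtain ⟨l, hll, hln, hlc, hlh, hlt, hli⟩ := M.path _ (hIX htI) _ (hIX hzI)
      have hlX : ∀ v ∈ l, v ∈ X := fun v hv => by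
        obtain ⟨i, hi, rfl⟩ := List.getElem_of_mem hv
        exact (hli i hi).1
      have hd := hlen _ htI _ hzI
      obtain ⟨u, hu⟩ : ∃ u, u = m - 3 - M.d (π t) (π (lab z)) := ⟨_, rfl⟩
      obtain ⟨W, hW⟩ : ∃ W, W = P.drop (P.length - u) := ⟨_, rfl⟩
      have hWlen : W.length = u := by rw [hW, List.length_drop]; omega
      have hWlast : W.getLast? = some z := by
        rw [hW, List.getLast?_drop, if_neg (by omega), hz]
      have hWP : ∀ v ∈ W, v ∈ P := fun v hv => List.mem_of_mem_drop (hW ▸ hv)
      have := hasCyc_join (G := G) (lab z :: (W ++ [t])) l (lab z) t (π t) (π (lab z))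
        (List.nodup_cons.2 ⟨fun h => by
            rcases List.mem_append.1 h with h | h
            · exact hPL _ (hWP _ h) (hlabL z)
            · exact htne (List.mem_singleton.1 h).symm,
          List.nodup_append.2 ⟨hW ▸ hPnd.sublist (List.drop_sublist _ _), by simp,
            fun v hv w hw e => hPL v (hWP v hv) ((e.trans (List.mem_singleton.1 hw)).symm ▸ htL)⟩⟩)
        hln
        (((hW ▸ hPch.drop _ : W.IsChain G.Adj).append (.singleton t) (fun v hv w hw => by
            rw [hWlast] at hv
            simp only [Option.mem_def, Option.some.injEq, List.head?_cons] at hv hw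
            subst hv hw
            exact hzt)).cons fun v hv => by
          obtain ⟨w, hw⟩ : ∃ w, W.head? = some w :=
            ⟨_, List.head?_eq_some_head (List.ne_nil_of_length_pos (by omega))⟩
          simp only [List.head?_append, hw, Option.some_or, Option.mem_def,
            Option.some.injEq] at hv
          subst hv
          have hwP := hWP w (List.mem_of_mem_head? hw)
          rw [(hone z hzP).trans (hone w hwP).symm]
          exact hlabP w hwP)
        hlc rfl (by simp [List.getLast?_cons]) hlh hlt
        (fun v hv hvl => by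
          rcases List.mem_cons.1 hv with rfl | hv
          · exact hLX' _ (hlabL z) (hlX _ hvl)
          rcases List.mem_append.1 hv with hv | hv
          · exact hPX _ (hWP v hv) (hlX _ hvl)
          · exact hLX' v ((List.mem_singleton.1 hv).symm ▸ htL) (hlX _ hvl))
        htπ hzπ.symm (by simp; omega)
      simp only [List.length_cons, List.length_append, List.length_nil, hWlen, hll] at this
      rwa [show u + (0 + 1) + 1 + (M.d (π t) (π (lab z)) + 1) = m by omega] at this
    · push Not at hflag
      exfalso
      have honly : ∀ y ∈ P, ∀ t ∈ L, G.Adj y t → t = j 0 := by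
        intro y hy t ht hyt
        by_contra hne'
        apply hflag y hy
        simp only [fl]
        exact if_pos ⟨t, ht, by rwa [hone y hy], hyt⟩
      have hcl : ∀ y ∈ P, ∀ y' ∈ P, y ≠ y' → G.Adj y y' := by
        intro y hy y' hy' hne'
        by_contra hnadj
        have key1 : ∀ w ∈ P, ∀ s ∈ L.erase (j 0), ¬ G.Adj w s := fun w hw s hs h =>
          (Finset.mem_erase.1 hs).1 (honly w hw s (Finset.mem_erase.1 hs).2 h)
        have h2 := hind (insert y (insert y' (L.erase (j 0)))) (by
          intro p hp q hq hpq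
          simp only [Finset.mem_insert] at hp hq
          rcases hp with hp | hp | hp <;> rcases hq with hq | hq | hq
          all_goals first
            | (rw [hp, hq] at hpq; exact G.irrefl hpq)
            | (rw [hp, hq] at hpq; exact hnadj hpq)
            | (rw [hp, hq] at hpq; exact hnadj hpq.symm)
            | (rw [hp] at hpq; exact key1 _ hy _ hq hpq)
            | (rw [hp] at hpq; exact key1 _ hy' _ hq hpq)
            | (rw [hq] at hpq; exact key1 _ hy _ hp hpq.symm)
            | (rw [hq] at hpq; exact key1 _ hy' _ hp hpq.symm)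
            | exact hL p (Finset.mem_erase.1 hp).2 q (Finset.mem_erase.1 hq).2 hpq)
        have n1 : y' ∉ L.erase (j 0) := fun h => hPL y' hy' (Finset.mem_erase.1 h).2
        have n2 : y ∉ insert y' (L.erase (j 0)) := by
          simp only [Finset.mem_insert, not_or]
          exact ⟨hne', fun h => hPL y hy (Finset.mem_erase.1 h).2⟩
        rw [Finset.card_insert_of_notMem n2, Finset.card_insert_of_notMem n1,
          Finset.card_erase_of_mem (hjL 0 one_pos)] at h2
        omega
      set K := insert (j 0) P.toFinset with hK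
      have hKclique : G.IsClique K := by
        intro p hp q hq hpq
        simp only [hK, Finset.coe_insert, Set.mem_insert_iff, List.coe_toFinset,
          Set.mem_ofPred_eq] at hp hq
        rcases hp with hp | hp <;> rcases hq with hq | hq
        · exact absurd (hp.trans hq.symm) hpq
        · rw [hp, ← hone q hq]; exact hlabP q hq
        · rw [hq, ← hone p hp]; exact (hlabP p hp).symm
        · exact hcl p hp q hq hpq
      have := hclique K hKclique
      rw [hK, Finset.card_insert_of_notMem (fun h => hPL _ (List.mem_toFinset.1 h) (hjL 0 one_pos)),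
        List.toFinset_card_of_nodup hPnd] at this
      omega
  · -- several labels
    have hincr : ∀ x y, x < y → y < k → pos (j x) < pos (j y) := by
      intro x y hxy
      induction y, (hxy : x + 1 ≤ y) using Nat.le_induction with
      | base => exact hjpos x
      | succ y hy ih => exact fun h => (ih (by omega)).trans (hjpos y h)
    have hB : IsBlocks G k j B :=
      { ne := hne
        nodup := fun x hx => (hnc x hx).1
        chain := fun x hx => (hnc x hx).2
        glue := hglue
        adj := fun x hx v hv => (hmem x hx v hv).2 ▸ hlabP v (hmem x hx v hv).1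
        sep := fun x hx y hy h => hPL _ (hmem y hy _ h).1 (hjL x hx)
        disj := fun x hx y hy v hv hv' => by
          have e : j x = j y := (hmem x hx v hv).2.symm.trans (hmem y hy v hv').2
          rcases lt_trichotomy x y with h | h | h
          · exact absurd (congrArg pos e) (hincr x y h hy).ne
          · exact h
          · exact absurd (congrArg pos e) (hincr y x h hx).ne'
        inj := fun x hx y hy e => by
          rcases lt_trichotomy x y with h | h | h
          · exact absurd (congrArg pos e) (hincr x y h hy).ne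
          · exact h
          · exact absurd (congrArg pos e) (hincr y x h hx).ne' }
    obtain ⟨i, i', hii, hi', hlo, hhi⟩ := hwin k j (fun x => (B x).length) hk2 hjL hjpos
      (fun x hx => List.length_pos_iff.2 (hne x hx)) (by omega)
    obtain ⟨hpI, hpπ, -⟩ := hπ _ (hjL i (hii.trans hi'))
    obtain ⟨hqI, hqπ, -⟩ := hπ _ (hjL i' hi')
    obtain ⟨l, hll, hln, hlc, hlh, hlt, hli⟩ := M.path _ (hIX hqI) _ (hIX hpI)
    have hlX : ∀ v ∈ l, v ∈ X := fun v hv => by
      obtain ⟨r, hr, rfl⟩ := List.getElem_of_mem hv
      exact (hli r hr).1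
    rw [M.symm _ (hIX hpI) _ (hIX hqI)] at hlo hhi
    exact hasCyc_of_window hB hii hi' hln hlc hlh hlt hqπ hpπ.symm
      (fun x hx => ⟨fun h => hLX' _ (hjL x hx) (hlX _ h),
        fun v hv h => hPX v (hmem x hx v hv).1 (hlX _ h)⟩) (by omega) (by omega)

end Vale.Agent.P048
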