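import Mathlib
import Vale.Agent.P048.Defs

/-!
# P048: the lower bound by disjoint cliques, and passing to Ramsey-number form
-/

namespace Vale.Agent.P048

/-- Disjoint cliques of order `m - 1`: vertices below `N` grouped by quotient. -/
def blocksGraph (m N : ℕ) : SimpleGraph (Fin N) where
  Adj x y := x ≠ y ∧ (x : ℕ) / (m - 1) = (y : ℕ) / (m - 1)
  symm := ⟨fun _ _ h => ⟨h.1.symm, h.2.symm⟩⟩
  loopless := ⟨fun _ h => h.1 rfl⟩

lemma blocksGraph_walk {m N : ℕ} {u v : Fin N} (p : (blocksGraph m N).Walk u v) :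
    ∀ x ∈ p.support, (x : ℕ) / (m - 1) = (u : ℕ) / (m - 1) := by
  induction p with
  | nil => intro x hx; simp only [SimpleGraph.Walk.support_nil, List.mem_singleton] at hx; rw [hx]
  | cons h q ih =>
    intro x hx
    rcases List.mem_cons.1 (by simpa using hx) with rfl | hx
    · rfl
    · rw [ih x hx, h.2]

lemma not_hasCyc_blocksGraph {m N : ℕ} (hm : 2 ≤ m) : ¬ HasCyc (blocksGraph m N) m := by
  rintro ⟨v, p, hp, hlen⟩
  have hcard : p.support.tail.toFinset.card = m := by
    rw [List.toFinset_card_of_nodup hp.support_nodup, List.length_tail,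
      SimpleGraph.Walk.length_support, hlen]
    omega
  have hsub : p.support.tail.toFinset.image (fun x : Fin N => (x : ℕ)) ⊆
      Finset.Ico ((v : ℕ) / (m - 1) * (m - 1)) ((v : ℕ) / (m - 1) * (m - 1) + (m - 1)) := by
    intro a ha
    obtain ⟨x, hx, rfl⟩ := Finset.mem_image.1 ha
    have h := blocksGraph_walk p x (List.mem_of_mem_tail (List.mem_toFinset.1 hx))
    rw [Finset.mem_Ico, ← h]
    have h1 := Nat.div_mul_le_self (x : ℕ) (m - 1)
    have h2 := Nat.lt_div_mul_add (a := (x : ℕ)) (b := m - 1) (by omega)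
    exact ⟨h1, h2⟩
  have := Finset.card_le_card hsub
  rw [Finset.card_image_of_injective _ Fin.val_injective, hcard, Nat.card_Ico] at this
  omega

lemma indepLE_blocksGraph {m n N : ℕ} (hm : 2 ≤ m) (hN : N ≤ (m - 1) * (n - 1)) :
    IndepLE (blocksGraph m N) (n - 1) := by
  intro s hs
  have hmaps : ∀ x ∈ s, (x : ℕ) / (m - 1) ∈ Finset.range (n - 1) := by
    intro x _
    rw [Finset.mem_range, Nat.div_lt_iff_lt_mul (by omega)]
    calc (x : ℕ) < N := x.isLt
      _ ≤ (m - 1) * (n - 1) := hN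
      _ = (n - 1) * (m - 1) := Nat.mul_comm _ _
  have := Finset.card_le_card_of_injOn (fun x : Fin N => (x : ℕ) / (m - 1)) hmaps
    (fun x hx y hy h => by
      by_contra hne
      exact hs x hx y hy ⟨hne, h⟩)
  simpa using this

/-- There are graphs on `(m - 1) * (n - 1)` or fewer vertices with neither an `m`-cycle nor an
independent set of size `n`. -/
theorem lower_bound {m n N : ℕ} (hm : 2 ≤ m) (hN : N ≤ (m - 1) * (n - 1)) :
    ∃ G : SimpleGraph (Fin N), ¬ HasCyc G m ∧ IndepLE G (n - 1) :=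
  ⟨blocksGraph m N, not_hasCyc_blocksGraph hm, indepLE_blocksGraph hm hN⟩

/-- The Ramsey number in least-element form, from the upper bound. -/
theorem ramsey_eq_of_upper {m n : ℕ} (hm : 2 ≤ m) (hn : 1 ≤ n)
    (hup : ∀ N, (m - 1) * (n - 1) + 1 ≤ N → ∀ G : SimpleGraph (Fin N),
      IndepLE G (n - 1) → HasCyc G m) :
    IsLeast {N : ℕ | ∀ G : SimpleGraph (Fin N),
        (∃ (v : Fin N) (p : G.Walk v v), p.IsCycle ∧ p.length = m) ∨
          ∃ s : Finset (Fin N), G.IsNIndepSet n s}
      ((m - 1) * (n - 1) + 1) := by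
  constructor
  · intro G
    by_cases h : IndepLE G (n - 1)
    · exact Or.inl (hup _ le_rfl G h)
    · right
      simp only [IndepLE, not_forall, not_le] at h
      obtain ⟨s, hs, hcard⟩ := h
      obtain ⟨t, hts, htc⟩ := Finset.exists_subset_card_eq (show n ≤ s.card by omega)
      exact ⟨t, ⟨fun x hx y hy _ => hs x (hts hx) y (hts hy), htc⟩⟩
  · intro N hN
    by_contra hlt
    obtain ⟨G, hG, hind⟩ := lower_bound hm (show N ≤ (m - 1) * (n - 1) by omega)
    rcases hN G with h | ⟨s, hs⟩
    · exact hG h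
    · have := hind s (fun x hx y hy hxy => hs.1 hx hy hxy.ne hxy)
      rw [hs.2] at this
      omega

end Vale.Agent.P048
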