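import Vale.Agent.P048.LinkStep
import Vale.Agent.P048.Lower
import Vale.Agent.P048.Clique

/-!
# P048: `R(C_m, K_n) = (m-1)(n-1)+1` for `m ≥ 2n+1`
-/

namespace Vale.Agent.P048

universe u

/-- Induction on the independence number. -/
theorem hasCyc_of_indepLE (m : ℕ) : ∀ (a : ℕ), 2 * a + 3 ≤ m →
    ∀ (V : Type u) [Fintype V] (G : SimpleGraph V),
      (m - 1) * a + 1 ≤ Fintype.card V → IndepLE G a → HasCyc G m := by
  intro a
  induction a using Nat.strong_induction_on with
  | _ a ih =>
    intro hm V _ G hcard hind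
    classical
    by_contra hno
    -- smaller independence number
    have small : ∀ b < a, ∀ W : Finset V,
        (∀ s ⊆ W, (∀ x ∈ s, ∀ y ∈ s, ¬ G.Adj x y) → s.card ≤ b) → W.card ≤ (m - 1) * b := by
      intro b hb W hW
      by_contra hbig
      obtain ⟨x, p, hp, hpl⟩ := ih b hb (by omega) {v // v ∈ W} (G.comap Subtype.val)
        (by rw [Fintype.card_coe]; omega) (fun s hs => by
          rw [← Finset.card_map (Function.Embedding.subtype _)]
          refine hW _ (fun x hx => ?_) fun x hx y hy => ?_
          · obtain ⟨z, -, rfl⟩ := Finset.mem_map.1 hx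
            exact z.2
          · obtain ⟨z, hz, rfl⟩ := Finset.mem_map.1 hx
            obtain ⟨w, hw, rfl⟩ := Finset.mem_map.1 hy
            exact hs z hz w hw)
      let φ : G.comap (Subtype.val : {v // v ∈ W} → V) →g G := ⟨Subtype.val, fun h => h⟩
      exact hno ⟨_, p.map φ, hp.map Subtype.val_injective, by simp [hpl]⟩
    rcases Nat.eq_zero_or_pos a with rfl | ha
    · obtain ⟨v⟩ : Nonempty V := Fintype.card_pos_iff.1 (by omega)
      simpa using hind {v} (by simp)
    have havoid : ∀ Z : Finset V, Z.card ≤ m - 1 →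
        ∃ S : Finset V, (∀ x ∈ S, ∀ y ∈ S, ¬ G.Adj x y) ∧ Disjoint S Z ∧ S.card = a := by
      intro Z hZ
      by_contra hnone
      push Not at hnone
      have h1 := small (a - 1) (by omega) (Finset.univ \ Z) (fun s hs hsi => by
        have h2 := hind s hsi
        have h3 := hnone s hsi (Finset.disjoint_left.2 fun v hv => (Finset.mem_sdiff.1 (hs hv)).2)
        omega)
      rw [← Finset.compl_eq_univ_sdiff, Finset.card_compl] at h1
      rw [Nat.mul_sub, Nat.mul_one] at h1
      have : m - 1 ≤ (m - 1) * a := Nat.le_mul_of_pos_right _ ha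
      omega
    have hconn : ∀ A : Finset V, A.Nonempty → A ≠ Finset.univ →
        ∃ u ∈ A, ∃ v, v ∉ A ∧ G.Adj u v := by
      intro A hA hAne
      by_contra hnone
      push Not at hnone
      have hbest : ∀ B : Finset V, ∃ J ⊆ B, (∀ x ∈ J, ∀ y ∈ J, ¬ G.Adj x y) ∧
          ∀ s ⊆ B, (∀ x ∈ s, ∀ y ∈ s, ¬ G.Adj x y) → s.card ≤ J.card := by
        intro B
        obtain ⟨J, hJ, hmax⟩ := Finset.exists_max_image
          (B.powerset.filter fun s => ∀ x ∈ s, ∀ y ∈ s, ¬ G.Adj x y) Finset.card ⟨∅, by simp⟩
        simp only [Finset.mem_filter, Finset.mem_powerset] at hJ hmax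
        exact ⟨J, hJ.1, hJ.2, fun s h1 h2 => hmax s ⟨h1, h2⟩⟩
      obtain ⟨J, hJA, hJ, hJmax⟩ := hbest A
      obtain ⟨K, hKA, hK, hKmax⟩ := hbest Aᶜ
      have hA' : Aᶜ.Nonempty := by
        rw [Finset.nonempty_iff_ne_empty]; simpa using hAne
      obtain ⟨x, hx⟩ := hA
      obtain ⟨y, hy⟩ := hA'
      have h1 := hJmax {x} (by simpa using hx) (by simp)
      have h2 := hKmax {y} (by simpa using hy) (by simp)
      have h3 := hind (J ∪ K) (by
        intro p hp q hq
        rcases Finset.mem_union.1 hp with hp | hp <;> rcases Finset.mem_union.1 hq with hq | hq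
        · exact hJ p hp q hq
        · exact hnone p (hJA hp) q (Finset.mem_compl.1 (hKA hq))
        · exact fun e => hnone q (hJA hq) p (Finset.mem_compl.1 (hKA hp)) e.symm
        · exact hK p hp q hq)
      rw [Finset.card_union_of_disjoint
        (Finset.disjoint_left.2 fun p hp hp' => Finset.mem_compl.1 (hKA hp') (hJA hp))] at h3
      simp only [Finset.card_singleton] at h1 h2
      have h4 := small J.card (by omega) A hJmax
      have h5 := small K.card (by omega) Aᶜ hKmax
      rw [Finset.card_compl] at h5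
      have h6 : (m - 1) * (J.card + K.card) ≤ (m - 1) * a := Nat.mul_le_mul_left _ h3
      rw [Nat.mul_add] at h6
      omega
    exact hno (exists_cycle_step_link G a m ha hm hcard hind havoid hconn
      (no_big_clique G a m ha hm hno hind havoid))

end Vale.Agent.P048
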