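import Vale.Agent.P048.Main
import Vale.Agent.P048.StepEven
import Vale.Agent.P048.CliqueEven

/-!
# P048: `R(C_m, K_n) = (m-1)(n-1)+1` for `m ≥ 2n`
-/

namespace Vale.Agent.P048

universe u

/-- Induction on the independence number. -/
theorem hasCyc_of_indepLE_even (m : ℕ) : ∀ (a : ℕ), 1 ≤ a → 2 * a + 2 ≤ m →
    ∀ (V : Type u) [Fintype V] (G : SimpleGraph V),
      (m - 1) * a + 1 ≤ Fintype.card V → IndepLE G a → HasCyc G m := by
  intro a ha1 hm V _ G hcard hind
  rcases eq_or_lt_of_le hm with hm' | hm'
  swap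
  · exact hasCyc_of_indepLE m a hm' V G hcard hind
  classical
  by_contra hno
  -- smaller independence number
  have small : ∀ b < a, ∀ W : Finset V,
      (∀ s ⊆ W, (∀ x ∈ s, ∀ y ∈ s, ¬ G.Adj x y) → s.card ≤ b) → W.card ≤ (m - 1) * b := by
    intro b hb W hW
    by_contra hbig
    obtain ⟨x, p, hp, hpl⟩ := hasCyc_of_indepLE m b (by omega) {v // v ∈ W} (G.comap Subtype.val)
      (by rw [Fintype.card_coe]; omega) (fun s hs => by
        rw [← Finset.card_map (Function.Embedding.subtype _)]
        refine hW _ (fun x hx => ?_) fun x hx y hy => ?_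
        · obtain ⟨z, -, rfl⟩ := Finset.mem_map.1 hx
          exact z.2
        · obtain ⟨z, hz, rfl⟩ := Finset.mem_map.1 hx
          obtain ⟨w, hw, rfl⟩ := Finset.mem_map.1 hy
          exact hs z hz w hw)
    let φ : G.comap (Subtype.val : {v // v ∈ W} → V) →g G := ⟨Subtype.val, fun h => h⟩
    exact hno ⟨_, p.map φ, hp.map Subtype.val_injective, by simp [hpl]⟩
  rcases eq_or_lt_of_le ha1 with rfl | ha2
  · -- a complete graph
    obtain ⟨K, -, hK⟩ := Finset.exists_subset_card_eq
      (show m ≤ (Finset.univ : Finset V).card by rw [Finset.card_univ]; omega)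
    have hadj : ∀ x y : V, x ≠ y → G.Adj x y := fun x y hxy => by
      by_contra h
      have := hind {x, y} (by
        intro u hu v hv
        simp only [Finset.mem_insert, Finset.mem_singleton] at hu hv
        rcases hu with rfl | rfl <;> rcases hv with rfl | rfl
        · exact G.irrefl
        · exact h
        · exact fun e => h e.symm
        · exact G.irrefl)
      rw [Finset.card_pair hxy] at this
      omega
    refine hno ?_
    have hlen : K.toList.length = m := by rw [Finset.length_toList, hK]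
    rw [← hlen]
    refine hasCyc_of_chain _ (by omega) K.nodup_toList
      ((K.nodup_toList.imp fun {x y} hxy => hadj x y hxy).isChain) fun u hu v hv => hadj u v ?_
    intro huv
    subst huv
    obtain ⟨w, l, hl⟩ := List.exists_cons_of_ne_nil
      (show K.toList ≠ [] from List.ne_nil_of_length_pos (by omega))
    have hnd := hl ▸ K.nodup_toList
    rw [hl] at hu hv hlen
    simp only [List.head?_cons, Option.mem_def, Option.some.injEq] at hv
    subst hv
    rw [List.getLast?_cons_of_ne_nil (List.ne_nil_of_length_pos (by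
      simp only [List.length_cons] at hlen; omega))] at hu
    exact (List.nodup_cons.1 hnd).1 (List.mem_of_mem_getLast? hu)
  have ha : 1 ≤ a := ha1
  have havoid : ∀ Z : Finset V, Z.card ≤ m - 1 →
      ∃ S : Finset V, (∀ x ∈ S, ∀ y ∈ S, ¬ G.Adj x y) ∧ Disjoint S Z ∧ S.card = a := by
    intro Z hZ
    by_contra hnone
    push Not at hnone
    have h1 := small (a - 1) (by omega) (Finset.univ \ Z) (fun s hs hsi => by
      have h2 := hind s hsi
      have h3 := hnone s hsi (Finset.disjoint_left.2 fun v hv => (Finset.mem_sdiff.1 (hs hv)).2)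
      omega)
    rw [← Finset.compl_eq_univ_sdiff, Finset.card_compl] at h1
    rw [Nat.mul_sub, Nat.mul_one] at h1
    have : m - 1 ≤ (m - 1) * a := Nat.le_mul_of_pos_right _ ha
    omega
  have hconn : ∀ A : Finset V, A.Nonempty → A ≠ Finset.univ →
      ∃ u ∈ A, ∃ v, v ∉ A ∧ G.Adj u v := by
    intro A hA hAne
    by_contra hnone
    push Not at hnone
    have hbest : ∀ B : Finset V, ∃ J ⊆ B, (∀ x ∈ J, ∀ y ∈ J, ¬ G.Adj x y) ∧
        ∀ s ⊆ B, (∀ x ∈ s, ∀ y ∈ s, ¬ G.Adj x y) → s.card ≤ J.card := by
      intro B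
      obtain ⟨J, hJ, hmax⟩ := Finset.exists_max_image
        (B.powerset.filter fun s => ∀ x ∈ s, ∀ y ∈ s, ¬ G.Adj x y) Finset.card ⟨∅, by simp⟩
      simp only [Finset.mem_filter, Finset.mem_powerset] at hJ hmax
      exact ⟨J, hJ.1, hJ.2, fun s h1 h2 => hmax s ⟨h1, h2⟩⟩
    obtain ⟨J, hJA, hJ, hJmax⟩ := hbest A
    obtain ⟨K, hKA, hK, hKmax⟩ := hbest Aᶜ
    have hA' : Aᶜ.Nonempty := by
      rw [Finset.nonempty_iff_ne_empty]; simpa using hAne
    obtain ⟨x, hx⟩ := hA
    obtain ⟨y, hy⟩ := hA'
    have h1 := hJmax {x} (by simpa using hx) (by simp)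
    have h2 := hKmax {y} (by simpa using hy) (by simp)
    have h3 := hind (J ∪ K) (by
      intro p hp q hq
      rcases Finset.mem_union.1 hp with hp | hp <;> rcases Finset.mem_union.1 hq with hq | hq
      · exact hJ p hp q hq
      · exact hnone p (hJA hp) q (Finset.mem_compl.1 (hKA hq))
      · exact fun e => hnone q (hJA hq) p (Finset.mem_compl.1 (hKA hp)) e.symm
      · exact hK p hp q hq)
    rw [Finset.card_union_of_disjoint
      (Finset.disjoint_left.2 fun p hp hp' => Finset.mem_compl.1 (hKA hp') (hJA hp))] at h3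
    simp only [Finset.card_singleton] at h1 h2
    have h4 := small J.card (by omega) A hJmax
    have h5 := small K.card (by omega) Aᶜ hKmax
    rw [Finset.card_compl] at h5
    have h6 : (m - 1) * (J.card + K.card) ≤ (m - 1) * a := Nat.mul_le_mul_left _ h3
    rw [Nat.mul_add] at h6
    omega
  exact hno (exists_cycle_step_even G a m ha hm'.symm hcard hind havoid hconn
    (no_big_clique_even G a m ha2 hm'.symm hno hind havoid))

end Vale.Agent.P048
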