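import Vale.Agent.P048.Defs

/-!
# P048: tree metrics inside a graph

A finite set of vertices with a metric of a tree realised by paths of the graph, and the
extension by one vertex hung from an old one.
-/

set_option linter.unusedSimpArgs false

namespace Vale.Agent.P048

variable {V : Type*} {G : SimpleGraph V}

/-- A metric on `X` that behaves like the one of a tree inside `G`. -/
structure TreeMetric (G : SimpleGraph V) (X : Finset V) where
  /-- the distance -/
  d : V → V → ℕ
  self : ∀ x ∈ X, d x x = 0
  symm : ∀ x ∈ X, ∀ y ∈ X, d x y = d y x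
  four : ∀ x ∈ X, ∀ y ∈ X, ∀ z ∈ X, ∀ w ∈ X,
    d x y + d z w ≤ max (d x z + d y w) (d x w + d y z)
  path : ∀ x ∈ X, ∀ y ∈ X, ∃ l : List V, l.length = d x y + 1 ∧ l.Nodup ∧ l.IsChain G.Adj ∧
    l.head? = some x ∧ l.getLast? = some y ∧
    ∀ i, (hi : i < l.length) → l[i] ∈ X ∧ d x l[i] = i ∧ d l[i] y + i = d x y

namespace TreeMetric

variable {X : Finset V} (M : TreeMetric G X)

theorem triangle {x y z : V} (hx : x ∈ X) (hy : y ∈ X) (hz : z ∈ X) :
    M.d x y ≤ M.d x z + M.d z y := by
  have := M.four x hx y hy z hz z hz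
  have := M.self z hz
  have := M.symm y hy z hz
  omega

theorem eq_of_d_eq_zero {x y : V} (hx : x ∈ X) (hy : y ∈ X) (h : M.d x y = 0) : x = y := by
  obtain ⟨l, hl, -, -, hh, ht, -⟩ := M.path x hx y hy
  rw [h] at hl
  match l, hl with
  | [u], _ => simp_all

theorem adj_of_d_eq_one {x y : V} (hx : x ∈ X) (hy : y ∈ X) (h : M.d x y = 1) : G.Adj x y := by
  obtain ⟨l, hl, -, hc, hh, ht, -⟩ := M.path x hx y hy
  rw [h] at hl
  match l, hl, hc with
  | [u, v], _, hc =>
    simp only [List.head?_cons, Option.some.injEq] at hh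
    simp at ht
    subst hh ht
    exact (List.isChain_cons_cons.1 hc).1

/-- The one-point tree. -/
def single (G : SimpleGraph V) (v : V) : TreeMetric G {v} where
  d _ _ := 0
  self _ _ := rfl
  symm _ _ _ _ := rfl
  four _ _ _ _ _ _ _ _ := by simp
  path x hx y hy := by
    rw [Finset.mem_singleton] at hx hy
    rw [hx, hy]
    refine ⟨[v], rfl, by simp, .singleton v, rfl, rfl, fun i hi => ?_⟩
    simp at hi
    subst hi
    simp

/-- Hang a new vertex from a vertex of the tree. -/
theorem exists_insert [DecidableEq V] {x y : V} (hx : x ∉ X) (hy : y ∈ X) (hadj : G.Adj y x) :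
    ∃ M' : TreeMetric G (insert x X), M'.d x y = 1 ∧
      (∀ a ∈ X, ∀ b ∈ X, M'.d a b = M.d a b) ∧ ∀ b ∈ X, M'.d x b = M.d y b + 1 := by
  classical
  let d' : V → V → ℕ := fun a b =>
    if a = x then (if b = x then 0 else M.d y b + 1) else if b = x then M.d a y + 1 else M.d a b
  have hne : ∀ a ∈ X, a ≠ x := fun a ha h => hx (h ▸ ha)
  have dxx : d' x x = 0 := by simp [d']
  have dxb : ∀ b ∈ X, d' x b = M.d y b + 1 := fun b hb => by simp [d', hne b hb]
  have dbx : ∀ b ∈ X, d' b x = M.d b y + 1 := fun b hb => by simp [d', hne b hb]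
  have dab : ∀ a ∈ X, ∀ b ∈ X, d' a b = M.d a b := fun a ha b hb => by
    simp [d', hne a ha, hne b hb]
  have hsymm : ∀ a ∈ insert x X, ∀ b ∈ insert x X, d' a b = d' b a := by
    intro a ha b hb
    rcases Finset.mem_insert.1 ha with ha' | ha <;> rcases Finset.mem_insert.1 hb with hb' | hb
    · rw [ha', hb']
    · rw [ha', dxb b hb, dbx b hb, M.symm y hy b hb]
    · rw [hb', dxb a ha, dbx a ha, M.symm y hy a ha]
    · rw [dab a ha b hb, dab b hb a ha, M.symm a ha b hb]
  have hnew : ∀ b ∈ insert x X, ∃ l : List V, l.length = d' x b + 1 ∧ l.Nodup ∧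
      l.IsChain G.Adj ∧ l.head? = some x ∧ l.getLast? = some b ∧
      ∀ i, (hi : i < l.length) → l[i] ∈ insert x X ∧ d' x l[i] = i ∧ d' l[i] b + i = d' x b := by
    intro b hb
    rcases Finset.mem_insert.1 hb with rfl | hb
    · refine ⟨[b], by rw [dxx]; rfl, by simp, .singleton b, rfl, rfl, fun i hi => ?_⟩
      simp at hi
      subst hi
      simp [dxx]
    obtain ⟨l, hl, hn, hc, hh, ht, hi'⟩ := M.path y hy b hb
    have hmem : ∀ v ∈ l, v ∈ X := fun v hv => by
      obtain ⟨i, hi, rfl⟩ := List.getElem_of_mem hv
      exact (hi' i hi).1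
    refine ⟨x :: l, by rw [dxb b hb]; simp [hl], List.nodup_cons.2 ⟨fun h => hx (hmem x h), hn⟩,
      hc.cons (by simpa [hh] using hadj.symm), rfl, by simp [List.getLast?_cons, ht], ?_⟩
    intro i hi
    rcases i with _ | i
    · simp [dxx]
    obtain ⟨h1, h2, h3⟩ := hi' i (by simpa using hi)
    simp only [List.getElem_cons_succ]
    refine ⟨Finset.mem_insert_of_mem h1, by rw [dxb _ h1, h2], ?_⟩
    rw [dab _ h1 b hb, dxb b hb]
    omega
  have hpath : ∀ a ∈ insert x X, ∀ b ∈ insert x X, ∃ l : List V, l.length = d' a b + 1 ∧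
      l.Nodup ∧ l.IsChain G.Adj ∧ l.head? = some a ∧ l.getLast? = some b ∧
      ∀ i, (hi : i < l.length) → l[i] ∈ insert x X ∧ d' a l[i] = i ∧ d' l[i] b + i = d' a b := by
    intro a ha b hb
    rcases Finset.mem_insert.1 ha with rfl | ha'
    · exact hnew b hb
    rcases Finset.mem_insert.1 hb with rfl | hb'
    · obtain ⟨l, hl, hn, hc, hh, ht, hi'⟩ := hnew a ha
      refine ⟨l.reverse, by rw [List.length_reverse, hl, hsymm a ha b hb], List.nodup_reverse.2 hn,
        List.isChain_reverse.2 (hc.imp fun u v h => h.symm), by simp [ht], by simp [hh],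
        fun i hi => ?_⟩
      rw [List.length_reverse] at hi
      rw [List.getElem_reverse]
      obtain ⟨h1, h2, h3⟩ := hi' (l.length - 1 - i) (by omega)
      refine ⟨h1, ?_, ?_⟩
      · rw [hsymm a ha _ h1]; omega
      · rw [hsymm _ h1 b hb, hsymm a ha b hb]; omega
    obtain ⟨l, hl, hn, hc, hh, ht, hi'⟩ := M.path a ha' b hb'
    refine ⟨l, by rw [dab a ha' b hb', hl], hn, hc, hh, ht, fun i hi => ?_⟩
    obtain ⟨h1, h2, h3⟩ := hi' i hi
    refine ⟨Finset.mem_insert_of_mem h1, by rw [dab a ha' _ h1, h2], ?_⟩
    rw [dab _ h1 b hb', dab a ha' b hb']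
    exact h3
  have hself : ∀ a ∈ insert x X, d' a a = 0 := by
    intro a ha
    rcases Finset.mem_insert.1 ha with rfl | ha
    · exact dxx
    · rw [dab a ha a ha, M.self a ha]
  refine ⟨⟨d', hself, hsymm, ?_, hpath⟩, by simp [dxb y hy, M.self y hy], dab, dxb⟩
  -- the four-point condition
  intro a ha b hb c hc e he
  have tri : ∀ {p q r : V}, p ∈ X → q ∈ X → r ∈ X → M.d p q ≤ M.d p r + M.d r q :=
    fun hp hq hr => M.triangle hp hq hr
  rcases Finset.mem_insert.1 ha with ha | ha <;> rcases Finset.mem_insert.1 hb with hb | hb <;>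
    rcases Finset.mem_insert.1 hc with hc | hc <;> rcases Finset.mem_insert.1 he with he | he <;>
    (try subst a) <;> (try subst b) <;> (try subst c) <;> (try subst e) <;>
    simp (config := { failIfUnchanged := false }) only [dxx, dxb, dbx, dab, *] <;>
    first
      | omega
      | (have := M.four a ha b hb c hc e he; omega)
      | (have h1 := M.symm y hy; have h2 := M.self y hy
         first
           | (have := M.four a ha b hb c hc y hy; have := h1 a ha; have := h1 b hb
              have := h1 c hc; omega)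
           | (have := M.four a ha b hb y hy e he; have := h1 a ha; have := h1 b hb
              have := h1 e he; omega)
           | (have := M.four a ha y hy c hc e he; have := h1 a ha; have := h1 c hc
              have := h1 e he; omega)
           | (have := M.four y hy b hb c hc e he; have := h1 b hb; have := h1 c hc
              have := h1 e he; omega)
           | (have := tri ha hb hy; have := h1 a ha; have := h1 b hb; omega)
           | (have := tri ha hc hy; have := h1 a ha; have := h1 c hc; omega)
           | (have := tri ha he hy; have := h1 a ha; have := h1 e he; omega)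
           | (have := tri hb hc hy; have := h1 b hb; have := h1 c hc; omega)
           | (have := tri hb he hy; have := h1 b hb; have := h1 e he; omega)
           | (have := tri hc he hy; have := h1 c hc; have := h1 e he; omega)
           | (have := h1 a ha; omega)
           | (have := h1 b hb; omega)
           | (have := h1 c hc; omega)
           | (have := h1 e he; omega))

end TreeMetric

end Vale.Agent.P048
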